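import Vale.Agent.P256.Taylor

/-!
Contact of lines with the boundary: curvature is negative unless the line lies in the zero set.
-/

namespace Vale.Agent.P256

open MvPolynomial Filter Topology

variable {n d : ℕ} {p : MvPolynomial (Fin n) ℝ} {e y u : Fin n → ℝ}

/-- The gradient. -/
noncomputable def grad (p : MvPolynomial (Fin n) ℝ) (y : Fin n → ℝ) : Fin n → ℝ :=
  fun i => eval y (pderiv i p)

theorem pt_add_smul (r r' s : ℝ) (z v : Fin n → ℝ) :
    pt r z + s • pt r' v = pt (r + s * r') (z + s • v) := by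
  funext o; cases o <;> simp [pt]

theorem blow_grad (p : MvPolynomial (Fin n) ℝ) (y z v : Fin n → ℝ) :
    ∑ j, eval (pt 0 z) (pderiv (some j) (blow p y)) * v j
      = grad (tangentForm p y) z ⬝ᵥ v := by
  have h := dirderiv_congr (P := blow p y) (Q := tangentForm p y) (Y := pt 0 z) (V := pt 0 v)
    (y := z) (v := v) fun s => by rw [pt_add_smul, mul_zero, add_zero, blow_zero']
  simpa [Fintype.sum_option, dotProduct, grad] using h

theorem blow_grad_one (p : MvPolynomial (Fin n) ℝ) (y z : Fin n → ℝ) (j : Fin n) :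
    eval (pt 0 z) (pderiv (some j) (blow p y)) = grad (tangentForm p y) z j := by
  simpa [dotProduct, Pi.single_apply] using blow_grad p y z (Pi.single j 1)

theorem linear_part (hy : eval y p = 0) (hg : grad p y ≠ 0) :
    mult p y = 1 ∧ ∀ z, eval z (tangentForm p y) = grad p y ⬝ᵥ z := by
  have hp0 : p ≠ 0 := fun h => hg (funext fun i => by simp [grad, h])
  have key : ∀ z, lineR p y z
      = Polynomial.X ^ mult p y * lineR (blow p y) (pt 0 z) (pt 1 0) := fun z =>
    Polynomial.funext fun s => by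
      rw [lineR_eval, Polynomial.eval_mul, Polynomial.eval_pow, Polynomial.eval_X, lineR_eval,
        pt_add_smul, mul_one, zero_add, smul_zero, add_zero, blow_spec']
  have h1 := one_le_mult hp0 hy
  have hm : mult p y = 1 := by
    refine le_antisymm (not_lt.mp fun hm => hg (funext fun i => ?_)) h1
    have h : (lineR p y (Pi.single i 1)).coeff 1 = 0 := by
      rw [key, mul_comm, Polynomial.coeff_mul_X_pow']
      simp [not_le.mpr hm]
    rw [lineR_coeff_one] at h
    simpa [Pi.single_apply, grad] using h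
  refine ⟨hm, fun z => ?_⟩
  have h := congrArg (fun P : Polynomial ℝ => P.coeff 1) (key z)
  rw [hm, pow_one] at h
  simp only [lineR_coeff_one, Polynomial.coeff_X_mul, Polynomial.coeff_zero_eq_eval_zero,
    lineR_eval, zero_smul, add_zero, blow_zero'] at h
  rw [← h]
  rfl

theorem exists_nonreal_root {i : ℕ} (hi : 1 ≤ i) {c g : ℝ} (hc : c ≠ 0) (hg : 0 < g)
    (h : ¬(i = 1 ∧ c < 0)) :
    ∃ σ : ℂ, σ.im ≠ 0 ∧ (c : ℂ) * σ ^ (i + 1) + g = 0 := by
  set R : ℝ := (g / |c|) ^ ((1:ℝ) / (i + 1 : ℕ))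
  have hR : 0 < R := Real.rpow_pos_of_pos (div_pos hg (abs_pos.mpr hc)) _
  have hRpow : R ^ (i + 1) = g / |c| := by
    rw [← Real.rpow_natCast R, ← Real.rpow_mul (div_pos hg (abs_pos.mpr hc)).le,
      one_div_mul_cancel (by positivity), Real.rpow_one]
  have hi' : (0:ℝ) < (i + 1 : ℕ) := by positivity
  have key : ∀ k : ℝ, 0 < k → k < (i + 1 : ℕ) →
      Complex.exp (((k * Real.pi : ℝ) : ℂ) * Complex.I) = (-(c / |c|) : ℝ) →
      ∃ σ : ℂ, σ.im ≠ 0 ∧ (c : ℂ) * σ ^ (i + 1) + g = 0 := by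
    intro k hk hk' hexp
    refine ⟨(R:ℂ) * Complex.exp (((k * Real.pi / (i + 1 : ℕ) : ℝ) : ℂ) * Complex.I), ?_, ?_⟩
    · rw [Complex.im_ofReal_mul, Complex.exp_ofReal_mul_I_im]
      refine (mul_pos hR (Real.sin_pos_of_pos_of_lt_pi ?_ ?_)).ne'
      · positivity
      · rw [div_lt_iff₀ hi']
        nlinarith [Real.pi_pos]
    · rw [mul_pow, ← Complex.exp_nat_mul, ← mul_assoc (((i + 1 : ℕ) : ℂ)),
        ← Complex.ofReal_natCast, ← Complex.ofReal_mul, mul_div_cancel₀ _ hi'.ne', hexp,
        ← Complex.ofReal_pow, hRpow, ← Complex.ofReal_mul, ← Complex.ofReal_mul,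
        ← Complex.ofReal_add, Complex.ofReal_eq_zero]
      have : c * c = |c| * |c| := (abs_mul_abs_self c).symm
      field_simp
      nlinarith [abs_pos.mpr hc]
  rcases lt_or_gt_of_ne hc with hneg | hpos
  · have hi2 : 2 ≤ i := by
      by_contra hn
      exact h ⟨by omega, hneg⟩
    refine key 2 two_pos (by exact_mod_cast Nat.lt_succ_of_le hi2) ?_
    rw [abs_of_neg hneg, div_neg, div_self hc, neg_neg, Complex.ofReal_one]
    simp
  · refine key 1 one_pos (by exact_mod_cast Nat.lt_succ_of_le hi) ?_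
    rw [abs_of_pos hpos, div_self hc]
    simp

theorem contact_core (hp : p.IsHomogeneous d) (he : Hyperbolic p e) (hy : y ∈ hypCone p e)
    {i l : ℕ} (hi : 1 ≤ i) {c g : ℝ} (hc : c ≠ 0) (hg : 0 < g) (sc : ℝ → ℂ)
    (hlim : ∀ σ : ℂ, σ ≠ 0 → Tendsto
      (fun h : ℝ => sc h * lineVal p (cv (y + h ^ (i + 1) • e)) (cv (h • u)) σ) (𝓝[>] 0)
      (𝓝 (σ ^ l * ((c:ℂ) * σ ^ (i + 1) + g)))) :
    i = 1 ∧ c < 0 := by
  by_contra hcon
  obtain ⟨σ₀, him, hroot⟩ := exists_nonreal_root hi hc hg hcon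
  have hσ0 : σ₀ ≠ 0 := fun h => him (by simp [h])
  have hrev : ∀ lam : ℂ, lam ≠ 0 → Tendsto
      (fun h : ℝ => sc h * lineVal p (cv (h • u)) (cv (y + h ^ (i + 1) • e)) lam) (𝓝[>] 0)
      (𝓝 (lam ^ d * (lam⁻¹ ^ l * ((c:ℂ) * lam⁻¹ ^ (i + 1) + g)))) := fun lam hl => by
    refine ((hlim lam⁻¹ (inv_ne_zero hl)).const_mul (lam ^ d)).congr fun h => ?_
    rw [lineVal_inv hp (cv (h • u)) _ hl]
    ring
  set lam₀ := σ₀⁻¹ with hlam
  have hl0 : lam₀.im ≠ 0 := by
    rw [hlam, Complex.inv_im]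
    exact div_ne_zero (neg_ne_zero.mpr him) (fun h => hσ0 (Complex.normSq_eq_zero.mp h))
  let f : ℝ → ℂ := fun t => (lam₀.re : ℂ) + (t:ℂ) * (lam₀.im : ℂ) * Complex.I
  have hfim : ∀ t, (f t).im = t * lam₀.im := fun t => by simp [f]
  have hfne : ∀ t ∈ Set.Ioc (0:ℝ) 1, f t ≠ 0 := fun t ht h => by
    have := hfim t
    rw [h] at this
    simp [ht.1.ne', hl0] at this
  let Q : Polynomial ℂ := Polynomial.X ^ l *
    (Polynomial.C (c:ℂ) * Polynomial.X ^ (i + 1) + Polynomial.C (g:ℂ))
  have hQ : Q ≠ 0 := fun h => by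
    have h' := congrArg (fun P : Polynomial ℂ => P.coeff l) h
    simp [Q, mul_comm (Polynomial.X ^ l), Polynomial.coeff_mul_X_pow', hg.ne'] at h'
  refine hQ (Polynomial.eq_zero_of_infinite_isRoot Q
    ((((Set.Ioc_infinite zero_lt_one).image (f := fun t => (f t)⁻¹) ?_)).mono ?_))
  · intro s _ t _ hst
    have := congrArg Complex.im (inv_injective hst)
    rw [hfim, hfim] at this
    exact mul_right_cancel₀ hl0 this
  rintro _ ⟨t, ht, rfl⟩
  show Q.IsRoot (f t)⁻¹
  have hlam0 : lam₀ ≠ 0 := inv_ne_zero hσ0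
  have hw := hrev lam₀ hlam0
  rw [hlam, inv_inv, hroot, mul_zero, mul_zero, ← hlam] at hw
  have hwp : ∀ h : ℝ, 0 < h → Hyperbolic p (y + h ^ (i + 1) • e) := fun h hh =>
    garding hp he (scale_mem_Lam hp hy he (self_mem_Lam hp he) (pow_pos hh _))
  have hzero := line_limit_zero hp (l := 𝓝[>] (0:ℝ))
    (x := fun h : ℝ => cv (h • u)) (a := fun h : ℝ => cv (y + h ^ (i + 1) • e)) (c := sc)
    ?_ ?_ (hrev (f t) (hfne t ht)) hw
  · rw [mul_eq_zero] at hzero
    simpa [Q, Polynomial.IsRoot] using hzero.resolve_left (pow_ne_zero _ (hfne t ht))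
  · filter_upwards [self_mem_nhdsWithin] with h hh
    rw [aeval_cv]
    exact_mod_cast (hwp h hh).1.ne'
  · filter_upwards [self_mem_nhdsWithin] with h hh ρ hρ
    have hρim := line_im (hwp h hh) _ hρ
    rw [Complex.norm_eq_sqrt_sq_add_sq, Complex.norm_eq_sqrt_sq_add_sq]
    apply Real.sqrt_le_sqrt
    simp [f, hρim]
    rw [mul_pow]
    exact mul_le_of_le_one_left (sq_nonneg _) (pow_le_one₀ ht.1.le ht.2)

/-- First-order part of the blow-up in the direction `e`. -/
noncomputable def gpart {R : Type} [CommRing R] [Algebra ℝ R] (p : MvPolynomial (Fin n) ℝ)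
    (y e u : Fin n → ℝ) (r τ : R) : R :=
  ∑ j, aeval (pt r fun i => algebraMap ℝ R (u i)) (pderiv (some j) (blow p y)) *
      algebraMap ℝ R (e j) +
    τ * ∑ j, ∑ k, aeval (Sum.elim (pt r fun i => algebraMap ℝ R (u i) + τ * algebraMap ℝ R (e i))
      (pt r fun i => algebraMap ℝ R (u i))) (tay (blow p y) (some j) (some k)) *
        algebraMap ℝ R (e j) * algebraMap ℝ R (e k)

theorem blow_dir {R : Type} [CommRing R] [Algebra ℝ R] (r τ : R) :
    aeval (pt r fun i => algebraMap ℝ R (u i) + τ * algebraMap ℝ R (e i)) (blow p y)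
      = aeval (pt r fun i => algebraMap ℝ R (u i)) (blow p y) + τ * gpart p y e u r τ := by
  rw [tay_spec (blow p y) (pt r fun i => algebraMap ℝ R (u i) + τ * algebraMap ℝ R (e i))
    (pt r fun i => algebraMap ℝ R (u i))]
  simp only [Fintype.sum_option, pt_none, pt_some, sub_self, mul_zero, zero_mul, zero_add,
    add_sub_cancel_left, gpart, Finset.mul_sum, mul_add]
  rw [add_assoc]
  congr 2
  · exact Finset.sum_congr rfl fun j _ => by ring
  · simp only [Finset.sum_const_zero, zero_add]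
    exact Finset.sum_congr rfl fun j _ => Finset.sum_congr rfl fun k _ => by ring

theorem continuous_aeval_elim {σ T : Type*} {R : Type} [CommRing R] [Algebra ℝ R]
    [TopologicalSpace R] [IsTopologicalRing R] [TopologicalSpace T] (P : MvPolynomial σ ℝ)
    {v : T → σ → R} (hv : ∀ s, Continuous fun t => v t s) :
    Continuous fun t => aeval (v t) P := by
  induction P using MvPolynomial.induction_on with
  | C c => simpa using continuous_const
  | add a b ha hb => simp only [map_add]; exact ha.add hb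
  | mul_X a o ha => simp only [map_mul, aeval_X]; exact ha.mul (hv o)

theorem continuous_gpart {R : Type} [CommRing R] [Algebra ℝ R] [TopologicalSpace R]
    [IsTopologicalRing R] {T : Type*} [TopologicalSpace T] {r τ : T → R} (hr : Continuous r)
    (hτ : Continuous τ) : Continuous fun t => gpart p y e u (r t) (τ t) := by
  have h1 : ∀ o, Continuous fun t => pt (r t) (fun i => algebraMap ℝ R (u i)) o := fun o => by
    cases o <;> simp [pt] <;> fun_prop
  have h2 : ∀ s, Continuous fun t => Sum.elim (pt (r t) fun i => algebraMap ℝ R (u i) +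
      τ t * algebraMap ℝ R (e i)) (pt (r t) fun i => algebraMap ℝ R (u i)) s := fun s => by
    rcases s with o | o
    · cases o <;> simp [pt] <;> fun_prop
    · exact h1 o
  unfold gpart
  refine (continuous_finsetSum _ fun j _ => (continuous_aeval_elim _ h1).mul continuous_const).add
    (hτ.mul (continuous_finsetSum _ fun j _ => continuous_finsetSum _ fun k _ => ?_))
  exact ((continuous_aeval_elim _ h2).mul continuous_const).mul continuous_const

theorem gpart_real_zero :
    gpart p y e u (0:ℝ) 0 = grad (tangentForm p y) u ⬝ᵥ e := by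
  simp only [gpart, Algebra.algebraMap_self, RingHom.id_apply, zero_mul, add_zero, aeval_eq_eval]
  exact blow_grad p y u e

theorem gpart_complex_zero :
    gpart p y e u (0:ℂ) 0 = ((grad (tangentForm p y) u ⬝ᵥ e : ℝ) : ℂ) := by
  rw [← gpart_real_zero]
  simp only [gpart, Algebra.algebraMap_self, RingHom.id_apply, zero_mul, add_zero,
    Complex.coe_algebraMap, aeval_eq_eval, Complex.ofReal_sum, Complex.ofReal_mul]
  refine Finset.sum_congr rfl fun j _ => ?_
  congr 1
  rw [← aeval_eq_eval]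
  have := aeval_algebraMap_apply ℂ (pt (0:ℝ) u) (pderiv (some j) (blow p y))
  simp only [Complex.coe_algebraMap, aeval_eq_eval] at this
  rw [aeval_eq_eval, ← this]
  exact congrArg (fun v => aeval v (pderiv (some j) (blow p y)))
    (funext fun o => by cases o <;> simp [pt])

/-- The dichotomy: strictly negative curvature, or a line in the zero set. -/
theorem curv (hp : p.IsHomogeneous d) (he : Hyperbolic p e) (hy : y ∈ hypCone p e)
    (hm : 1 ≤ mult p y) (hu : eval u (tangentForm p y) = 0)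
    (hg : 0 < grad (tangentForm p y) u ⬝ᵥ e) :
    eval (pt 0 u) (pderiv none (blow p y)) < 0 ∨ ∀ s : ℝ, eval (y + s • u) p = 0 := by
  set P := lineR (blow p y) (pt 0 u) (pt 1 0) with hPdef
  have hP : ∀ s : ℝ, P.eval s = eval (pt s u) (blow p y) := fun s => by
    rw [lineR_eval, pt_add_smul]; simp
  by_cases hzero : P = 0
  · exact Or.inr fun s => by rw [blow_spec', ← hP, hzero]; simp
  left
  obtain ⟨i, W, hW, hfac⟩ : ∃ (i : ℕ) (W : Polynomial ℝ), W.eval 0 ≠ 0 ∧
      P = Polynomial.X ^ i * W := by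
    obtain ⟨W, h1, h2⟩ := Polynomial.exists_eq_pow_rootMultiplicity_mul_and_not_dvd P hzero 0
    refine ⟨_, W, fun h => h2 ?_, by simpa using h1⟩
    rw [Polynomial.dvd_iff_isRoot]
    exact h
  have hi : 1 ≤ i := by
    by_contra hn
    apply hW
    have h0 := hP 0
    rw [blow_zero', hu, hfac, Nat.lt_one_iff.mp (not_le.mp hn)] at h0
    simpa using h0
  have hcoe : P.coeff 1 = eval (pt 0 u) (pderiv none (blow p y)) := by
    rw [hPdef, lineR_coeff_one, Fintype.sum_option]
    simp
  have hres := contact_core (u := u) hp he hy (i := i) (l := mult p y - 1) hi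
    (c := W.eval 0) (g := grad (tangentForm p y) u ⬝ᵥ e) hW hg
    (fun h : ℝ => (((h ^ (mult p y + i))⁻¹ : ℝ) : ℂ)) ?_
  · obtain ⟨rfl, hc⟩ := hres
    rw [← hcoe, hfac, pow_one, Polynomial.coeff_X_mul, Polynomial.coeff_zero_eq_eval_zero]
    exact hc
  intro σ hσ
  let F : ℝ → ℂ := fun h => σ ^ mult p y *
    (σ ^ i * Polynomial.eval₂ (algebraMap ℝ ℂ) ((h:ℂ) * σ) W +
      σ⁻¹ * gpart p y e u ((h:ℂ) * σ) ((h:ℂ) ^ i / σ))
  have hF : Continuous F := continuous_const.mul ((continuous_const.mul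
    (by simp_rw [Polynomial.eval₂_eq_eval_map]; fun_prop)).add
      (continuous_const.mul (continuous_gpart (by fun_prop) (by fun_prop))))
  have h0 := (hF.tendsto 0).mono_left (nhdsWithin_le_nhds (s := Set.Ioi (0:ℝ)))
  have hF0 : F 0 = σ ^ (mult p y - 1) *
      (((W.eval 0 : ℝ):ℂ) * σ ^ (i + 1) + ((grad (tangentForm p y) u ⬝ᵥ e : ℝ) : ℂ)) := by
    simp only [F, Complex.ofReal_zero, zero_mul, zero_pow (by omega : i ≠ 0), zero_div,
      gpart_complex_zero, Polynomial.eval₂_at_zero]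
    rw [show mult p y = mult p y - 1 + 1 by omega, pow_succ, Polynomial.coeff_zero_eq_eval_zero,
      Complex.coe_algebraMap]
    simp only [Nat.add_sub_cancel]
    field_simp
    ring
  rw [hF0] at h0
  refine h0.congr' ?_
  filter_upwards [self_mem_nhdsWithin] with h hh
  replace hh : (h:ℂ) ≠ 0 := by exact_mod_cast ne_of_gt (show (0:ℝ) < h from hh)
  have hτ : ((h:ℂ) * σ) * ((h:ℂ) ^ i / σ) = (h:ℂ) ^ (i + 1) := by field_simp; ring
  have hline : lineVal p (cv (y + h ^ (i + 1) • e)) (cv (h • u)) σ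
      = ((h:ℂ) * σ) ^ mult p y * aeval (pt ((h:ℂ) * σ) fun j => algebraMap ℝ ℂ (u j) +
          (h:ℂ) ^ i / σ * algebraMap ℝ ℂ (e j)) (blow p y) := by
    rw [← blow_spec, lineVal]
    refine congrArg (fun v => aeval v p) (funext fun j => ?_)
    simp [cv]
    field_simp
    ring
  have hB : aeval (pt ((h:ℂ) * σ) fun j => algebraMap ℝ ℂ (u j)) (blow p y)
      = ((h:ℂ) * σ) ^ i * Polynomial.eval₂ (algebraMap ℝ ℂ) ((h:ℂ) * σ) W := by
    have h1 : aeval (fun o => Polynomial.C (pt 0 u o) + Polynomial.X * Polynomial.C (pt 1 0 o))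
        (blow p y) = Polynomial.X ^ i * W := hfac
    have h2 := congrArg (Polynomial.aeval ((h:ℂ) * σ)) h1
    rw [← AlgHom.comp_apply, comp_aeval] at h2
    rw [map_mul, map_pow, Polynomial.aeval_X, Polynomial.aeval_def] at h2
    rw [← h2]
    exact congrArg (fun v => aeval v (blow p y)) (funext fun o => by cases o <;> simp [pt])
  rw [hline, blow_dir, hB]
  simp only [F, Complex.ofReal_inv, Complex.ofReal_pow, mul_pow]
  field_simp
  ring

theorem line_in_frontier (hp : p.IsHomogeneous d) (he : Hyperbolic p e) (hy : y ∈ hypCone p e)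
    (hu : u ∈ hypCone (tangentForm p y) e) (hu0 : eval u (tangentForm p y) = 0)
    (hg : 0 < grad (tangentForm p y) u ⬝ᵥ e) (hz : ∀ s : ℝ, eval (y + s • u) p = 0) :
    ∀ᶠ h in 𝓝[>] (0:ℝ), y + h • u ∈ frontier (hypCone p e) := by
  obtain ⟨K, hK, hKmem⟩ : ∃ K : ℝ, 0 < K ∧ ∀ τ, K ≤ τ → u + τ • e ∈ Lam p e := by
    have hc : Tendsto (fun τ : ℝ => τ⁻¹ • u + e) atTop (𝓝 e) := by
      simpa using ((tendsto_inv_atTop_zero (𝕜 := ℝ)).smul_const u).add_const e
    obtain ⟨K, hK⟩ := eventually_atTop.mp ((hc.eventually ((isOpen_Lam hp he).mem_nhds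
      (self_mem_Lam hp he))).and (eventually_gt_atTop (0:ℝ)))
    refine ⟨max K 1, by positivity, fun τ hτ => ?_⟩
    obtain ⟨h1, h2⟩ := hK τ (le_trans (le_max_left _ _) hτ)
    simpa [smul_smul, h2.ne'] using smul_mem_Lam hp h1 h2
  have hG : ∀ τ ∈ Set.Icc (0:ℝ) K, gpart p y e u (0:ℝ) τ ≠ 0 := fun τ hτ h => by
    rcases hτ.1.eq_or_lt with rfl | hpos
    · rw [gpart_real_zero] at h; linarith
    · have e1 := blow_dir (p := p) (y := y) (u := u) (e := e) (R := ℝ) 0 τ
      simp only [Algebra.algebraMap_self, RingHom.id_apply, aeval_eq_eval, blow_zero', h, mul_zero,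
        add_zero, hu0] at e1
      exact (mem_hypCone (tangentForm_homogeneous p y)).mp hu τ hpos
        (by simpa [blow_zero', Pi.add_def, Pi.smul_def] using e1)
  have hev := isCompact_Icc.eventually_forall_of_forall_eventually (x₀ := (0:ℝ))
    (K := Set.Icc (0:ℝ) K) (P := fun h τ => gpart p y e u h τ ≠ 0) fun τ hτ =>
      (continuous_gpart (T := ℝ × ℝ) continuous_fst continuous_snd).continuousAt.eventually_ne
        (hG τ hτ)
  filter_upwards [nhdsWithin_le_nhds hev, self_mem_nhdsWithin] with h hh hpos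
  replace hpos : 0 < h := hpos
  refine (mem_frontier_hypCone hp he).mpr ⟨(mem_hypCone hp).mpr fun s hs h0 => ?_, hz h⟩
  rcases le_or_gt (K * h) s with hbig | hsmall
  · have hmem := scale_mem_Lam hp hy he (hKmem (s / h) ((le_div_iff₀ hpos).mpr hbig)) hpos
    rw [smul_add, smul_smul, mul_div_cancel₀ _ hpos.ne', ← add_assoc] at hmem
    exact (lam_pos hp he hmem).ne' h0
  · have e1 := blow_dir (p := p) (y := y) (u := u) (e := e) (R := ℝ) h (s / h)
    simp only [Algebra.algebraMap_self, RingHom.id_apply, aeval_eq_eval] at e1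
    have e2 := blow_spec' p y (u + (s / h) • e) h
    rw [smul_add, smul_smul, mul_div_cancel₀ _ hpos.ne', ← add_assoc, h0] at e2
    have e3 := blow_spec' p y u h
    rw [hz h] at e3
    have hb : eval (pt h u) (blow p y) = 0 := by
      rcases mul_eq_zero.mp e3.symm with h' | h'
      · exact absurd h' (pow_ne_zero _ hpos.ne')
      · exact h'
    rw [hb, zero_add] at e1
    rcases mul_eq_zero.mp e2.symm with h' | h'
    · exact pow_ne_zero _ hpos.ne' h'
    · refine hh (s / h) ⟨by positivity, ((div_lt_iff₀ hpos).mpr hsmall).le⟩ ?_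
      have e4 : (0:ℝ) = s / h * gpart p y e u h (s / h) := by
        rw [← e1, ← h']
        exact congrArg (fun v => eval (pt h v) (blow p y))
          (funext fun i => by simp)
      exact (mul_eq_zero.mp e4.symm).resolve_left (div_pos hs hpos).ne'

end Vale.Agent.P256
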