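import Mathlib

/-!
Hyperbolic polynomials, their cones, tangent forms and spectrahedral shadows.
-/

namespace Vale.Agent.P256

open MvPolynomial

variable {n : ℕ}

/-- `p` is hyperbolic with respect to `e`: positive at `e`, only real roots on every line in
direction `e`. -/
def Hyperbolic (p : MvPolynomial (Fin n) ℝ) (e : Fin n → ℝ) : Prop :=
  0 < eval e p ∧ ∀ (x : Fin n → ℝ) (t : ℂ),
    aeval (fun i => t * (e i : ℂ) - (x i : ℂ)) p = 0 → t.im = 0

/-- The closed hyperbolicity cone: all roots of `t ↦ p (t e - x)` are nonnegative. -/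
def hypCone (p : MvPolynomial (Fin n) ℝ) (e : Fin n → ℝ) : Set (Fin n → ℝ) :=
  {x | ∀ t : ℝ, eval (t • e - x) p = 0 → 0 ≤ t}

/-- The polynomial `z ↦ p (y + z)`. -/
noncomputable def shift (p : MvPolynomial (Fin n) ℝ) (y : Fin n → ℝ) :
    MvPolynomial (Fin n) ℝ :=
  aeval (fun i => C (y i) + X i) p

/-- The lowest nonzero homogeneous component of `z ↦ p (y + z)`. -/
noncomputable def tangentForm (p : MvPolynomial (Fin n) ℝ) (y : Fin n → ℝ) :
    MvPolynomial (Fin n) ℝ :=
  homogeneousComponent (sInf {j : ℕ | homogeneousComponent j (shift p y) ≠ 0}) (shift p y)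

/-- A spectrahedral shadow: the projection of the solution set of a linear matrix inequality. -/
def IsShadow (S : Set (Fin n → ℝ)) : Prop :=
  ∃ (N a : ℕ) (A₀ : Matrix (Fin N) (Fin N) ℝ) (A : Fin n → Matrix (Fin N) (Fin N) ℝ)
    (B : Fin a → Matrix (Fin N) (Fin N) ℝ), A₀.IsSymm ∧ (∀ i, (A i).IsSymm) ∧
      (∀ j, (B j).IsSymm) ∧
      S = {x | ∃ u : Fin a → ℝ, (A₀ + ∑ i, x i • A i + ∑ j, u j • B j).PosSemidef}

end Vale.Agent.P256
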