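import Mathlib

/-!
Factorisations of slack functions by sums of squares of separable functions.
-/

namespace Vale.Agent.P256

open Filter Topology Matrix
open scoped MatrixOrder

variable {α β : Type*}

/-- A finite sum of products of a function of the first and one of the second variable. -/
def Sep (S : α → β → ℝ) : Prop :=
  ∃ (m : ℕ) (a : α → Fin m → ℝ) (b : β → Fin m → ℝ), ∀ x y, S x y = ∑ i, a x i * b y i

theorem Sep.left (f : α → ℝ) : Sep fun x (_ : β) => f x :=
  ⟨1, fun x _ => f x, fun _ _ => 1, fun x y => by simp⟩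

theorem Sep.right (g : β → ℝ) : Sep fun (_ : α) y => g y :=
  ⟨1, fun _ _ => 1, fun y _ => g y, fun x y => by simp⟩

theorem Sep.congr {S T : α → β → ℝ} (h : Sep S) (he : ∀ x y, S x y = T x y) : Sep T := by
  obtain ⟨m, a, b, hS⟩ := h
  exact ⟨m, a, b, fun x y => (he x y).symm.trans (hS x y)⟩

theorem Sep.add {S T : α → β → ℝ} (h : Sep S) (h' : Sep T) :
    Sep fun x y => S x y + T x y := by
  obtain ⟨m, a, b, hS⟩ := h
  obtain ⟨k, c, d, hT⟩ := h'
  refine ⟨m + k, fun x => Fin.append (a x) (c x), fun y => Fin.append (b y) (d y), fun x y => ?_⟩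
  simp [Fin.sum_univ_add, hS, hT]

theorem Sep.mul_fun {S : α → β → ℝ} (h : Sep S) (f : α → ℝ) (g : β → ℝ) :
    Sep fun x y => f x * g y * S x y := by
  obtain ⟨m, a, b, hS⟩ := h
  refine ⟨m, fun x i => f x * a x i, fun y i => g y * b y i, fun x y => ?_⟩
  simp only [hS, Finset.mul_sum]
  exact Finset.sum_congr rfl fun i _ => by ring

/-- Sums of squares of separable functions, weighted by nonnegative functions of one variable. -/
inductive Fac : (α → β → ℝ) → Prop
  | zero : Fac fun _ _ => 0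
  | sq {h : α → β → ℝ} : Sep h → Fac fun x y => h x y ^ 2
  | add {S T : α → β → ℝ} : Fac S → Fac T → Fac fun x y => S x y + T x y
  | mul {S : α → β → ℝ} (f : α → ℝ) (g : β → ℝ) : (∀ x, 0 ≤ f x) → (∀ y, 0 ≤ g y) → Fac S →
      Fac fun x y => f x * g y * S x y

/-- `S` has such a factorisation on `U × W`. -/
def FacOn (U : Set α) (W : Set β) (S : α → β → ℝ) : Prop :=
  ∃ T, Fac T ∧ ∀ x ∈ U, ∀ y ∈ W, T x y = S x y

variable {U U' : Set α} {W W' : Set β} {S T : α → β → ℝ}

theorem FacOn.mono (h : FacOn U W S) (hU : U' ⊆ U) (hW : W' ⊆ W) : FacOn U' W' S := by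
  obtain ⟨T, hT, he⟩ := h
  exact ⟨T, hT, fun x hx y hy => he x (hU hx) y (hW hy)⟩

theorem FacOn.congr (h : FacOn U W S) (he : ∀ x ∈ U, ∀ y ∈ W, S x y = T x y) : FacOn U W T := by
  obtain ⟨R, hR, hS⟩ := h
  exact ⟨R, hR, fun x hx y hy => (hS x hx y hy).trans (he x hx y hy)⟩

theorem FacOn.zero : FacOn U W fun _ _ => 0 := ⟨_, Fac.zero, fun _ _ _ _ => rfl⟩

theorem FacOn.sq {h : α → β → ℝ} (hh : Sep h) : FacOn U W fun x y => h x y ^ 2 :=
  ⟨_, Fac.sq hh, fun _ _ _ _ => rfl⟩

theorem FacOn.add (h : FacOn U W S) (h' : FacOn U W T) :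
    FacOn U W fun x y => S x y + T x y := by
  obtain ⟨R, hR, hS⟩ := h
  obtain ⟨Q, hQ, hT⟩ := h'
  exact ⟨_, Fac.add hR hQ, fun x hx y hy => by rw [hS x hx y hy, hT x hx y hy]⟩

theorem FacOn.mul (h : FacOn U W S) (f : α → ℝ) (g : β → ℝ) (hf : ∀ x ∈ U, 0 ≤ f x)
    (hg : ∀ y ∈ W, 0 ≤ g y) : FacOn U W fun x y => f x * g y * S x y := by
  obtain ⟨R, hR, hS⟩ := h
  refine ⟨_, Fac.mul (fun x => max (f x) 0) (fun y => max (g y) 0) (fun x => le_max_right _ _)
    (fun y => le_max_right _ _) hR, fun x hx y hy => ?_⟩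
  rw [max_eq_left (hf x hx), max_eq_left (hg y hy), hS x hx y hy]

theorem FacOn.const_mul (h : FacOn U W S) {c : ℝ} (hc : 0 ≤ c) :
    FacOn U W fun x y => c * S x y :=
  (h.mul (fun _ => c) (fun _ => 1) (fun _ _ => hc) fun _ _ => zero_le_one).congr
    fun x _ y _ => by ring

theorem FacOn.sum {ι : Type*} (s : Finset ι) (F : ι → α → β → ℝ)
    (h : ∀ i ∈ s, FacOn U W (F i)) : FacOn U W fun x y => ∑ i ∈ s, F i x y := by
  classical
  induction s using Finset.induction_on with
  | empty => simpa using FacOn.zero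
  | insert a s ha ih =>
    simp only [Finset.sum_insert ha]
    exact (h a (Finset.mem_insert_self a s)).add
      (ih fun i hi => h i (Finset.mem_insert_of_mem hi))

theorem FacOn.union_left (h : FacOn U W S) (h' : FacOn U' W S) : FacOn (U ∪ U') W S := by
  classical
  obtain ⟨R, hR, hS⟩ := h
  obtain ⟨Q, hQ, hT⟩ := h'
  refine ⟨_, Fac.add (Fac.mul (fun x => if x ∈ U then 1 else 0) (fun _ => 1)
      (fun x => by split_ifs <;> norm_num) (fun _ => zero_le_one) hR)
    (Fac.mul (fun x => if x ∈ U then 0 else 1) (fun _ => 1)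
      (fun x => by split_ifs <;> norm_num) (fun _ => zero_le_one) hQ), fun x hx y hy => ?_⟩
  by_cases hxU : x ∈ U
  · simp [hxU, hS x hxU y hy]
  · simp [hxU, hT x (hx.resolve_left hxU) y hy]

theorem FacOn.union_right (h : FacOn U W S) (h' : FacOn U W' S) : FacOn U (W ∪ W') S := by
  classical
  obtain ⟨R, hR, hS⟩ := h
  obtain ⟨Q, hQ, hT⟩ := h'
  refine ⟨_, Fac.add (Fac.mul (fun _ => 1) (fun y => if y ∈ W then 1 else 0)
      (fun _ => zero_le_one) (fun y => by split_ifs <;> norm_num) hR)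
    (Fac.mul (fun _ => 1) (fun y => if y ∈ W then 0 else 1)
      (fun _ => zero_le_one) (fun y => by split_ifs <;> norm_num) hQ), fun x hx y hy => ?_⟩
  by_cases hyW : y ∈ W
  · simp [hyW, hS x hx y hyW]
  · simp [hyW, hT x hx y (hy.resolve_left hyW)]

theorem FacOn.empty_left : FacOn (∅ : Set α) W S := ⟨_, Fac.zero, fun _ hx => hx.elim⟩

theorem FacOn.empty_right : FacOn U (∅ : Set β) S := ⟨_, Fac.zero, fun _ _ _ hy => hy.elim⟩

/-- A finite sum of products of functions with limits along the two filters. -/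
def SepC (Fx : Filter α) (Fy : Filter β) (S : α → β → ℝ) (c : ℝ) : Prop :=
  ∃ (m : ℕ) (a : α → Fin m → ℝ) (b : β → Fin m → ℝ) (la lb : Fin m → ℝ),
    (∀ x y, S x y = ∑ i, a x i * b y i) ∧ (∀ i, Tendsto (fun x => a x i) Fx (𝓝 (la i))) ∧
    (∀ i, Tendsto (fun y => b y i) Fy (𝓝 (lb i))) ∧ c = ∑ i, la i * lb i

variable {Fx : Filter α} {Fy : Filter β} {c d : ℝ}

theorem SepC.congr (h : SepC Fx Fy S c) (he : ∀ x y, S x y = T x y) (hc : c = d) :
    SepC Fx Fy T d := by
  obtain ⟨m, a, b, la, lb, hS, ha, hb, hcd⟩ := h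
  exact ⟨m, a, b, la, lb, fun x y => (he x y).symm.trans (hS x y), ha, hb, hc ▸ hcd⟩

theorem SepC.left {f : α → ℝ} (h : Tendsto f Fx (𝓝 c)) : SepC Fx Fy (fun x _ => f x) c :=
  ⟨1, fun x _ => f x, fun _ _ => 1, fun _ => c, fun _ => 1, fun x y => by simp, fun _ => h,
    fun _ => tendsto_const_nhds, by simp⟩

theorem SepC.right {g : β → ℝ} (h : Tendsto g Fy (𝓝 c)) : SepC Fx Fy (fun _ y => g y) c :=
  ⟨1, fun _ _ => 1, fun y _ => g y, fun _ => 1, fun _ => c, fun x y => by simp,
    fun _ => tendsto_const_nhds, fun _ => h, by simp⟩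

theorem SepC.const (c : ℝ) : SepC Fx Fy (fun _ _ => c) c := SepC.left tendsto_const_nhds

theorem SepC.add (h : SepC Fx Fy S c) (h' : SepC Fx Fy T d) :
    SepC Fx Fy (fun x y => S x y + T x y) (c + d) := by
  obtain ⟨m, a, b, la, lb, hS, ha, hb, rfl⟩ := h
  obtain ⟨k, a', b', la', lb', hT, ha', hb', rfl⟩ := h'
  refine ⟨m + k, fun x => Fin.append (a x) (a' x), fun y => Fin.append (b y) (b' y),
    Fin.append la la', Fin.append lb lb', fun x y => by simp [Fin.sum_univ_add, hS, hT],
    fun i => ?_, fun i => ?_, by simp [Fin.sum_univ_add]⟩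
  · refine Fin.addCases (fun j => ?_) (fun j => ?_) i
    · simpa using ha j
    · simpa using ha' j
  · refine Fin.addCases (fun j => ?_) (fun j => ?_) i
    · simpa using hb j
    · simpa using hb' j

theorem SepC.mul (h : SepC Fx Fy S c) (h' : SepC Fx Fy T d) :
    SepC Fx Fy (fun x y => S x y * T x y) (c * d) := by
  obtain ⟨m, a, b, la, lb, hS, ha, hb, rfl⟩ := h
  obtain ⟨k, a', b', la', lb', hT, ha', hb', rfl⟩ := h'
  refine ⟨m * k, fun x i => a x (finProdFinEquiv.symm i).1 * a' x (finProdFinEquiv.symm i).2,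
    fun y i => b y (finProdFinEquiv.symm i).1 * b' y (finProdFinEquiv.symm i).2,
    fun i => la (finProdFinEquiv.symm i).1 * la' (finProdFinEquiv.symm i).2,
    fun i => lb (finProdFinEquiv.symm i).1 * lb' (finProdFinEquiv.symm i).2,
    fun x y => ?_, fun i => (ha _).mul (ha' _), fun i => (hb _).mul (hb' _), ?_⟩
  · simp only [hS, hT]
    rw [Finset.sum_mul_sum, ← Equiv.sum_comp finProdFinEquiv, Fintype.sum_prod_type]
    simp only [Equiv.symm_apply_apply]
    exact Finset.sum_congr rfl fun i _ => Finset.sum_congr rfl fun j _ => by ring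
  · rw [Finset.sum_mul_sum, ← Equiv.sum_comp finProdFinEquiv, Fintype.sum_prod_type]
    simp only [Equiv.symm_apply_apply]
    exact Finset.sum_congr rfl fun i _ => Finset.sum_congr rfl fun j _ => by ring

theorem SepC.neg (h : SepC Fx Fy S c) : SepC Fx Fy (fun x y => -S x y) (-c) :=
  ((SepC.const (-1)).mul h).congr (fun x y => by ring) (by ring)

theorem SepC.sub (h : SepC Fx Fy S c) (h' : SepC Fx Fy T d) :
    SepC Fx Fy (fun x y => S x y - T x y) (c - d) :=
  (h.add h'.neg).congr (fun x y => by ring) (by ring)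

theorem SepC.sum {ι : Type*} (s : Finset ι) (F : ι → α → β → ℝ) (L : ι → ℝ)
    (h : ∀ i ∈ s, SepC Fx Fy (F i) (L i)) :
    SepC Fx Fy (fun x y => ∑ i ∈ s, F i x y) (∑ i ∈ s, L i) := by
  classical
  induction s using Finset.induction_on with
  | empty => simpa using SepC.const (Fx := Fx) (Fy := Fy) 0
  | insert a s ha ih =>
    simp only [Finset.sum_insert ha]
    exact (h a (Finset.mem_insert_self a s)).add
      (ih fun i hi => h i (Finset.mem_insert_of_mem hi))

theorem SepC.sep (h : SepC Fx Fy S c) : Sep S := by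
  obtain ⟨m, a, b, la, lb, hS, -⟩ := h
  exact ⟨m, a, b, hS⟩

/-- A perturbation that is absorbed by any positive multiple of the squares. -/
def Small (Fx : Filter α) (Fy : Filter β) (E : α → β → ℝ) : Prop :=
  ∀ ε : ℝ, 0 < ε → ∃ U ∈ Fx, ∃ W ∈ Fy, ∀ u v : α → β → ℝ, Sep u → Sep v →
    FacOn U W fun x y => ε * (u x y ^ 2 + v x y ^ 2) + E x y * u x y * v x y

theorem Small.congr {E E' : α → β → ℝ} (h : Small Fx Fy E) (he : ∀ x y, E x y = E' x y) :
    Small Fx Fy E' := by
  intro ε hε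
  obtain ⟨U, hU, W, hW, h⟩ := h ε hε
  exact ⟨U, hU, W, hW, fun u v hu hv => (h u v hu hv).congr fun x _ y _ => by rw [he]⟩

theorem Small.zero : Small Fx Fy fun _ _ => 0 := fun ε hε =>
  ⟨Set.univ, univ_mem, Set.univ, univ_mem, fun u v hu hv =>
    (((FacOn.sq hu).const_mul hε.le).add ((FacOn.sq hv).const_mul hε.le)).congr
      fun x _ y _ => by ring⟩

theorem Small.add {E E' : α → β → ℝ} (h : Small Fx Fy E) (h' : Small Fx Fy E') :
    Small Fx Fy fun x y => E x y + E' x y := by
  intro ε hε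
  obtain ⟨U, hU, W, hW, h⟩ := h (ε / 2) (half_pos hε)
  obtain ⟨U', hU', W', hW', h'⟩ := h' (ε / 2) (half_pos hε)
  refine ⟨U ∩ U', inter_mem hU hU', W ∩ W', inter_mem hW hW', fun u v hu hv => ?_⟩
  exact (((h u v hu hv).mono Set.inter_subset_left Set.inter_subset_left).add
    ((h' u v hu hv).mono Set.inter_subset_right Set.inter_subset_right)).congr
      fun x _ y _ => by ring

theorem Small.prod {a : α → ℝ} {b : β → ℝ} {la lb : ℝ} (ha : Tendsto a Fx (𝓝 la))
    (hb : Tendsto b Fy (𝓝 lb)) (h0 : la = 0 ∨ lb = 0) :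
    Small Fx Fy fun x y => a x * b y := by
  intro ε hε
  obtain ⟨A, B, hA, hB, hla, hlb, hAB⟩ :
      ∃ A B : ℝ, 0 < A ∧ 0 < B ∧ |la| < A ∧ |lb| < B ∧ A * B ≤ ε := by
    rcases h0 with h | h
    · refine ⟨ε / (|lb| + 1), |lb| + 1, by positivity, by positivity, ?_, by linarith, ?_⟩
      · rw [h, abs_zero]; positivity
      · rw [div_mul_cancel₀ _ (by positivity)]
    · refine ⟨|la| + 1, ε / (|la| + 1), by positivity, by positivity, by linarith, ?_, ?_⟩
      · rw [h, abs_zero]; positivity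
      · rw [mul_div_cancel₀ _ (by positivity)]
  refine ⟨{x | |a x| ≤ A}, (ha.abs.eventually (eventually_le_nhds hla)),
    {y | |b y| ≤ B}, (hb.abs.eventually (eventually_le_nhds hlb)), fun u v hu hv => ?_⟩
  have hab : A * B ≠ 0 := by positivity
  have hsep : Sep fun x y => u x y + (1 / (2 * (A * B))) * 1 * (a x * b y * v x y) :=
    hu.add ((hv.mul_fun a b).mul_fun (fun _ => 1 / (2 * (A * B))) fun _ => 1)
  have hrest : FacOn {x | |a x| ≤ A} {y | |b y| ≤ B} fun x y =>
      (3 / 4 + ((A ^ 2 - a x ^ 2) * b y ^ 2 + A ^ 2 * (B ^ 2 - b y ^ 2)) /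
        (4 * (A * B) ^ 2)) * v x y ^ 2 := by
    have h1 := ((FacOn.sq (U := {x | |a x| ≤ A}) (W := {y | |b y| ≤ B}) hv).mul
      (fun x => (A ^ 2 - a x ^ 2) / (4 * (A * B) ^ 2)) (fun y => b y ^ 2)
      (fun x hx => by
        have hx' : |a x| ≤ A := hx
        have : a x ^ 2 ≤ A ^ 2 := sq_le_sq' (by linarith [abs_le.mp hx']) (abs_le.mp hx').2
        positivity) (fun y _ => sq_nonneg _))
    have h2 := ((FacOn.sq (U := {x | |a x| ≤ A}) (W := {y | |b y| ≤ B}) hv).mul
      (fun _ => A ^ 2 / (4 * (A * B) ^ 2)) (fun y => B ^ 2 - b y ^ 2)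
      (fun x _ => by positivity) (fun y hy => by
        have hy' : |b y| ≤ B := hy
        have : b y ^ 2 ≤ B ^ 2 := sq_le_sq' (by linarith [abs_le.mp hy']) (abs_le.mp hy').2
        linarith))
    exact ((h1.add h2).add ((FacOn.sq hv).const_mul (by norm_num : (0:ℝ) ≤ 3 / 4))).congr
      fun x _ y _ => by ring
  refine (((FacOn.sq hsep).add hrest).const_mul (mul_pos hA hB).le |>.add
    (((FacOn.sq hu).add (FacOn.sq hv)).const_mul (sub_nonneg.mpr hAB))).congr fun x _ y _ => ?_
  field_simp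
  ring

theorem Small.finsum {ι : Type*} (s : Finset ι) (F : ι → α → β → ℝ)
    (h : ∀ i ∈ s, Small Fx Fy (F i)) : Small Fx Fy fun x y => ∑ i ∈ s, F i x y := by
  classical
  induction s using Finset.induction_on with
  | empty => simpa using Small.zero
  | insert a s ha ih =>
    simp only [Finset.sum_insert ha]
    exact (h a (Finset.mem_insert_self a s)).add
      (ih fun i hi => h i (Finset.mem_insert_of_mem hi))

theorem SepC.small (h : SepC Fx Fy S c) : Small Fx Fy fun x y => S x y - c := by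
  obtain ⟨m, a, b, la, lb, hS, ha, hb, rfl⟩ := h
  refine (Small.finsum Finset.univ (fun i x y => (a x i - la i) * b y i + la i * (b y i - lb i))
    fun i _ => (Small.prod (la := 0) (a := fun x => a x i - la i) (b := fun y => b y i)
      (by simpa using (ha i).sub_const (la i)) (hb i) (Or.inl rfl)).add
      (Small.prod (a := fun _ => la i) (b := fun y => b y i - lb i) tendsto_const_nhds
        (lb := 0) (by simpa using (hb i).sub_const (lb i)) (Or.inr rfl))).congr fun x y => ?_
  rw [hS, ← Finset.sum_sub_distrib]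
  exact Finset.sum_congr rfl fun i _ => by ring

theorem facOn_const_form {N : ℕ} (M : Matrix (Fin N) (Fin N) ℝ) (hM : M.PosSemidef)
    (z : Fin N → α → β → ℝ) (hz : ∀ i, Sep (z i)) :
    FacOn U W fun x y => ∑ i, ∑ j, M i j * z i x y * z j x y := by
  obtain ⟨B, hB⟩ := CStarAlgebra.nonneg_iff_eq_star_mul_self.mp hM.nonneg
  have hsep : ∀ k, Sep fun x y => ∑ i, B k i * z i x y := fun k => by
    have hs : ∀ s : Finset (Fin N), Sep fun x y => ∑ i ∈ s, B k i * z i x y := fun s => by
      induction s using Finset.induction_on with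
      | empty => simpa using Sep.left (β := β) fun _ : α => (0:ℝ)
      | insert a s ha ih =>
        simp only [Finset.sum_insert ha]
        exact (((hz a).mul_fun (fun _ => B k a) fun _ => 1).congr fun x y => by ring).add ih
    exact hs _
  refine (FacOn.sum Finset.univ (fun k x y => (∑ i, B k i * z i x y) ^ 2)
    fun k _ => FacOn.sq (hsep k)).congr fun x _ y _ => ?_
  have hM' : ∀ i j, M i j = ∑ k, B k i * B k j := fun i j => by
    rw [hB]; simp [Matrix.mul_apply, Matrix.star_eq_conjTranspose]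
  simp only [hM', Finset.sum_mul, sq, Finset.mul_sum]
  rw [Finset.sum_comm]
  refine Finset.sum_congr rfl fun i _ => ?_
  rw [Finset.sum_comm]
  exact Finset.sum_congr rfl fun j _ => Finset.sum_congr rfl fun k _ => by ring

/-- A form with coefficients near a positive definite one factorises near the limit. -/
theorem facOn_near {N : ℕ} (G : Fin N → Fin N → α → β → ℝ) (G0 : Matrix (Fin N) (Fin N) ℝ)
    (hG : ∀ i j, SepC Fx Fy (G i j) (G0 i j)) (hsymm : G0.IsHermitian) {δ : ℝ} (hδ : 0 < δ)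
    (hpos : ∀ v : Fin N → ℝ, δ * ∑ i, v i ^ 2 ≤ ∑ i, ∑ j, G0 i j * v i * v j) :
    ∃ U ∈ Fx, ∃ W ∈ Fy, ∀ z : Fin N → α → β → ℝ, (∀ i, Sep (z i)) →
      FacOn U W fun x y => ∑ i, ∑ j, G i j x y * z i x y * z j x y := by
  have hε : 0 < δ / (2 * ((N:ℝ) + 1)) := by positivity
  choose U hU W hW h using fun i j => (hG i j).small _ hε
  refine ⟨⋂ i, ⋂ j, U i j, iInter_mem.mpr fun i => iInter_mem.mpr (hU i),
    ⋂ i, ⋂ j, W i j, iInter_mem.mpr fun i => iInter_mem.mpr (hW i), fun z hz => ?_⟩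
  set ε := δ / (2 * ((N:ℝ) + 1)) with hεdef
  have hA : (G0 - (2 * N * ε) • (1 : Matrix (Fin N) (Fin N) ℝ)).PosSemidef := by
    refine Matrix.PosSemidef.of_dotProduct_mulVec_nonneg ?_ fun v => ?_
    · exact hsymm.sub (by simp [Matrix.IsHermitian])
    · have hle : 2 * N * ε ≤ δ := by
        rw [hεdef]; field_simp; nlinarith
      have hv : 0 ≤ ∑ i, v i ^ 2 := Finset.sum_nonneg fun i _ => sq_nonneg _
      have := hpos v
      have key : star v ⬝ᵥ (G0 - (2 * N * ε) • (1 : Matrix (Fin N) (Fin N) ℝ)) *ᵥ v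
          = (∑ i, ∑ j, G0 i j * v i * v j) - 2 * N * ε * ∑ i, v i ^ 2 := by
        rw [Matrix.sub_mulVec, Matrix.smul_mulVec, Matrix.one_mulVec, dotProduct_sub]
        simp only [dotProduct, Matrix.mulVec, star_trivial, Pi.smul_apply, smul_eq_mul,
          Finset.mul_sum]
        congr 1
        · exact Finset.sum_congr rfl fun i _ => Finset.sum_congr rfl fun j _ => by ring
        · exact Finset.sum_congr rfl fun i _ => by ring
      rw [key]
      nlinarith
  have h1 := facOn_const_form (U := ⋂ i, ⋂ j, U i j) (W := ⋂ i, ⋂ j, W i j) _ hA z hz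
  have h2 := FacOn.sum (U := ⋂ i, ⋂ j, U i j) (W := ⋂ i, ⋂ j, W i j) Finset.univ
    (fun i x y => ∑ j, (ε * (z i x y ^ 2 + z j x y ^ 2) + (G i j x y - G0 i j) * z i x y * z j x y))
    fun i _ => FacOn.sum _ _ fun j _ => (h i j (z i) (z j) (hz i) (hz j)).mono
      ((Set.iInter_subset _ i).trans (Set.iInter_subset _ j))
      ((Set.iInter_subset _ i).trans (Set.iInter_subset _ j))
  refine (h1.add h2).congr fun x _ y _ => ?_
  have e1 : ∑ i, ∑ j, (G0 - (2 * N * ε) • (1 : Matrix (Fin N) (Fin N) ℝ)) i j * z i x y * z j x y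
      = (∑ i, ∑ j, G0 i j * z i x y * z j x y) - 2 * N * ε * ∑ i, z i x y ^ 2 := by
    simp [Matrix.one_apply, sub_mul, Finset.sum_sub_distrib, Finset.mul_sum, sq, mul_assoc]
  simp only [Finset.sum_add_distrib, sub_mul, Finset.sum_sub_distrib, mul_add] at e1 ⊢
  rw [e1]
  simp only [← Finset.mul_sum, Finset.sum_const, Finset.card_univ, Fintype.card_fin, nsmul_eq_mul]
  ring

/-- A function with a positive limit factorises near the limit. -/
theorem facOn_pos (hS : SepC Fx Fy S c) (hc : 0 < c) : ∃ U ∈ Fx, ∃ W ∈ Fy, FacOn U W S := by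
  obtain ⟨U, hU, W, hW, h⟩ := facOn_near (N := 1) (fun _ _ => S)
    (Matrix.of fun _ _ => c) (fun _ _ => hS) (by ext i j; simp [Matrix.conjTranspose_apply]) hc
    (fun v => le_of_eq (by simp; ring))
  exact ⟨U, hU, W, hW, (h (fun _ _ _ => 1) fun _ => Sep.left fun _ => 1).congr
    fun x _ y _ => by simp⟩

/-- Positive semidefinite factors. -/
theorem Fac.psd (h : Fac S) : ∃ (ι : Type) (_ : Fintype ι) (A : α → Matrix ι ι ℝ)
    (B : β → Matrix ι ι ℝ), (∀ x, (A x).PosSemidef) ∧ (∀ y, (B y).PosSemidef) ∧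
      ∀ x y, S x y = ∑ i, ∑ j, A x i j * B y i j := by
  classical
  induction h with
  | zero => exact ⟨Empty, inferInstance, fun _ => 0, fun _ => 0, fun _ => PosSemidef.zero,
      fun _ => PosSemidef.zero, fun _ _ => by simp⟩
  | sq hh =>
    obtain ⟨m, a, b, hS⟩ := hh
    refine ⟨Fin m, inferInstance, fun x => vecMulVec (a x) (a x), fun y => vecMulVec (b y) (b y),
      fun x => by simpa using posSemidef_vecMulVec_self_star (a x),
      fun y => by simpa using posSemidef_vecMulVec_self_star (b y), fun x y => ?_⟩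
    simp only [vecMulVec_apply, hS]
    rw [pow_two, Finset.sum_mul_sum]
    exact Finset.sum_congr rfl fun i _ => Finset.sum_congr rfl fun j _ => by ring
  | add _ _ ih ih' =>
    obtain ⟨ι, _, A, B, hA, hB, hS⟩ := ih
    obtain ⟨κ, _, C, D, hC, hD, hT⟩ := ih'
    refine ⟨ι ⊕ κ, inferInstance, fun x => fromBlocks (A x) 0 0 (C x),
      fun y => fromBlocks (B y) 0 0 (D y), fun x => ?_, fun y => ?_, fun x y => by
      simp [hS, hT, Fintype.sum_sum_type]⟩
    · refine PosSemidef.of_dotProduct_mulVec_nonneg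
        ((hA x).isHermitian.fromBlocks (by simp) (hC x).isHermitian) fun v => ?_
      rw [fromBlocks_mulVec]
      simp only [dotProduct, Fintype.sum_sum_type, Sum.elim_inl, Sum.elim_inr, zero_mulVec,
        add_zero, zero_add, Pi.star_apply]
      exact add_nonneg ((hA x).dotProduct_mulVec_nonneg (v ∘ Sum.inl))
        ((hC x).dotProduct_mulVec_nonneg (v ∘ Sum.inr))
    · refine PosSemidef.of_dotProduct_mulVec_nonneg
        ((hB y).isHermitian.fromBlocks (by simp) (hD y).isHermitian) fun v => ?_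
      rw [fromBlocks_mulVec]
      simp only [dotProduct, Fintype.sum_sum_type, Sum.elim_inl, Sum.elim_inr, zero_mulVec,
        add_zero, zero_add, Pi.star_apply]
      exact add_nonneg ((hB y).dotProduct_mulVec_nonneg (v ∘ Sum.inl))
        ((hD y).dotProduct_mulVec_nonneg (v ∘ Sum.inr))
  | mul f g hf hg _ ih =>
    obtain ⟨ι, _, A, B, hA, hB, hS⟩ := ih
    refine ⟨ι, inferInstance, fun x => f x • A x, fun y => g y • B y,
      fun x => (hA x).smul (hf x), fun y => (hB y).smul (hg y), fun x y => ?_⟩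
    simp only [hS, Matrix.smul_apply, smul_eq_mul, Finset.mul_sum]
    exact Finset.sum_congr rfl fun i _ => Finset.sum_congr rfl fun j _ => by ring

end Vale.Agent.P256
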