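import Vale.Agent.P256.Node

/-!
The global factorisation and the lift.
-/

namespace Vale.Agent.P256

open MvPolynomial Filter Topology Matrix
open scoped MatrixOrder

variable {n d : ℕ} {p : MvPolynomial (Fin n) ℝ} {e : Fin n → ℝ}

theorem isShadow_of_psd {ι : Type*} [Fintype ι] {S : Set (Fin n → ℝ)}
    (L : Submodule ℝ ((Fin n → ℝ) × Matrix ι ι ℝ))
    (hsym : ∀ q ∈ L, q.2.IsSymm) (hS : S = {x | ∃ W, (x, W) ∈ L ∧ W.PosSemidef}) :
    IsShadow S := by
  classical
  obtain ⟨a, f, hf⟩ : ∃ (a : ℕ) (f : (Fin a → ℝ) →ₗ[ℝ] (Fin n → ℝ) × Matrix ι ι ℝ),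
      LinearMap.range f = L := by
    refine ⟨Module.finrank ℝ L, L.subtype.comp (Module.finBasis ℝ L).equivFun.symm.toLinearMap, ?_⟩
    rw [LinearMap.range_comp, LinearEquiv.range, Submodule.map_top, Submodule.range_subtype]
  let σ := Fintype.equivFin (ι ⊕ (Fin n ⊕ Fin n))
  let blk : Matrix ι ι ℝ → (Fin n → ℝ) → (Fin n → ℝ) →
      Matrix (Fin (Fintype.card (ι ⊕ (Fin n ⊕ Fin n)))) (Fin (Fintype.card (ι ⊕ (Fin n ⊕ Fin n)))) ℝ :=
    fun W u v => (Matrix.fromBlocks W 0 0 (Matrix.diagonal (Sum.elim u v))).submatrix σ.symm σ.symm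
  have hblk : ∀ W u v, (blk W u v).PosSemidef ↔ W.PosSemidef ∧ (∀ i, 0 ≤ u i) ∧ ∀ i, 0 ≤ v i := by
    intro W u v
    rw [Matrix.posSemidef_submatrix_equiv]
    refine ⟨fun h => ?_, fun ⟨h1, h2, h3⟩ => ?_⟩
    · have hW := h.submatrix Sum.inl
      have hD : (Matrix.diagonal (Sum.elim u v)).PosSemidef := by
        have := h.submatrix Sum.inr
        exact this
      rw [Matrix.posSemidef_diagonal_iff] at hD
      exact ⟨hW, fun i => hD (Sum.inl i), fun i => hD (Sum.inr i)⟩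
    · have hD : (Matrix.diagonal (Sum.elim u v)).PosSemidef :=
        Matrix.posSemidef_diagonal_iff.mpr fun i => i.rec h2 h3
      refine PosSemidef.of_dotProduct_mulVec_nonneg
        (h1.isHermitian.fromBlocks (by simp) hD.isHermitian) fun z => ?_
      rw [fromBlocks_mulVec]
      simp only [dotProduct, Fintype.sum_sum_type, Sum.elim_inl, Sum.elim_inr, zero_mulVec,
        add_zero, zero_add, Pi.star_apply]
      refine add_nonneg (h1.dotProduct_mulVec_nonneg (z ∘ Sum.inl)) ?_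
      simpa [dotProduct, Fintype.sum_sum_type] using hD.dotProduct_mulVec_nonneg (z ∘ Sum.inr)
  have hblksym : ∀ W u v, W.IsSymm → (blk W u v).IsSymm := fun W u v hW =>
    (Matrix.IsSymm.fromBlocks hW (by simp) (Matrix.isSymm_diagonal _)).submatrix _
  refine ⟨_, a, 0, fun i => blk 0 (Pi.single i 1) (-Pi.single i 1),
    fun j => blk (f (Pi.single j 1)).2 (-(f (Pi.single j 1)).1) (f (Pi.single j 1)).1,
    Matrix.isSymm_zero, fun i => hblksym _ _ _ Matrix.isSymm_zero,
    fun j => hblksym _ _ _ (hsym _ (hf ▸ LinearMap.mem_range_self f _)), ?_⟩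
  have hlmi : ∀ (x : Fin n → ℝ) (u : Fin a → ℝ),
      (0 : Matrix _ _ ℝ) + ∑ i, x i • blk 0 (Pi.single i 1) (-Pi.single i 1) +
        ∑ j, u j • blk (f (Pi.single j 1)).2 (-(f (Pi.single j 1)).1) (f (Pi.single j 1)).1
      = blk (f u).2 (x - (f u).1) ((f u).1 - x) := by
    intro x u
    have hu : f u = ∑ j, u j • f (Pi.single j 1) := by
      conv_lhs => rw [pi_eq_sum_univ' u]
      simp [map_sum, map_smul]
    ext r c
    simp only [blk, hu, Matrix.add_apply, Matrix.sum_apply, Matrix.smul_apply,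
      Matrix.submatrix_apply, zero_add]
    rcases σ.symm r with r' | r' <;> rcases σ.symm c with c' | c'
    · simp [Prod.snd_sum, Matrix.sum_apply]
    · simp
    · simp
    · rcases eq_or_ne r' c' with h | h
      · subst h
        rcases r' with i | i
        · simp [Prod.fst_sum, Finset.sum_apply, Pi.single_apply, sub_eq_add_neg]
        · simp [Prod.fst_sum, Finset.sum_apply, Pi.single_apply, sub_eq_add_neg, add_comm]
      · simp [h]
  ext x
  simp only [hS, Set.mem_ofPred_eq, hlmi, hblk]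
  constructor
  · rintro ⟨W, hW, hpsd⟩
    obtain ⟨u, hu⟩ := LinearMap.mem_range.mp (hf ▸ hW : (x, W) ∈ LinearMap.range f)
    exact ⟨u, by rw [hu]; exact ⟨hpsd, fun i => by simp, fun i => by simp⟩⟩
  · rintro ⟨u, hpsd, h1, h2⟩
    refine ⟨(f u).2, ?_, hpsd⟩
    have hx : x = (f u).1 := funext fun i => by
      have := h1 i; have := h2 i
      simp only [Pi.sub_apply] at *
      linarith
    rw [hx, Prod.mk.eta, ← hf]
    exact LinearMap.mem_range_self f u

variable (hp : p.IsHomogeneous d) (he : Hyperbolic p e) (hd : 1 ≤ d) (hn : 3 ≤ n)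
  (hC : StrictCone (hypCone p e))
  (hO : ∀ b ∈ frontier (hypCone p e), b ≠ 0 → Ordinary p e b)

omit hp he hd hn hC hO in
theorem Fset_ne_zero {b : Fin n → ℝ} (hb : b ∈ Fset p e) : b ≠ 0 := fun h => by
  have := hb.2
  simp [h] at this

omit hd hn hC hO in
theorem isCompact_Fset : IsCompact (Fset p e) := by
  refine (isCompact_sphere (0 : Fin n → ℝ) 1).of_isClosed_subset ?_ fun x hx => by simpa using hx.2
  exact isClosed_frontier.inter (isClosed_eq continuous_norm continuous_const)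

include hp he hd hn hC hO in
theorem pair_fac {a b : Fin n → ℝ} (ha : a ∈ Fset p e) (hb : b ∈ Fset p e) :
    ∃ U ∈ 𝓝[Fset p e] a, ∃ V ∈ 𝓝[Wset p e] b, FacOn U V (slack p e) := by
  by_cases hg : grad p b = 0
  swap
  · rcases eq_or_ne a b with rfl | hne
    · exact smooth_pair hp he hC ⟨hb, hg⟩
    · exact positive_pair hp he hd hn hC ha ⟨hb, hg⟩ hne
  have hOb := hO b hb.1 (Fset_ne_zero hb)
  have hdir : ∀ᶠ y in 𝓝[Fset p e \ {b}] b, dir b y ∈ Metric.sphere (0 : Fin n → ℝ) 1 :=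
    (near_props hp he hd hn hC hb).mono fun y hy => by simpa using hy.2.2.2.1
  have hW : 𝓝[Wset p e] b ≤ 𝓝[Fset p e \ {b}] b :=
    nhdsWithin_mono _ fun y hy => ⟨hy.1, fun (h : y = b) => hy.2 (h ▸ hg)⟩
  refine glue_right (isCompact_sphere (0 : Fin n → ℝ) 1) (dir b) (hdir.filter_mono hW)
    fun Z' _ => ?_
  rcases eq_or_ne a b with rfl | hne
  · obtain ⟨V₀, hV₀, hf₀⟩ := node_point hp he hd hn hC hOb hb hg Z'
    obtain ⟨U, hU, V, hV, hf⟩ := glue_left (Fy := Ly p e a Z') (isCompact_sphere (0 : Fin n → ℝ) 1)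
      (dir a) hdir (S := slack p e) fun Z _ => by
        rcases eq_or_ne Z Z' with rfl | hZ
        · exact node_same hp he hd hn hC hOb hb hg Z
        · exact node_distinct hp he hd hn hC hOb hb hg hZ
    refine ⟨{a} ∪ U, ?_, V₀ ∩ V, inter_mem hV₀ hV,
      (hf₀.mono le_rfl Set.inter_subset_left).union_left (hf.mono le_rfl Set.inter_subset_right)⟩
    have : Fset p e = insert a (Fset p e \ {a}) := by
      rw [Set.insert_sdiff_singleton, Set.insert_eq_of_mem hb]
    rw [this, ← Set.insert_eq]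
    exact insert_mem_nhdsWithin_insert hU
  · exact node_far hp he hd hn hC hOb hb ha hne hg Z'

include hp he hd hn hC hO in
theorem global_fac : FacOn (Fset p e) (Wset p e) (slack p e) := by
  have hF := isCompact_Fset (p := p) (e := e)
  obtain ⟨U, hU, V, hV, hf⟩ := glue_right (Fx := 𝓟 (Fset p e)) (Fy := 𝓟 (Wset p e))
    (S := slack p e) hF id (eventually_principal.mpr fun y hy => hy.1) fun b hb => by
      rw [Filter.comap_id, inf_comm]
      exact glue_left (Fx := 𝓟 (Fset p e)) (Fy := 𝓝[Wset p e] b) hF id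
        (eventually_principal.mpr fun x hx => hx) fun a ha => by
          rw [Filter.comap_id, inf_comm]
          exact pair_fac hp he hd hn hC hO ha hb
  exact hf.mono (mem_principal.mp hU) (mem_principal.mp hV)

include hp he hd hn hC hO in
theorem singular_finite : {x ∈ Fset p e | grad p x = 0}.Finite := by
  have hcl : IsClosed {x : Fin n → ℝ | grad p x = 0} :=
    isClosed_eq (continuous_pi fun i => MvPolynomial.continuous_eval _) continuous_const
  have hcpt : IsCompact {x ∈ Fset p e | grad p x = 0} := isCompact_Fset.inter_right hcl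
  have hiso : ∀ b ∈ {x ∈ Fset p e | grad p x = 0},
      ∀ᶠ x in 𝓝[Fset p e \ {b}] b, grad p x ≠ 0 := by
    rintro b ⟨hb, hg⟩
    have hOb := hO b hb.1 (Fset_ne_zero hb)
    have hb0 := Fset_ne_zero hb
    have hZ : ∀ Z, ∀ᶠ x in Lx p e b Z, grad p x ≠ 0 := fun Z => by
      rcases (Lx p e b Z).eq_or_neBot with hbot | hNe
      · rw [hbot]; exact eventually_bot
      obtain ⟨-, -, -, -, hge, -⟩ := dir_limit hp he hd hn hC hOb hb (Z := Z)
      obtain ⟨hr, hX⟩ := Lx_tendsto (p := p) (e := e) hb0 Z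
      filter_upwards [(grad_inv_tendsto (p := p) (b := b) hr hX e).eventually (lt_mem_nhds hge),
        (near_props hp he hd hn hC hb).filter_mono inf_le_left]
        with x hx ⟨_, hl, hr', _, _, _, hc0, _⟩ hgx
      obtain ⟨-, hgv, -⟩ := blow_point hr'.ne' (p := p) (b := b) (Y := dir b x)
        (by rw [rad_dir]; exact hc0)
      have h1 := hgv e
      have h2 := grad_smul hp x e (lam b x)⁻¹
      rw [show (lam b x)⁻¹ • x = chart b x from rfl, ← rad_dir b x, hgx, zero_dotProduct, mul_zero,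
        mul_eq_zero, or_iff_right (inv_ne_zero hl.ne')] at h2
      rw [h2, mul_zero] at h1
      exact (mul_pos (pow_pos hr' _) hx).ne' h1
    obtain ⟨A, hA, hA'⟩ : ∃ A ∈ 𝓝[Fset p e \ {b}] b,
        ∀ x ∈ A, dir b x ∈ Metric.sphere (0 : Fin n → ℝ) 1 → grad p x ≠ 0 :=
      (isCompact_sphere (0 : Fin n → ℝ) 1).induction_on
        (p := fun B => ∃ A ∈ 𝓝[Fset p e \ {b}] b, ∀ x ∈ A, dir b x ∈ B → grad p x ≠ 0)
        ⟨_, univ_mem, fun _ _ h => h.elim⟩
        (fun B B' hBB ⟨A, hA, h⟩ => ⟨A, hA, fun x hx hxB => h x hx (hBB hxB)⟩)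
        (fun B B' ⟨A, hA, h⟩ ⟨A', hA', h'⟩ => ⟨A ∩ A', inter_mem hA hA',
          fun x hx hxB => hxB.elim (h x hx.1) (h' x hx.2)⟩)
        (fun Z _ => by
          obtain ⟨A, hA, C, hC, heq⟩ := mem_inf_iff.mp (hZ Z)
          obtain ⟨B, hB, hBC⟩ := mem_comap.mp hC
          exact ⟨B, mem_nhdsWithin_of_mem_nhds hB, A, hA, fun x hx hxB =>
            (Set.ext_iff.mp heq x).mpr ⟨hx, hBC hxB⟩⟩)
    filter_upwards [hA, near_props hp he hd hn hC hb] with x hx hx'
    exact hA' x hx (by simpa using hx'.2.2.2.1)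
  choose! N hN using fun b hb => (eventually_nhdsWithin_iff.mp (hiso b hb)).exists_mem
  obtain ⟨t, ht, hcov⟩ := hcpt.elim_nhds_subcover N fun b hb => (hN b hb).1
  refine t.finite_toSet.subset fun x hx => ?_
  obtain ⟨b, hbt, hxN⟩ := Set.mem_iUnion₂.mp (hcov hx)
  by_contra hne
  exact (hN b (ht b hbt)).2 x hxN ⟨hx.1, fun (h : x = b) => hne (h ▸ hbt)⟩ hx.2

omit hd hn hC hO in
include hp he in
theorem exists_Lam_avoid {t : Finset (Submodule ℝ (Fin n → ℝ))} (ht : ∀ M ∈ t, M ≠ ⊤) :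
    ∃ a ∈ Lam p e, ∀ M ∈ t, a ∉ M := by
  classical
  suffices ∃ U : Set (Fin n → ℝ), IsOpen U ∧ U.Nonempty ∧ U ⊆ Lam p e ∧ ∀ M ∈ t, ∀ a ∈ U, a ∉ M by
    obtain ⟨U, -, ⟨a, ha⟩, hU, h⟩ := this
    exact ⟨a, hU ha, fun M hM => h M hM a ha⟩
  induction t using Finset.induction_on with
  | empty => exact ⟨Lam p e, isOpen_Lam hp he, ⟨e, self_mem_Lam hp he⟩, le_rfl, by simp⟩
  | insert M t hM ih =>
    obtain ⟨U, hUo, hUne, hUL, hU⟩ := ih fun M' hM' => ht M' (Finset.mem_insert_of_mem hM')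
    refine ⟨U \ M, hUo.sdiff M.closed_of_finiteDimensional, ?_, Set.sdiff_subset.trans hUL, ?_⟩
    · by_contra hne
      refine ht M (Finset.mem_insert_self _ _) (M.eq_top_of_nonempty_interior' ?_)
      rw [Set.not_nonempty_iff_eq_empty, Set.sdiff_eq_empty] at hne
      obtain ⟨u, hu⟩ := hUne
      exact ⟨u, interior_maximal hne hUo hu⟩
    · intro M' hM' a ha
      rcases Finset.mem_insert.mp hM' with rfl | h
      · exact ha.2
      · exact hU M' h a ha.1

omit hd hn hC hO in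
theorem span_pair_ne_top (hn : 3 ≤ n) (a b : Fin n → ℝ) :
    Submodule.span ℝ ({a, b} : Set (Fin n → ℝ)) ≠ ⊤ := fun h => by
  obtain ⟨v, hv⟩ := exists_not_span (a := a) (b := b) hn
  exact hv (h ▸ Submodule.mem_top)

include hp he hd hn hC hO in
theorem separate {x : Fin n → ℝ} (hx : x ∉ hypCone p e) :
    ∃ y ∈ Wset p e, slack p e x y < 0 := by
  classical
  set s := insert (0 : Fin n → ℝ) (singular_finite hp he hd hn hC hO).toFinset
  obtain ⟨a, ha, hav⟩ := exists_Lam_avoid hp he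
    (t := s.image fun q => Submodule.span ℝ ({x, q} : Set (Fin n → ℝ))) fun M hM => by
      obtain ⟨q, -, rfl⟩ := Finset.mem_image.mp hM
      exact span_pair_ne_top hn x q
  let g : ℝ → Fin n → ℝ := fun t => (1 - t) • a + t • x
  have hgc : Continuous g := by fun_prop
  let T : Set ℝ := Set.Icc 0 1 ∩ g ⁻¹' hypCone p e
  have hT : IsCompact T :=
    isCompact_Icc.inter_right ((isClosed_hypCone hp he).preimage hgc)
  obtain ⟨t₀, ht₀, hmax⟩ := hT.exists_isGreatest ⟨0, by simp, by simpa [g] using Lam_sub hp ha⟩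
  obtain ⟨ht01, htK⟩ := ht₀
  have hlt : t₀ < 1 := lt_of_le_of_ne ht01.2 fun h => hx (by simpa [g, h] using htK)
  have h0 : eval (g t₀) p = 0 := by
    by_contra hne
    have hmem : g t₀ ∈ Lam p e := (mem_Lam hp).mpr ⟨htK, hne⟩
    have hev : ∀ᶠ t in 𝓝[>] t₀, t ∈ Set.Icc (0:ℝ) 1 ∧ g t ∈ hypCone p e ∧ t₀ < t := by
      filter_upwards [Ioo_mem_nhdsGT hlt, nhdsWithin_le_nhds
        (hgc.continuousAt.eventually ((isOpen_Lam hp he).mem_nhds hmem))] with t ht ht'
      exact ⟨⟨by linarith [ht01.1, ht.1], ht.2.le⟩, Lam_sub hp ht', ht.1⟩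
    obtain ⟨t, h1, h2, h3⟩ := hev.exists
    exact absurd (hmax ⟨h1, h2⟩) (not_le.mpr h3)
  set y := g t₀ with hy
  have hyF : y ∈ frontier (hypCone p e) := (mem_frontier_hypCone hp he).mpr ⟨htK, h0⟩
  have hspan : ∀ q ∈ s, ∀ c : ℝ, y ≠ c • q := by
    intro q hq c hc
    refine hav _ (Finset.mem_image.mpr ⟨q, hq, rfl⟩) ?_
    have h1 : a = (1 - t₀)⁻¹ • (c • q - t₀ • x) := by
      rw [← hc, hy]
      simp only [g, add_sub_cancel_right, smul_smul]
      rw [inv_mul_cancel₀ (by linarith), one_smul]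
    rw [h1]
    exact Submodule.smul_mem _ _ (Submodule.sub_mem _
      (Submodule.smul_mem _ _ (Submodule.subset_span (by simp)))
      (Submodule.smul_mem _ _ (Submodule.subset_span (by simp))))
  have hy0 : y ≠ 0 := fun h => hspan 0 (Finset.mem_insert_self _ _) 0 (by simpa using h)
  have hny : 0 < ‖y‖ := norm_pos_iff.mpr hy0
  set w := ‖y‖⁻¹ • y
  have hwF : w ∈ Fset p e :=
    ⟨frontier_smul hp he hyF (inv_pos.mpr hny), by
      rw [norm_smul, norm_inv, norm_norm, inv_mul_cancel₀ hny.ne']⟩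
  have hgw : grad p w ≠ 0 := fun h => hspan w
    (Finset.mem_insert_of_mem ((Set.Finite.mem_toFinset _).mpr ⟨hwF, h⟩)) ‖y‖ (by
      rw [smul_smul, mul_inv_cancel₀ hny.ne', one_smul])
  refine ⟨w, ⟨hwF, hgw⟩, ?_⟩
  obtain ⟨hwK, hw0⟩ := (mem_frontier_hypCone hp he).mp hwF.1
  have hga := support_pos hp he hwK hw0 hgw ha
  have hge := (smooth_facts hp he hwK hw0 hgw).1
  have hgy : grad p w ⬝ᵥ y = 0 := by
    have := grad_self hp hw0
    rw [dotProduct_smul, smul_eq_mul, mul_eq_zero, or_iff_right (inv_ne_zero hny.ne')] at this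
    exact this
  have hlin : (1 - t₀) * (grad p w ⬝ᵥ a) + t₀ * (grad p w ⬝ᵥ x) = 0 := by
    rw [← hgy, hy]
    simp only [g, dotProduct_add, dotProduct_smul, smul_eq_mul]
  have hneg : grad p w ⬝ᵥ x < 0 := by
    nlinarith [ht01.1, mul_pos (sub_pos.mpr hlt) hga]
  simp only [slack, nu, smul_dotProduct, smul_eq_mul]
  exact mul_neg_of_pos_of_neg (inv_pos.mpr hge) hneg

include hp he hd hn hC in
theorem mem_two_rays {x : Fin n → ℝ} (hx : x ∈ hypCone p e) :
    ∃ c₁ c₂ : ℝ, ∃ x₁ x₂ : Fin n → ℝ, 0 ≤ c₁ ∧ 0 ≤ c₂ ∧ x₁ ∈ Fset p e ∧ x₂ ∈ Fset p e ∧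
      x = c₁ • x₁ + c₂ • x₂ := by
  obtain ⟨v, hv⟩ := exists_not_span (a := x) (b := e) hn
  have hext : ∀ u : Fin n → ℝ, u ≠ 0 → u ∉ hypCone p e →
      ∃ t : ℝ, 0 ≤ t ∧ x + t • u ∈ frontier (hypCone p e) := by
    intro u hu huK
    have hc : Continuous fun t : ℝ => x + t • u := by fun_prop
    let T : Set ℝ := Set.Ici 0 ∩ (fun t : ℝ => x + t • u) ⁻¹' hypCone p e
    have hTc : IsClosed T := isClosed_Ici.inter ((isClosed_hypCone hp he).preimage hc)
    have hbdd : BddAbove T := by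
      by_contra hb
      refine huK ?_
      rw [not_bddAbove_iff] at hb
      choose t ht htn using fun k : ℕ => hb k
      have hlim : Tendsto (fun k => (t k)⁻¹ • x + u) atTop (𝓝 u) := by
        have h1 : Tendsto t atTop atTop :=
          tendsto_atTop_mono (fun k => (htn k).le) tendsto_natCast_atTop_atTop
        simpa using ((h1.inv_tendsto_atTop).smul_const x).add_const u
      refine (isClosed_hypCone hp he).mem_of_tendsto hlim (Eventually.of_forall fun k => ?_)
      have htk : 0 < t k := lt_of_le_of_lt (Nat.cast_nonneg k) (htn k)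
      simpa [smul_smul, htk.ne'] using smul_mem_cone hp (ht k).2 (inv_pos.mpr htk)
    have hT0 : (0:ℝ) ∈ T := ⟨Set.self_mem_Ici, by simpa using hx⟩
    have hmem := hTc.csSup_mem ⟨0, hT0⟩ hbdd
    refine ⟨sSup T, hmem.1, (mem_frontier_hypCone hp he).mpr ⟨hmem.2, ?_⟩⟩
    by_contra hne'
    have hev : ∀ᶠ t in 𝓝[>] (sSup T), x + t • u ∈ Lam p e := nhdsWithin_le_nhds
      (hc.continuousAt.eventually ((isOpen_Lam hp he).mem_nhds ((mem_Lam hp).mpr ⟨hmem.2, hne'⟩)))
    obtain ⟨t, h1, h2⟩ := (hev.and self_mem_nhdsWithin).exists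
    have := le_csSup hbdd (show t ∈ T from ⟨le_trans hmem.1 (le_of_lt h2), Lam_sub hp h1⟩)
    exact absurd this (not_le.mpr h2)
  obtain ⟨t, hq⟩ := exists_frontier_on_line hp he hd v
  have hq0 : v + t • e ≠ 0 := fun h0 => hv (by
    rw [add_eq_zero_iff_eq_neg.mp h0, ← neg_smul]
    exact Submodule.smul_mem _ _ (Submodule.subset_span (by simp)))
  set q := v + t • e
  obtain ⟨hqK, hqp⟩ := (mem_frontier_hypCone hp he).mp hq
  have hunit : ∀ z ∈ frontier (hypCone p e), z ≠ 0 → ‖z‖⁻¹ • z ∈ Fset p e := fun z hz hz0 =>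
    ⟨frontier_smul hp he hz (inv_pos.mpr (norm_pos_iff.mpr hz0)), norm_smul_inv_norm hz0⟩
  have hback : ∀ z : Fin n → ℝ, z ≠ 0 → ‖z‖ • ‖z‖⁻¹ • z = z := fun z hz => by
    rw [smul_smul, mul_inv_cancel₀ (norm_ne_zero_iff.mpr hz), one_smul]
  rcases eq_or_ne x 0 with rfl | hxne
  · exact ⟨0, 0, _, _, le_rfl, le_rfl, hunit q hq hq0, hunit q hq hq0, by simp⟩
  rcases eq_or_ne (eval x p) 0 with hx0 | hx0
  · have hxF := (mem_frontier_hypCone hp he).mpr ⟨hx, hx0⟩
    exact ⟨‖x‖, 0, _, _, norm_nonneg _, le_rfl, hunit x hxF hxne, hunit x hxF hxne, by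
      rw [zero_smul, add_zero, hback x hxne]⟩
  have hneg : -q ∉ hypCone p e := fun h => hq0 (pointed hp he hd hn hC hqK h)
  obtain ⟨s, hs, hsF⟩ := hext (-q) (neg_ne_zero.mpr hq0) hneg
  have hne : x + s • -q ≠ 0 := fun h0 => hx0 (by
    rw [show x = s • q by rw [add_eq_zero_iff_eq_neg.mp h0, smul_neg, neg_neg], eval_smul hp, hqp,
      mul_zero])
  refine ⟨‖x + s • -q‖, s * ‖q‖, _, _, norm_nonneg _, mul_nonneg hs (norm_nonneg _),
    hunit _ hsF hne, hunit q hq hq0, ?_⟩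
  rw [hback _ hne, mul_smul, hback q hq0, smul_neg, neg_add_cancel_right]

include hp he hn hC hO in
theorem shadow : IsShadow (hypCone p e) := by
  classical
  rcases Nat.eq_zero_or_pos d with hd0 | hd
  · subst hd0
    have huniv : hypCone p e = Set.univ := Set.eq_univ_of_forall fun x t ht => by
      have h0 := eval_smul hp 0 (t • e - x)
      have h1 := eval_smul hp 0 e
      rw [zero_smul, pow_zero, one_mul] at h0 h1
      rw [← h0, h1] at ht
      exact absurd ht he.1.ne'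
    refine ⟨0, 0, 0, (fun _ => 0), (fun _ => 0), Matrix.isSymm_zero, fun _ => Matrix.isSymm_zero,
      fun _ => Matrix.isSymm_zero, ?_⟩
    rw [huniv]
    refine (Set.eq_univ_of_forall fun x => ?_).symm
    show ∃ u : Fin 0 → ℝ, _
    refine ⟨0, ?_⟩
    simp [PosSemidef.zero]
  obtain ⟨T, hT, heq⟩ := global_fac hp he hd hn hC hO
  obtain ⟨ι, _, A, B, hA, hB, hAB⟩ := hT.psd
  let pair : Matrix ι ι ℝ → Matrix ι ι ℝ → ℝ := fun W M => ∑ i, ∑ j, W i j * M i j
  let L : Submodule ℝ ((Fin n → ℝ) × Matrix ι ι ℝ) :=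
    { carrier := {q | q.2.IsSymm ∧ ∀ y ∈ Wset p e, pair q.2 (B y) = slack p e q.1 y}
      add_mem' := by
        rintro q r ⟨hq1, hq2⟩ ⟨hr1, hr2⟩
        refine ⟨hq1.add hr1, fun y hy => ?_⟩
        simp only [pair, slack, Prod.fst_add, Prod.snd_add, Matrix.add_apply, add_mul,
          Finset.sum_add_distrib, dotProduct_add] at hq2 hr2 ⊢
        rw [hq2 y hy, hr2 y hy]
      zero_mem' := ⟨Matrix.isSymm_zero, fun y _ => by simp [pair, slack]⟩
      smul_mem' := by
        rintro c q ⟨hq1, hq2⟩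
        refine ⟨hq1.smul c, fun y hy => ?_⟩
        simp only [pair, slack, Prod.smul_fst, Prod.smul_snd, Matrix.smul_apply, smul_eq_mul,
          mul_assoc, ← Finset.mul_sum, dotProduct_smul] at hq2 ⊢
        rw [hq2 y hy] }
  refine isShadow_of_psd L (fun q hq => hq.1) ?_
  ext x
  constructor
  · intro hx
    obtain ⟨c₁, c₂, x₁, x₂, hc₁, hc₂, h₁, h₂, rfl⟩ := mem_two_rays hp he hd hn hC hx
    refine ⟨c₁ • A x₁ + c₂ • A x₂, ⟨?_, fun y hy => ?_⟩, ((hA x₁).smul hc₁).add ((hA x₂).smul hc₂)⟩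
    · have h := (((hA x₁).smul hc₁).add ((hA x₂).smul hc₂)).isHermitian
      rw [Matrix.IsHermitian, Matrix.conjTranspose_eq_transpose_of_trivial] at h
      exact h
    · have e1 := heq x₁ h₁ y hy
      have e2 := heq x₂ h₂ y hy
      rw [hAB] at e1 e2
      simp only [pair, slack, Matrix.add_apply, Matrix.smul_apply, smul_eq_mul, add_mul, mul_assoc,
        Finset.sum_add_distrib, ← Finset.mul_sum, dotProduct_add, dotProduct_smul] at e1 e2 ⊢
      rw [e1, e2]
  · rintro ⟨W, ⟨-, hW⟩, hpsd⟩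
    by_contra hx
    obtain ⟨y, hy, hneg⟩ := separate hp he hd hn hC hO hx
    obtain ⟨R, hR⟩ := CStarAlgebra.nonneg_iff_eq_star_mul_self.mp hpsd.nonneg
    obtain ⟨Q, hQ⟩ := CStarAlgebra.nonneg_iff_eq_star_mul_self.mp (hB y).nonneg
    have hnn : 0 ≤ pair W (B y) := by
      have e1 : pair W (B y) = ∑ k, ∑ l, (∑ i, R k i * Q l i) ^ 2 := by
        simp only [pair, hR, hQ, Matrix.mul_apply, Matrix.star_eq_conjTranspose,
          Matrix.conjTranspose_apply, star_trivial, sq, Finset.sum_mul_sum]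
        rw [Finset.sum_congr rfl fun i _ => Finset.sum_comm, Finset.sum_comm]
        refine Finset.sum_congr rfl fun k _ => ?_
        rw [Finset.sum_congr rfl fun i _ => Finset.sum_comm, Finset.sum_comm]
        exact Finset.sum_congr rfl fun l _ => Finset.sum_congr rfl fun i _ =>
          Finset.sum_congr rfl fun j _ => by ring
      rw [e1]
      positivity
    rw [hW y hy] at hnn
    exact absurd hnn (not_le.mpr hneg)

end Vale.Agent.P256
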