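import Vale.Agent.P256.Line

/-!
Gårding's theory: the open hyperbolicity cone is convex and every point of it is a direction of
hyperbolicity.
-/

namespace Vale.Agent.P256

open MvPolynomial Filter Topology

variable {n d : ℕ} {p : MvPolynomial (Fin n) ℝ} {e : Fin n → ℝ}

/-- The open cone. -/
def Lam (p : MvPolynomial (Fin n) ℝ) (e : Fin n → ℝ) : Set (Fin n → ℝ) :=
  {x | ∀ s : ℝ, 0 ≤ s → eval (x + s • e) p ≠ 0}

theorem continuous_eval' : Continuous fun x : Fin n → ℝ => eval x p :=
  MvPolynomial.continuous_eval p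

theorem aeval_cv (p : MvPolynomial (Fin n) ℝ) (x : Fin n → ℝ) :
    aeval (cv x) p = (eval x p : ℂ) := aeval_coe p x

theorem line_im (he : Hyperbolic p e) (x : Fin n → ℝ) {z : ℂ}
    (h : lineVal p (cv x) (cv e) z = 0) : z.im = 0 := by
  refine he.2 (-x) z (Eq.trans ?_ h)
  exact congrArg (fun v => aeval v p) (funext fun i => by simp [cv]; ring)

theorem line_root_real (he : Hyperbolic p e) (x : Fin n → ℝ) {z : ℂ}
    (h : lineVal p (cv x) (cv e) z = 0) : (z.re : ℂ) = z ∧ eval (x + z.re • e) p = 0 := by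
  have hz : (z.re : ℂ) = z := Complex.ext (by simp) (by simp [line_im he x h])
  refine ⟨hz, ?_⟩
  rw [← hz, lineVal_coe] at h
  exact_mod_cast h

theorem mem_hypCone (hp : p.IsHomogeneous d) {x : Fin n → ℝ} :
    x ∈ hypCone p e ↔ ∀ s : ℝ, 0 < s → eval (x + s • e) p ≠ 0 := by
  have key : ∀ t : ℝ, eval (t • e - x) p = (-1) ^ d * eval (x + (-t) • e) p := fun t => by
    rw [← eval_neg' hp, show -(x + (-t) • e) = t • e - x by simp; abel]
  constructor
  · intro h s hs hz
    have : eval ((-s) • e - x) p = 0 := by rw [key, neg_neg, hz, mul_zero]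
    linarith [h (-s) this]
  · intro h t ht
    by_contra hn
    rw [key, mul_eq_zero] at ht
    exact h (-t) (by linarith [not_le.mp hn]) (ht.resolve_left (by simp))

theorem Lam_sub (hp : p.IsHomogeneous d) : Lam p e ⊆ hypCone p e := fun _ hx =>
  (mem_hypCone hp).mpr fun s hs => hx s hs.le

theorem mem_Lam (hp : p.IsHomogeneous d) {x : Fin n → ℝ} :
    x ∈ Lam p e ↔ x ∈ hypCone p e ∧ eval x p ≠ 0 := by
  refine ⟨fun hx => ⟨Lam_sub hp hx, by simpa using hx 0 le_rfl⟩, fun h s hs => ?_⟩
  rcases hs.eq_or_lt with rfl | hs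
  · simpa using h.2
  · exact (mem_hypCone hp).mp h.1 s hs

theorem smul_mem_Lam (hp : p.IsHomogeneous d) {x : Fin n → ℝ} (hx : x ∈ Lam p e) {c : ℝ}
    (hc : 0 < c) : c • x ∈ Lam p e := fun s hs => by
  rw [show c • x + s • e = c • (x + (s / c) • e) by
    rw [smul_add, smul_smul, mul_div_cancel₀ _ hc.ne'], eval_smul hp]
  exact mul_ne_zero (pow_ne_zero _ hc.ne') (hx _ (by positivity))

theorem self_mem_Lam (hp : p.IsHomogeneous d) (he : Hyperbolic p e) : e ∈ Lam p e := fun s hs => by
  rw [show e + s • e = (1 + s) • e by rw [add_smul, one_smul], eval_smul hp]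
  exact mul_ne_zero (pow_ne_zero _ (by linarith)) he.1.ne'

theorem Lam_chart (hp : p.IsHomogeneous d) (he : Hyperbolic p e) {x : Fin n → ℝ} :
    x ∈ Lam p e ↔
      ∀ s ∈ Set.Icc (0:ℝ) 1, eval (x + s • e) p ≠ 0 ∧ eval (e + s • x) p ≠ 0 := by
  constructor
  · refine fun hx s hs => ⟨hx s hs.1, ?_⟩
    rcases hs.1.eq_or_lt with rfl | h
    · simpa using he.1.ne'
    · rw [show e + s • x = s • (x + s⁻¹ • e) by
        rw [smul_add, smul_smul, mul_inv_cancel₀ h.ne', one_smul, add_comm], eval_smul hp]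
      exact mul_ne_zero (pow_ne_zero _ h.ne') (hx _ (inv_nonneg.mpr h.le))
  · intro h s hs
    rcases le_or_gt s 1 with h1 | h1
    · exact (h s ⟨hs, h1⟩).1
    · have hs0 : (0:ℝ) < s := by linarith
      rw [show x + s • e = s • (e + s⁻¹ • x) by
        rw [smul_add, smul_smul, mul_inv_cancel₀ hs0.ne', one_smul, add_comm], eval_smul hp]
      exact mul_ne_zero (pow_ne_zero _ hs0.ne')
        (h _ ⟨inv_nonneg.mpr hs, inv_le_one_of_one_le₀ h1.le⟩).2

theorem isOpen_Lam (hp : p.IsHomogeneous d) (he : Hyperbolic p e) : IsOpen (Lam p e) := by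
  rw [isOpen_iff_eventually]
  intro x hx
  have h := isCompact_Icc.eventually_forall_of_forall_eventually (x₀ := x) (K := Set.Icc (0:ℝ) 1)
    (P := fun y s => eval (y + s • e) p ≠ 0 ∧ eval (e + s • y) p ≠ 0) fun s hs => ?_
  · exact h.mono fun y hy => (Lam_chart hp he).mpr hy
  · have hx' := (Lam_chart hp he).mp hx s hs
    refine Eventually.and ?_ ?_
    · exact (continuous_eval'.comp (continuous_fst.add (continuous_snd.smul continuous_const))
        |>.continuousAt).eventually_ne hx'.1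
    · exact (continuous_eval'.comp (continuous_const.add (continuous_snd.smul continuous_fst))
        |>.continuousAt).eventually_ne hx'.2

theorem cone_bound (hp : p.IsHomogeneous d) (he : Hyperbolic p e) {x : Fin n → ℝ}
    (hx : x ∈ hypCone p e) {s : ℝ} (hs : 0 ≤ s) :
    eval e p * s ^ d ≤ |eval (x + s • e) p| := by
  have h := lineVal_lower hp (cv x) (cv e) (z := (s:ℂ))
    (by rw [aeval_cv]; exact_mod_cast he.1.ne') hs fun ρ hρ => ?_
  · rwa [lineVal_coe, aeval_cv, Complex.norm_real, Complex.norm_real, Real.norm_eq_abs,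
      Real.norm_eq_abs, abs_of_pos he.1] at h
  · obtain ⟨hre, h0⟩ := line_root_real he x hρ
    have hle : ρ.re ≤ 0 := by
      by_contra hc
      exact (mem_hypCone hp).mp hx _ (not_le.mp hc) h0
    rw [← hre, ← Complex.ofReal_sub, Complex.norm_real, Real.norm_eq_abs]
    exact le_trans (by linarith) (le_abs_self _)

theorem isClosed_hypCone (hp : p.IsHomogeneous d) (he : Hyperbolic p e) :
    IsClosed (hypCone p e) := by
  have : hypCone p e = ⋂ s : Set.Ici (0:ℝ), {x | eval e p * (s:ℝ) ^ d ≤ |eval (x + (s:ℝ) • e) p|} := by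
    ext x
    simp only [Set.mem_iInter, Set.mem_ofPred_eq]
    refine ⟨fun hx s => cone_bound hp he hx s.2, fun h => (mem_hypCone hp).mpr fun s hs h0 => ?_⟩
    have := h ⟨s, hs.le⟩
    simp only [h0, abs_zero] at this
    nlinarith [he.1, pow_pos hs d, mul_pos he.1 (pow_pos hs d)]
  rw [this]
  exact isClosed_iInter fun s => isClosed_le continuous_const
    (continuous_eval'.comp (continuous_id.add continuous_const)).abs

theorem path_mem_Lam (hp : p.IsHomogeneous d) (he : Hyperbolic p e) {x : ℝ → Fin n → ℝ}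
    (hx : Continuous x) (hne : ∀ τ ∈ Set.Icc (0:ℝ) 1, eval (x τ) p ≠ 0) (h0 : x 0 ∈ Lam p e)
    {τ : ℝ} (hτ : τ ∈ Set.Icc (0:ℝ) 1) : x τ ∈ Lam p e := by
  let A : Set (Set.Icc (0:ℝ) 1) := {σ | x σ.1 ∈ Lam p e}
  have hA : A = {σ : Set.Icc (0:ℝ) 1 | x σ.1 ∈ hypCone p e} := by
    ext σ; exact ⟨fun h => Lam_sub hp h, fun h => (mem_Lam hp).mpr ⟨h, hne σ σ.2⟩⟩
  have hcont : Continuous fun σ : Set.Icc (0:ℝ) 1 => x σ := hx.comp continuous_subtype_val
  have hclopen : IsClopen A :=
    ⟨hA ▸ (isClosed_hypCone hp he).preimage hcont, (isOpen_Lam hp he).preimage hcont⟩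
  have : PreconnectedSpace (Set.Icc (0:ℝ) 1) := Subtype.preconnectedSpace isPreconnected_Icc
  have huniv := hclopen.eq_univ ⟨⟨0, by norm_num⟩, h0⟩
  exact (Set.eq_univ_iff_forall.mp huniv) ⟨τ, hτ⟩

theorem lam_pos (hp : p.IsHomogeneous d) (he : Hyperbolic p e) {a : Fin n → ℝ}
    (ha : a ∈ Lam p e) : 0 < eval a p := by
  have hne : eval a p ≠ 0 := by simpa using ha 0 le_rfl
  by_contra hn
  obtain ⟨w, hw, hw0⟩ := intermediate_value_Icc' (zero_le_one' ℝ)
    (f := fun w : ℝ => eval ((1 - w) • e + w • a) p)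
    (continuous_eval'.comp (by fun_prop)).continuousOn
    (show (0:ℝ) ∈ Set.Icc _ _ from ⟨by simpa using not_lt.mp hn, by simpa using he.1.le⟩)
  rcases hw.1.eq_or_lt with rfl | hw'
  · exact he.1.ne' (by simpa using hw0)
  · simp only at hw0
    rw [show (1 - w) • e + w • a = w • (a + ((1 - w) / w) • e) by
      rw [smul_add, smul_smul, mul_div_cancel₀ _ hw'.ne', add_comm], eval_smul hp] at hw0
    exact mul_ne_zero (pow_ne_zero _ hw'.ne')
      (ha _ (div_nonneg (by linarith [hw.2]) hw'.le)) hw0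

/-- The complex point `τ x + i ε e`. -/
noncomputable def tilt (x e : Fin n → ℝ) (ε τ : ℝ) : Fin n → ℂ :=
  fun i => ((τ * x i : ℝ) : ℂ) + Complex.I * ((ε * e i : ℝ) : ℂ)

theorem tilt_real (he : Hyperbolic p e) (a x : Fin n → ℝ) {ε : ℝ}
    (hε : ε ≠ 0) (τ s : ℝ) : lineVal p (tilt x e ε τ) (cv a) (s : ℂ) ≠ 0 := fun h => by
  have := line_im he (τ • x + s • a) (z := Complex.I * (ε : ℂ)) (Eq.trans ?_ h)
  · simp at this; exact hε this
  · exact congrArg (fun v => aeval v p) (funext fun i => by simp [cv, tilt]; ring)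

theorem tilt_upper (hp : p.IsHomogeneous d) (he : Hyperbolic p e) {a : Fin n → ℝ}
    (ha : a ∈ Lam p e) (x : Fin n → ℝ) {ε : ℝ} (hε : 0 < ε) (z : ℂ) (hz : 0 ≤ z.im) :
    lineVal p (tilt x e ε 1) (cv a) z ≠ 0 := by
  have hapos := lam_pos hp he ha
  have hane : aeval (cv a) p ≠ 0 := by rw [aeval_cv]; exact_mod_cast hapos.ne'
  let A : Set ℝ := {τ | ∀ z : ℂ, 0 ≤ z.im → lineVal p (tilt x e ε τ) (cv a) z ≠ 0}
  have hF : Continuous fun q : ℝ × ℂ => lineVal p (tilt x e ε q.1) (cv a) q.2 :=
    continuous_lineVal p (by unfold tilt; fun_prop) continuous_const continuous_snd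
  have hG : Continuous fun q : ℝ × ℂ => lineVal p (cv a) (tilt x e ε q.1) q.2 :=
    continuous_lineVal p continuous_const (by unfold tilt; fun_prop) continuous_snd
  let K₁ : Set ℂ := Metric.closedBall 0 1 ∩ {z | 0 ≤ z.im}
  let K₂ : Set ℂ := Metric.closedBall 0 1 ∩ {z | z.im ≤ 0}
  have hK₁ : IsCompact K₁ :=
    (isCompact_closedBall 0 1).inter_right (isClosed_le continuous_const Complex.continuous_im)
  have hK₂ : IsCompact K₂ :=
    (isCompact_closedBall 0 1).inter_right (isClosed_le Complex.continuous_im continuous_const)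
  have hopen : IsOpen A := by
    rw [isOpen_iff_eventually]
    intro τ hτ
    have h1 := hK₁.eventually_forall_of_forall_eventually (x₀ := τ)
      (P := fun σ z => lineVal p (tilt x e ε σ) (cv a) z ≠ 0)
      fun z hz => hF.continuousAt.eventually_ne (hτ z hz.2)
    have h2 := hK₂.eventually_forall_of_forall_eventually (x₀ := τ)
      (P := fun σ w => lineVal p (cv a) (tilt x e ε σ) w ≠ 0) fun w hw => by
        refine hG.continuousAt.eventually_ne ?_
        rcases eq_or_ne w 0 with rfl | hw0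
        · simpa [lineVal_zero] using hane
        · rw [lineVal_inv hp _ _ hw0]
          refine mul_ne_zero (pow_ne_zero _ hw0) (hτ _ ?_)
          rw [Complex.inv_im]
          exact div_nonneg (by simpa using hw.2) (Complex.normSq_nonneg _)
    filter_upwards [h1, h2] with σ hσ1 hσ2 z hz
    rcases le_or_gt ‖z‖ 1 with h | h
    · exact hσ1 z ⟨by simpa using h, hz⟩
    · have hz0 : z ≠ 0 := fun h0 => by simp [h0] at h; linarith
      rw [lineVal_inv hp _ _ hz0]
      refine mul_ne_zero (pow_ne_zero _ hz0) (hσ2 _ ⟨?_, ?_⟩)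
      · simpa using inv_le_one_of_one_le₀ h.le
      · show (z⁻¹).im ≤ 0
        rw [Complex.inv_im]
        exact div_nonpos_of_nonpos_of_nonneg (by linarith) (Complex.normSq_nonneg _)
  have hclosed : A = ⋂ z : {z : ℂ // 0 < z.im},
      {τ | ‖aeval (cv a) p‖ * z.1.im ^ d ≤ ‖lineVal p (tilt x e ε τ) (cv a) z.1‖} := by
    ext τ
    simp only [Set.mem_iInter, Set.mem_ofPred_eq]
    constructor
    · intro hτ z
      refine lineVal_lower hp _ _ hane z.2.le fun ρ hρ => ?_
      have hρ' : ρ.im < 0 := by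
        by_contra hc
        exact hτ ρ (not_lt.mp hc) hρ
      refine le_trans ?_ (Complex.abs_im_le_norm _)
      rw [Complex.sub_im]
      exact le_trans (by linarith) (le_abs_self _)
    · intro h z hz h0
      rcases hz.eq_or_lt with hz0 | hz0
      · have hre : (z.re : ℂ) = z := Complex.ext (by simp) (by simp [← hz0])
        exact tilt_real he a x hε.ne' τ z.re (hre.symm ▸ h0)
      · have := h ⟨z, hz0⟩
        simp only [h0, norm_zero] at this
        have : 0 < ‖aeval (cv a) p‖ * z.im ^ d := mul_pos (norm_pos_iff.mpr hane) (pow_pos hz0 _)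
        linarith
  have hclopen : IsClopen A := ⟨hclosed ▸ isClosed_iInter fun z => isClosed_le continuous_const
    ((hF.comp (continuous_id.prodMk continuous_const)).norm), hopen⟩
  have h0 : (0:ℝ) ∈ A := fun z hz h => by
    have htilt : tilt x e ε 0 = fun i => (ε : ℂ) * Complex.I * (e i : ℂ) :=
      funext fun i => by simp [tilt]; ring
    rcases eq_or_ne z 0 with rfl | hz0
    · rw [lineVal_zero, htilt] at h
      have := aeval_scale hp ((ε:ℂ) * Complex.I) (cv e)
      simp only [cv] at this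
      rw [this, aeval_cv] at h
      simp [hε.ne', he.1.ne', Complex.I_ne_zero] at h
    · rw [lineVal_inv hp _ _ hz0, mul_eq_zero] at h
      replace h := h.resolve_left (pow_ne_zero _ hz0)
      rw [lineVal, htilt] at h
      have h' : lineVal p (cv a) (cv e) (z⁻¹ * ((ε:ℂ) * Complex.I)) = 0 := by
        rw [lineVal, ← h]
        exact congrArg (fun v => aeval v p) (funext fun i => by simp [cv]; ring)
      obtain ⟨hre, hr0⟩ := line_root_real he a h'
      set r := (z⁻¹ * ((ε:ℂ) * Complex.I)).re with hr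
      have hneg : r < 0 := by
        by_contra hc
        exact ha r (not_lt.mp hc) hr0
      have hzr : z * (r:ℂ) = (ε:ℂ) * Complex.I := by
        rw [hre, ← mul_assoc, mul_inv_cancel₀ hz0, one_mul]
      have := congrArg Complex.im hzr
      simp at this
      nlinarith
  exact (Set.eq_univ_iff_forall.mp (hclopen.eq_univ ⟨0, h0⟩) 1) z hz

/-- Gårding: every point of the open cone is a direction of hyperbolicity. -/
theorem garding (hp : p.IsHomogeneous d) (he : Hyperbolic p e) {a : Fin n → ℝ}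
    (ha : a ∈ Lam p e) : Hyperbolic p a := by
  have hapos := lam_pos hp he ha
  have hane : aeval (cv a) p ≠ 0 := by rw [aeval_cv]; exact_mod_cast hapos.ne'
  have key : ∀ (x : Fin n → ℝ) (z : ℂ), 0 < z.im → lineVal p (cv x) (cv a) z ≠ 0 := by
    intro x z hz h0
    have ht : Tendsto (fun ε : ℝ => ‖lineVal p (tilt x e ε 1) (cv a) z‖) (𝓝[>] 0) (𝓝 0) := by
      have hc : Continuous fun ε : ℝ => ‖lineVal p (tilt x e ε 1) (cv a) z‖ :=
        (continuous_lineVal p (by unfold tilt; fun_prop) continuous_const continuous_const).norm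
      have e0 : tilt x e 0 1 = cv x := funext fun i => by simp [tilt, cv]
      have := hc.tendsto 0
      rw [e0, h0, norm_zero] at this
      exact this.mono_left nhdsWithin_le_nhds
    have hle : ‖aeval (cv a) p‖ * z.im ^ d ≤ 0 := ge_of_tendsto ht (by
      filter_upwards [self_mem_nhdsWithin] with ε hε
      refine lineVal_lower hp _ _ hane hz.le fun ρ hρ => ?_
      have hρ' : ρ.im < 0 := by
        by_contra hc
        exact tilt_upper hp he ha x hε ρ (not_lt.mp hc) hρ
      refine le_trans ?_ (Complex.abs_im_le_norm _)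
      rw [Complex.sub_im]
      exact le_trans (by linarith) (le_abs_self _))
    have : 0 < ‖aeval (cv a) p‖ * z.im ^ d := mul_pos (norm_pos_iff.mpr hane) (pow_pos hz _)
    linarith
  refine ⟨hapos, fun x z h => ?_⟩
  have h' : lineVal p (cv (-x)) (cv a) z = 0 := by
    rw [← h, lineVal]
    exact congrArg (fun v => aeval v p) (funext fun i => by simp [cv]; ring)
  rcases lt_trichotomy z.im 0 with hz | hz | hz
  · refine absurd ?_ (key x (-z) (by simpa using hz))
    have e1 : -cv (-x) = cv x := funext fun i => by simp [cv]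
    rw [← e1, lineVal_neg hp, h', mul_zero]
  · exact hz
  · exact absurd h' (key (-x) z hz)

theorem seg_ne (hp : p.IsHomogeneous d) (he : Hyperbolic p e) {a b : Fin n → ℝ}
    (ha : a ∈ Lam p e) (hb : b ∈ Lam p e) : b ∈ Lam p a := by
  have h := path_mem_Lam hp (garding hp he ha) (x := fun τ => (1 - τ) • e + τ • b) (by fun_prop)
    (fun τ hτ => ?_) ?_ (τ := 1) (by norm_num)
  · simpa using h
  · rcases hτ.1.eq_or_lt with rfl | ht
    · simpa using he.1.ne'
    · rw [show (1 - τ) • e + τ • b = τ • (b + ((1 - τ) / τ) • e) by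
        rw [smul_add, smul_smul, mul_div_cancel₀ _ ht.ne', add_comm], eval_smul hp]
      exact mul_ne_zero (pow_ne_zero _ ht.ne') (hb _ (div_nonneg (by linarith [hτ.2]) ht.le))
  · intro s hs
    simp only [sub_zero, one_smul, zero_smul, add_zero]
    rcases hs.eq_or_lt with rfl | hs'
    · simpa using he.1.ne'
    · rw [show e + s • a = s • (a + s⁻¹ • e) by
        rw [smul_add, smul_smul, mul_inv_cancel₀ hs'.ne', one_smul, add_comm], eval_smul hp]
      exact mul_ne_zero (pow_ne_zero _ hs'.ne') (ha _ (inv_nonneg.mpr hs))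

theorem add_mem_Lam (hp : p.IsHomogeneous d) (he : Hyperbolic p e) {a b : Fin n → ℝ}
    (ha : a ∈ Lam p e) (hb : b ∈ Lam p e) : a + b ∈ Lam p e := by
  have h := path_mem_Lam hp he (x := fun τ => a + τ • b) (by fun_prop) (fun τ hτ => ?_) (by simpa)
    (τ := 1) (by norm_num)
  · simpa using h
  · rcases hτ.1.eq_or_lt with rfl | ht
    · simpa using (lam_pos hp he ha).ne'
    · rw [show a + τ • b = τ • (b + τ⁻¹ • a) by
        rw [smul_add, smul_smul, mul_inv_cancel₀ ht.ne', one_smul, add_comm], eval_smul hp]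
      exact mul_ne_zero (pow_ne_zero _ ht.ne') (seg_ne hp he ha hb _ (inv_nonneg.mpr ht.le))

theorem cone_add_eps (hp : p.IsHomogeneous d) {x : Fin n → ℝ} (hx : x ∈ hypCone p e) {s : ℝ}
    (hs : 0 < s) : x + s • e ∈ Lam p e := fun t ht => by
  rw [add_assoc, ← add_smul]
  exact (mem_hypCone hp).mp hx _ (by linarith)

theorem add_mem_Lam_right (hp : p.IsHomogeneous d) (he : Hyperbolic p e) {x a : Fin n → ℝ}
    (hx : x ∈ hypCone p e) (ha : a ∈ Lam p e) : x + a ∈ Lam p e := by
  obtain ⟨δ, hδ, hball⟩ : ∃ δ > (0:ℝ), a - δ • e ∈ Lam p e := by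
    have hc : Tendsto (fun δ : ℝ => a - δ • e) (𝓝[>] 0) (𝓝 a) := by
      have : Continuous fun δ : ℝ => a - δ • e := by fun_prop
      simpa using (this.tendsto 0).mono_left nhdsWithin_le_nhds
    obtain ⟨δ, h1, h2⟩ := ((hc.eventually ((isOpen_Lam hp he).mem_nhds ha)).and
      self_mem_nhdsWithin).exists
    exact ⟨δ, h2, h1⟩
  have := add_mem_Lam hp he (cone_add_eps hp hx hδ) hball
  rwa [show x + δ • e + (a - δ • e) = x + a by abel] at this

theorem smul_mem_cone (hp : p.IsHomogeneous d) {x : Fin n → ℝ}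
    (hx : x ∈ hypCone p e) {c : ℝ} (hc : 0 < c) : c • x ∈ hypCone p e := by
  refine (mem_hypCone hp).mpr fun s hs => ?_
  have := smul_mem_Lam hp (cone_add_eps hp hx (s := s / c) (by positivity)) hc
  rw [smul_add, smul_smul, mul_div_cancel₀ _ hc.ne'] at this
  simpa using this 0 le_rfl

theorem add_mem_cone (hp : p.IsHomogeneous d) (he : Hyperbolic p e) {x y : Fin n → ℝ}
    (hx : x ∈ hypCone p e) (hy : y ∈ hypCone p e) : x + y ∈ hypCone p e := by
  refine (mem_hypCone hp).mpr fun s hs => ?_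
  have := add_mem_Lam_right hp he hx (cone_add_eps hp hy hs)
  simpa [add_assoc] using this 0 le_rfl

theorem mem_frontier_hypCone (hp : p.IsHomogeneous d) (he : Hyperbolic p e) {x : Fin n → ℝ} :
    x ∈ frontier (hypCone p e) ↔ x ∈ hypCone p e ∧ eval x p = 0 := by
  rw [(isClosed_hypCone hp he).frontier_eq, Set.mem_sdiff]
  refine and_congr_right fun hx => ⟨fun hn => ?_, fun h0 hint => ?_⟩
  · by_contra h
    exact hn (interior_maximal (Lam_sub hp) (isOpen_Lam hp he) ((mem_Lam hp).mpr ⟨hx, h⟩))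
  · have hc : Tendsto (fun δ : ℝ => x - δ • e) (𝓝[>] 0) (𝓝 x) := by
      have : Continuous fun δ : ℝ => x - δ • e := by fun_prop
      simpa using (this.tendsto 0).mono_left nhdsWithin_le_nhds
    obtain ⟨δ, h1, h2⟩ := ((hc.eventually (mem_interior_iff_mem_nhds.mp hint)).and
      self_mem_nhdsWithin).exists
    have := cone_add_eps hp h1 h2
    rw [sub_add_cancel] at this
    exact ((mem_Lam hp).mp this).2 h0

end Vale.Agent.P256
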