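import Vale.Agent.P256.Contact

/-!
Geometry of the boundary under strict convexity and ordinariness.
-/

namespace Vale.Agent.P256

open MvPolynomial Filter Topology

variable {n d : ℕ} {p : MvPolynomial (Fin n) ℝ} {e y u : Fin n → ℝ}

/-- Strict convexity of the cone. -/
def StrictCone (K : Set (Fin n → ℝ)) : Prop :=
  ∀ x ∈ frontier K, ∀ y ∈ frontier K, x + y ∈ frontier K → ¬ LinearIndependent ℝ ![x, y]

theorem eval_zero_pos (hp : p.IsHomogeneous d) (hd : 1 ≤ d) : eval (0 : Fin n → ℝ) p = 0 := by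
  have := eval_smul hp 0 (0 : Fin n → ℝ)
  rw [zero_smul, zero_pow (by omega), zero_mul] at this
  exact this

theorem smooth_facts (hp : p.IsHomogeneous d) (he : Hyperbolic p e) (hy : y ∈ hypCone p e)
    (h0 : eval y p = 0) (hg : grad p y ≠ 0) :
    0 < grad p y ⬝ᵥ e ∧
      (∀ x, (∀ᶠ h in 𝓝[>] (0:ℝ), y + h • x ∈ hypCone p e) → 0 ≤ grad p y ⬝ᵥ x) := by
  obtain ⟨hm, hq⟩ := linear_part h0 hg
  have hpos : 0 < grad p y ⬝ᵥ e := by
    rw [← hq]; exact (tangent_hyperbolic hp he hy).1
  refine ⟨hpos, fun x hx => ?_⟩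
  by_contra hn
  refine (mem_hypCone (tangentForm_homogeneous p y)).mp (mem_tangentCone hp he hy hx)
    (-(grad p y ⬝ᵥ x) / (grad p y ⬝ᵥ e)) (div_pos (by linarith [not_le.mp hn]) hpos) ?_
  rw [hq, dotProduct_add, dotProduct_smul, smul_eq_mul, div_mul_cancel₀ _ hpos.ne']
  ring

theorem ray_mem (hp : p.IsHomogeneous d) (he : Hyperbolic p e) (hy : y ∈ hypCone p e)
    {x : Fin n → ℝ} (hx : x ∈ hypCone p e) {h : ℝ} (hh : 0 < h) : y + h • x ∈ hypCone p e :=
  add_mem_cone hp he hy (smul_mem_cone hp hx hh)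

theorem cone_subset_tangent (hp : p.IsHomogeneous d) (he : Hyperbolic p e)
    (hy : y ∈ hypCone p e) : hypCone p e ⊆ hypCone (tangentForm p y) e := fun _ hx =>
  mem_tangentCone hp he hy (by
    filter_upwards [self_mem_nhdsWithin] with h hh using ray_mem hp he hy hx hh)

theorem lam_subset_tangent (hp : p.IsHomogeneous d) (he : Hyperbolic p e)
    (hy : y ∈ hypCone p e) : Lam p e ⊆ Lam (tangentForm p y) e := fun x hx => by
  have hc : Tendsto (fun δ : ℝ => x - δ • e) (𝓝[>] 0) (𝓝 x) := by
    have : Continuous fun δ : ℝ => x - δ • e := by fun_prop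
    simpa using (this.tendsto 0).mono_left nhdsWithin_le_nhds
  obtain ⟨δ, h1, h2⟩ := ((hc.eventually ((isOpen_Lam hp he).mem_nhds hx)).and
    self_mem_nhdsWithin).exists
  have := cone_add_eps (e := e) (tangentForm_homogeneous p y)
    (cone_subset_tangent hp he hy (Lam_sub hp h1)) h2
  rwa [sub_add_cancel] at this

theorem support_nonneg (hp : p.IsHomogeneous d) (he : Hyperbolic p e) (hy : y ∈ hypCone p e)
    (h0 : eval y p = 0) (hg : grad p y ≠ 0) {x : Fin n → ℝ} (hx : x ∈ hypCone p e) :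
    0 ≤ grad p y ⬝ᵥ x :=
  (smooth_facts hp he hy h0 hg).2 x (by
    filter_upwards [self_mem_nhdsWithin] with h hh using ray_mem hp he hy hx hh)

theorem support_pos (hp : p.IsHomogeneous d) (he : Hyperbolic p e) (hy : y ∈ hypCone p e)
    (h0 : eval y p = 0) (hg : grad p y ≠ 0) {x : Fin n → ℝ} (hx : x ∈ Lam p e) :
    0 < grad p y ⬝ᵥ x := by
  have hc : Tendsto (fun δ : ℝ => x - δ • e) (𝓝[>] 0) (𝓝 x) := by
    have : Continuous fun δ : ℝ => x - δ • e := by fun_prop
    simpa using (this.tendsto 0).mono_left nhdsWithin_le_nhds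
  obtain ⟨δ, h1, h2⟩ := ((hc.eventually ((isOpen_Lam hp he).mem_nhds hx)).and
    self_mem_nhdsWithin).exists
  have h3 := support_nonneg hp he hy h0 hg (Lam_sub hp h1)
  rw [dotProduct_sub, dotProduct_smul, smul_eq_mul] at h3
  nlinarith [(smooth_facts hp he hy h0 hg).1, mul_pos (show (0:ℝ) < δ from h2)
    (smooth_facts hp he hy h0 hg).1]

theorem grad_smul (hp : p.IsHomogeneous d) (y v : Fin n → ℝ) (c : ℝ) :
    c * (grad p (c • y) ⬝ᵥ v) = c ^ d * (grad p y ⬝ᵥ v) := by
  have h := dirderiv_congr (P := p) (Q := C (c ^ d) * p) (Y := c • y) (V := c • v) (y := y) (v := v)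
    fun s => by
      rw [smul_comm s c v, ← smul_add, eval_smul hp, map_mul, eval_C]
  simp only [pderiv_C_mul, map_mul, eval_C, Pi.smul_apply, smul_eq_mul] at h
  simp only [dotProduct, grad, Finset.mul_sum]
  calc ∑ i, c * (eval (c • y) (pderiv i p) * v i)
      = ∑ i, eval (c • y) (pderiv i p) * (c * v i) := Finset.sum_congr rfl fun i _ => by ring
    _ = ∑ i, c ^ d * eval y (pderiv i p) * v i := h
    _ = ∑ i, c ^ d * (eval y (pderiv i p) * v i) := Finset.sum_congr rfl fun i _ => by ring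

theorem grad_self (hp : p.IsHomogeneous d) (h0 : eval y p = 0) : grad p y ⬝ᵥ y = 0 := by
  have h := dirderiv_congr (P := p) (Q := (0 : MvPolynomial (Fin n) ℝ)) (Y := y) (V := y) (y := y)
    (v := y) fun s => by
      rw [show y + s • y = (1 + s) • y by rw [add_smul, one_smul], eval_smul hp, h0]
      simp
  simpa [dotProduct, grad] using h

theorem grad_tangent_self (hp : p.IsHomogeneous d) (z : Fin n → ℝ) :
    grad (tangentForm p y) z ⬝ᵥ y = 0 := by
  have h := dirderiv_congr (P := tangentForm p y) (Q := C (eval z (tangentForm p y)))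
    (Y := z) (V := y) (y := z) (v := y) fun s => by rw [tangent_shift hp, eval_C]
  simpa [dotProduct, grad] using h

theorem dep_cases {x y : Fin n → ℝ} (hy : y ≠ 0) (h : ¬ LinearIndependent ℝ ![x, y]) :
    ∃ c : ℝ, x = c • y := by
  by_contra hn
  push Not at hn
  exact h (LinearIndependent.pair_symm_iff.mp
    ((LinearIndependent.pair_iff' hy).mpr fun c hc => hn c hc.symm))

theorem indep_ne {x y : Fin n → ℝ} (hy : y ≠ 0) (h : ∀ c : ℝ, x ≠ c • y) :
    LinearIndependent ℝ ![x, y] := by
  by_contra hn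
  obtain ⟨c, hc⟩ := dep_cases hy hn
  exact h c hc

theorem exists_not_span {a b : Fin n → ℝ} (hn : 3 ≤ n) :
    ∃ v, v ∉ Submodule.span ℝ ({a, b} : Set (Fin n → ℝ)) := by
  classical
  by_contra h
  push Not at h
  have htop : Submodule.span ℝ ({a, b} : Set (Fin n → ℝ)) = ⊤ := eq_top_iff.mpr fun v _ => h v
  have h2 : Module.finrank ℝ (Submodule.span ℝ (({a, b} : Finset (Fin n → ℝ)) : Set (Fin n → ℝ)))
      ≤ 2 := (finrank_span_finset_le_card _).trans Finset.card_le_two
  rw [Finset.coe_pair, htop, finrank_top, Module.finrank_fin_fun] at h2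
  omega

theorem exists_frontier_on_line (hp : p.IsHomogeneous d) (he : Hyperbolic p e) (hd : 1 ≤ d)
    (v : Fin n → ℝ) : ∃ t : ℝ, v + t • e ∈ frontier (hypCone p e) := by
  have hK := isClosed_hypCone hp he
  have hup : ∃ t : ℝ, v + t • e ∈ hypCone p e := by
    have hc : Tendsto (fun τ : ℝ => τ⁻¹ • v + e) atTop (𝓝 e) := by
      simpa using ((tendsto_inv_atTop_zero (𝕜 := ℝ)).smul_const v).add_const e
    obtain ⟨τ, h1, h2⟩ := ((hc.eventually ((isOpen_Lam hp he).mem_nhds
      (self_mem_Lam hp he))).and (eventually_gt_atTop (0:ℝ))).exists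
    exact ⟨τ, Lam_sub hp (by simpa [smul_smul, h2.ne'] using smul_mem_Lam hp h1 h2)⟩
  have hdown : ∃ t : ℝ, v + t • e ∉ hypCone p e := by
    by_contra hn
    push Not at hn
    have hneg : -e ∈ hypCone p e := by
      have hc : Tendsto (fun τ : ℝ => τ⁻¹ • v + -e) atTop (𝓝 (-e)) := by
        simpa using ((tendsto_inv_atTop_zero (𝕜 := ℝ)).smul_const v).add_const (-e)
      refine hK.mem_of_tendsto hc ?_
      filter_upwards [eventually_gt_atTop (0:ℝ)] with τ hτ
      simpa [smul_smul, hτ.ne', ← sub_eq_add_neg, smul_sub] using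
        smul_mem_cone hp (hn (-τ)) (inv_pos.mpr hτ)
    have := add_mem_Lam_right hp he hneg (self_mem_Lam hp he)
    rw [neg_add_cancel] at this
    exact ((mem_Lam hp).mp this).2 (eval_zero_pos hp hd)
  obtain ⟨a, ha⟩ := hup
  obtain ⟨b, hb⟩ := hdown
  have hne : (frontier ((fun t : ℝ => v + t • e) ⁻¹' hypCone p e)).Nonempty :=
    nonempty_frontier_iff.mpr ⟨⟨a, ha⟩, fun h => hb (h ▸ Set.mem_univ b : b ∈ (fun t : ℝ => v + t • e) ⁻¹' hypCone p e)⟩
  obtain ⟨t, ht⟩ := hne
  exact ⟨t, (by fun_prop : Continuous fun t : ℝ => v + t • e).frontier_preimage_subset _ ht⟩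

theorem pointed (hp : p.IsHomogeneous d) (he : Hyperbolic p e) (hd : 1 ≤ d) (hn : 3 ≤ n)
    (hC : StrictCone (hypCone p e)) {l : Fin n → ℝ} (h1 : l ∈ hypCone p e)
    (h2 : -l ∈ hypCone p e) : l = 0 := by
  by_contra hl
  have hfr : ∀ w ∈ hypCone p e, (∀ x ∈ Lam p e, x ≠ w) → w ∈ frontier (hypCone p e) :=
    fun w hw h => (mem_frontier_hypCone hp he).mpr ⟨hw, by
      by_contra hne; exact h w ((mem_Lam hp).mpr ⟨hw, hne⟩) rfl⟩
  have hlF : l ∈ frontier (hypCone p e) := hfr l h1 fun x hx hxe => by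
    subst hxe
    have := add_mem_Lam_right hp he h2 hx
    rw [neg_add_cancel] at this
    exact ((mem_Lam hp).mp this).2 (eval_zero_pos hp hd)
  obtain ⟨v, hv⟩ := exists_not_span (a := l) (b := e) hn
  obtain ⟨t, hw⟩ := exists_frontier_on_line hp he hd v
  obtain ⟨hwK, hw0⟩ := (mem_frontier_hypCone hp he).mp hw
  have hsum : l + (v + t • e) ∈ frontier (hypCone p e) :=
    hfr _ (add_mem_cone hp he h1 hwK) fun x hx hxe => by
      subst hxe
      have := add_mem_Lam_right hp he h2 hx
      rw [neg_add_cancel_left] at this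
      exact ((mem_Lam hp).mp this).2 hw0
  obtain ⟨c, hc⟩ := dep_cases (x := v + t • e) hl (fun h => hC _ hw _ hlF (by rwa [add_comm]) h)
  refine hv ?_
  rw [show v = c • l - t • e by rw [← hc, add_sub_cancel_right]]
  exact Submodule.sub_mem _ (Submodule.smul_mem _ _ (Submodule.subset_span (by simp)))
    (Submodule.smul_mem _ _ (Submodule.subset_span (by simp)))

theorem unit_eq (hp : p.IsHomogeneous d) (he : Hyperbolic p e) (hd : 1 ≤ d) (hn : 3 ≤ n)
    (hC : StrictCone (hypCone p e)) {x y : Fin n → ℝ} (hx : x ∈ frontier (hypCone p e))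
    (hy : y ∈ frontier (hypCone p e)) (hxy : x + y ∈ frontier (hypCone p e)) (hx1 : ‖x‖ = 1)
    (hy1 : ‖y‖ = 1) : x = y := by
  obtain ⟨c, rfl⟩ := dep_cases (by intro h; simp [h] at hy1) (hC x hx y hy hxy)
  rw [norm_smul, hy1, mul_one, Real.norm_eq_abs] at hx1
  rcases (abs_eq (zero_le_one' ℝ)).mp hx1 with rfl | rfl
  · exact one_smul _ _
  · have := pointed hp he hd hn hC ((mem_frontier_hypCone hp he).mp hy).1
      (by simpa using ((mem_frontier_hypCone hp he).mp hx).1)
    simp [this] at hy1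

theorem frontier_smul (hp : p.IsHomogeneous d) (he : Hyperbolic p e) {x : Fin n → ℝ}
    (hx : x ∈ frontier (hypCone p e)) {c : ℝ} (hc : 0 < c) : c • x ∈ frontier (hypCone p e) := by
  obtain ⟨h1, h2⟩ := (mem_frontier_hypCone hp he).mp hx
  exact (mem_frontier_hypCone hp he).mpr ⟨smul_mem_cone hp h1 hc, by rw [eval_smul hp, h2, mul_zero]⟩

theorem curv_neg (hp : p.IsHomogeneous d) (he : Hyperbolic p e)
    (hC : StrictCone (hypCone p e)) (hy : y ∈ frontier (hypCone p e)) (hy0 : y ≠ 0)
    (hu : u ∈ hypCone (tangentForm p y) e) (hu0 : eval u (tangentForm p y) = 0)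
    (hg : 0 < grad (tangentForm p y) u ⬝ᵥ e) (hspan : ∀ c : ℝ, u ≠ c • y) :
    eval (pt 0 u) (pderiv none (blow p y)) < 0 := by
  obtain ⟨hyK, hp0⟩ := (mem_frontier_hypCone hp he).mp hy
  have hm : 1 ≤ mult p y := one_le_mult (fun h => by simp [h, Hyperbolic] at he) hp0
  refine (curv hp he hyK hm hu0 hg).resolve_right fun hz => ?_
  have hev := line_in_frontier hp he hyK hu hu0 hg hz
  have hhalf : Tendsto (fun h : ℝ => h / 2) (𝓝[>] 0) (𝓝[>] 0) := by
    refine tendsto_nhdsWithin_iff.mpr ⟨?_, ?_⟩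
    · have : Continuous fun h : ℝ => h / 2 := by fun_prop
      simpa using (this.tendsto 0).mono_left (nhdsWithin_le_nhds (s := Set.Ioi (0:ℝ)))
    · filter_upwards [self_mem_nhdsWithin] with h hh using half_pos (show (0:ℝ) < h from hh)
  obtain ⟨h, ⟨h1, h2⟩, hh⟩ := ((hev.and (hhalf.eventually hev)).and self_mem_nhdsWithin).exists
  replace hh : 0 < h := hh
  have hsum : y + (y + h • u) = (2:ℝ) • (y + (h / 2) • u) := by
    rw [smul_add, smul_smul, mul_div_cancel₀ _ two_ne_zero, two_smul]; abel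
  obtain ⟨c, hc⟩ := dep_cases (x := y + h • u) hy0 (fun hli => hC _ h1 _ hy
    (by rw [add_comm, hsum]; exact frontier_smul hp he h2 two_pos) hli)
  refine hspan ((c - 1) / h) ?_
  have : h • u = (c - 1) • y := by rw [sub_smul, one_smul, ← hc, add_sub_cancel_left]
  rw [div_eq_inv_mul, ← smul_smul, ← this, smul_smul, inv_mul_cancel₀ hh.ne', one_smul]

/-- Ordinary points. -/
def Ordinary (p : MvPolynomial (Fin n) ℝ) (e : Fin n → ℝ) (y : Fin n → ℝ) : Prop :=
  ∀ z ∈ frontier (hypCone (tangentForm p y) e), z ∉ Submodule.span ℝ ({y} : Set (Fin n → ℝ)) →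
    grad (tangentForm p y) z ≠ 0

variable {z : Fin n → ℝ}

theorem two_le_mult (hp : p.IsHomogeneous d) (he : Hyperbolic p e)
    (hy : y ∈ frontier (hypCone p e)) (hg : grad p y = 0) : 2 ≤ mult p y := by
  obtain ⟨hyK, hp0⟩ := (mem_frontier_hypCone hp he).mp hy
  have h1 := one_le_mult (fun h => by simp [h, Hyperbolic] at he) hp0
  by_contra hn
  have hm : mult p y = 1 := by omega
  have key : lineR p y e = Polynomial.X ^ mult p y * lineR (blow p y) (pt 0 e) (pt 1 0) :=
    Polynomial.funext fun s => by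
      rw [lineR_eval, Polynomial.eval_mul, Polynomial.eval_pow, Polynomial.eval_X, lineR_eval,
        pt_add_smul, mul_one, zero_add, smul_zero, add_zero, blow_spec']
  have h := congrArg (fun P : Polynomial ℝ => P.coeff 1) key
  rw [hm, pow_one] at h
  simp only [lineR_coeff_one, Polynomial.coeff_X_mul, Polynomial.coeff_zero_eq_eval_zero,
    lineR_eval, zero_smul, add_zero, blow_zero'] at h
  have hz : ∀ i, eval y (pderiv i p) = 0 := fun i => congrFun hg i
  simp [hz] at h
  exact (tangent_hyperbolic hp he hyK).1.ne h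

theorem tangent_lineality (hp : p.IsHomogeneous d) (he : Hyperbolic p e)
    (hy : y ∈ hypCone p e) (hm : 2 ≤ mult p y) (hO : Ordinary p e y) {l : Fin n → ℝ}
    (h1 : l ∈ hypCone (tangentForm p y) e) (h2 : -l ∈ hypCone (tangentForm p y) e) :
    l ∈ Submodule.span ℝ ({y} : Set (Fin n → ℝ)) := by
  by_contra hspan
  have hq := tangent_hyperbolic hp he hy
  have hqh := tangentForm_homogeneous p y
  have hval : ∀ t : ℝ, |eval (l + t • e) (tangentForm p y)|
      = eval e (tangentForm p y) * |t| ^ mult p y := fun t => by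
    obtain ⟨M, hcard, hM, hnorm⟩ := line_factor hqh (cv l) (cv e)
      (by rw [aeval_cv]; exact_mod_cast hq.1.ne')
    have h := hnorm (t:ℂ)
    rw [lineVal_coe, aeval_cv, Complex.norm_real, Complex.norm_real, Real.norm_eq_abs,
      Real.norm_eq_abs, abs_of_pos hq.1] at h
    rw [h, ← hcard]
    congr 1
    rw [Multiset.map_congr rfl (g := fun _ => |t|) fun ρ hρ => ?_]
    · simp
    · obtain ⟨hre, h0⟩ := line_root_real hq l (hM ρ hρ)
      have hρ0 : ρ.re = 0 := by
        refine le_antisymm ?_ ?_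
        · by_contra hc
          exact (mem_hypCone hqh).mp h1 _ (not_le.mp hc) h0
        · by_contra hc
          refine (mem_hypCone hqh).mp h2 (-ρ.re) (by linarith [not_le.mp hc]) ?_
          rw [show -l + (-ρ.re) • e = -(l + ρ.re • e) by rw [neg_smul]; abel, eval_neg' hqh, h0,
            mul_zero]
      rw [← hre, hρ0]
      simp
  have hl0 : eval l (tangentForm p y) = 0 := by
    have := hval 0
    rw [zero_smul, add_zero, abs_zero, zero_pow (by omega), mul_zero, abs_eq_zero] at this
    exact this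
  have hlF : l ∈ frontier (hypCone (tangentForm p y) e) :=
    (mem_frontier_hypCone hqh hq).mpr ⟨h1, hl0⟩
  have hge := (smooth_facts hqh hq h1 hl0 (hO l hlF hspan)).1
  have hm1 : mult (tangentForm p y) l = 1 := (linear_part hl0 (hO l hlF hspan)).1
  have ht : Tendsto (fun h : ℝ => eval (pt h e) (blow (tangentForm p y) l)) (𝓝[>] 0)
      (𝓝 (grad (tangentForm p y) l ⬝ᵥ e)) := by
    have := continuous_aeval_pt (T := ℝ) (blow (tangentForm p y) l) continuous_id
      (continuous_const (y := e))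
    simp only [aeval_eq_eval] at this
    have := (this.tendsto 0).mono_left (nhdsWithin_le_nhds (s := Set.Ioi (0:ℝ)))
    rw [← (linear_part hl0 (hO l hlF hspan)).2]
    simpa [blow_zero'] using this
  have h0 : Tendsto (fun h : ℝ => eval e (tangentForm p y) * h ^ (mult p y - 1)) (𝓝[>] 0)
      (𝓝 0) := by
    have : Continuous fun h : ℝ => eval e (tangentForm p y) * h ^ (mult p y - 1) := by fun_prop
    simpa [zero_pow (show mult p y - 1 ≠ 0 by omega)] using
      (this.tendsto 0).mono_left (nhdsWithin_le_nhds (s := Set.Ioi (0:ℝ)))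
  have := le_of_tendsto_of_tendsto ht.abs h0 (by
    filter_upwards [self_mem_nhdsWithin] with h hh
    replace hh : 0 < h := hh
    have e1 := hval h
    rw [blow_spec', hm1, pow_one, abs_mul, abs_of_pos hh,
      show h ^ mult p y = h * h ^ (mult p y - 1) by
        rw [← pow_succ', Nat.sub_add_cancel (by omega)]] at e1
    exact le_of_eq (mul_left_cancel₀ hh.ne' (by linarith)))
  rw [abs_of_pos hge] at this
  linarith

theorem tangent_line (hp : p.IsHomogeneous d) (he : Hyperbolic p e)
    (hy : y ∈ hypCone p e) (hm : 2 ≤ mult p y) (hO : Ordinary p e y)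
    (hz : z ∈ frontier (hypCone (tangentForm p y) e)) (hline : ∀ a b : ℝ, u ≠ a • z + b • y)
    (hind : z ∉ Submodule.span ℝ ({y} : Set (Fin n → ℝ))) :
    ¬ ∀ s : ℝ, eval (z + s • u) (tangentForm p y) = 0 := by
  intro hzero
  have hq := tangent_hyperbolic hp he hy
  have hqh := tangentForm_homogeneous p y
  set K := hypCone (tangentForm p y) e
  let A : Set ℝ := {s | z + s • u ∈ K}
  have hAc : IsClosed A := (isClosed_hypCone hqh hq).preimage (by fun_prop)
  have hAo : IsOpen A := by
    rw [isOpen_iff_eventually]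
    intro s hs
    have hns : z + s • u ∉ Submodule.span ℝ ({y} : Set (Fin n → ℝ)) := by
      intro hmem
      obtain ⟨c, hc⟩ := Submodule.mem_span_singleton.mp hmem
      rcases eq_or_ne s 0 with rfl | hs0
      · exact hind (by simpa using hmem)
      · refine hline (-s⁻¹) (s⁻¹ * c) ?_
        rw [← smul_smul, hc, smul_add, neg_smul, smul_smul, inv_mul_cancel₀ hs0, one_smul]
        abel
    have hF : z + s • u ∈ frontier K := (mem_frontier_hypCone hqh hq).mpr ⟨hs, hzero s⟩
    have hg := hO _ hF hns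
    obtain ⟨hge, -⟩ := smooth_facts hqh hq hs (hzero s) hg
    obtain ⟨hm1, hlin⟩ := linear_part (hzero s) hg
    have hgu : grad (tangentForm p y) (z + s • u) ⬝ᵥ u = 0 := by
      have := dirderiv_congr (P := tangentForm p y) (Q := (0 : MvPolynomial (Fin n) ℝ))
        (Y := z + s • u) (V := u) (y := z) (v := u) fun t => by
          rw [add_assoc, ← add_smul, hzero, map_zero]
      simpa [dotProduct, grad] using this
    have key : ∀ w : Fin n → ℝ, grad (tangentForm p y) (z + s • u) ⬝ᵥ w = 0 →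
        (∀ t : ℝ, eval (z + s • u + t • w) (tangentForm p y) = 0) →
        ∀ᶠ h in 𝓝[>] (0:ℝ), z + s • u + h • w ∈ K := by
      intro w hw hw'
      have h2 : grad (tangentForm (tangentForm p y) (z + s • u)) w
          = grad (tangentForm p y) (z + s • u) := by
        funext j
        have := dirderiv_congr (P := tangentForm (tangentForm p y) (z + s • u))
          (Q := ∑ i, C (grad (tangentForm p y) (z + s • u) i) * X i) (Y := w)
          (V := Pi.single j 1) (y := w) (v := Pi.single j 1) fun t => by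
            rw [hlin]; simp [dotProduct]
        simpa [Pi.single_apply, grad, pderiv_X, Finset.sum_mul, apply_ite] using this
      have := line_in_frontier hqh hq hs (u := w) ?_ (by rw [hlin, hw]) (by rw [h2]; exact hge) hw'
      · exact this.mono fun h hh => ((mem_frontier_hypCone hqh hq).mp hh).1
      · refine (mem_hypCone (tangentForm_homogeneous _ _)).mpr fun t ht => ?_
        rw [hlin, dotProduct_add, hw, dotProduct_smul, zero_add, smul_eq_mul]
        exact (mul_pos ht hge).ne'
    have h1 := key u hgu fun t => by rw [add_assoc, ← add_smul]; exact hzero _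
    have h2 := key (-u) (by rw [dotProduct_neg, hgu, neg_zero]) fun t => by
      rw [smul_neg, ← sub_eq_add_neg, add_sub_assoc, ← sub_smul]; exact hzero _
    obtain ⟨a, ha, hIa⟩ := (nhdsGT_basis (0:ℝ)).mem_iff.mp h1
    obtain ⟨b, hb, hIb⟩ := (nhdsGT_basis (0:ℝ)).mem_iff.mp h2
    filter_upwards [Ioo_mem_nhds (show s - b < s by linarith) (show s < s + a by linarith)]
      with t ht
    rcases lt_trichotomy t s with h | rfl | h
    · have := hIb ⟨show 0 < s - t by linarith, show s - t < b by linarith [ht.1]⟩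
      show z + t • u ∈ K
      have e1 : z + s • u + (s - t) • -u = z + t • u := by
        rw [smul_neg, sub_smul]; abel
      rw [← e1]; exact this
    · exact hs
    · have := hIa ⟨show 0 < t - s by linarith, show t - s < a by linarith [ht.2]⟩
      show z + t • u ∈ K
      have e1 : z + s • u + (t - s) • u = z + t • u := by rw [sub_smul]; abel
      rw [← e1]; exact this
  have hall := Set.eq_univ_iff_forall.mp ((show IsClopen A from ⟨hAc, hAo⟩).eq_univ
    ⟨0, by simpa [A] using ((mem_frontier_hypCone hqh hq).mp hz).1⟩)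
  have hdir : ∀ w : Fin n → ℝ, (∀ τ : ℝ, 0 < τ → z + τ • w ∈ K) → w ∈ K := fun w hw => by
    have hc : Tendsto (fun τ : ℝ => τ⁻¹ • z + w) atTop (𝓝 w) := by
      simpa using ((tendsto_inv_atTop_zero (𝕜 := ℝ)).smul_const z).add_const w
    refine (isClosed_hypCone hqh hq).mem_of_tendsto hc ?_
    filter_upwards [eventually_gt_atTop (0:ℝ)] with τ hτ
    simpa [smul_smul, hτ.ne'] using smul_mem_cone hqh (hw τ hτ) (inv_pos.mpr hτ)
  obtain ⟨c, hc⟩ := Submodule.mem_span_singleton.mp (tangent_lineality hp he hy hm hO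
    (hdir u fun τ _ => hall τ) (hdir (-u) fun τ _ => by
      rw [smul_neg, ← neg_smul]; exact hall (-τ)))
  exact hline 0 c (by rw [zero_smul, zero_add, hc])

end Vale.Agent.P256
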