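import Vale.Agent.P256.Defs

/-!
Restrictions of a homogeneous polynomial to lines.
-/

namespace Vale.Agent.P256

open MvPolynomial Filter Topology

variable {n d : ℕ} {p : MvPolynomial (Fin n) ℝ}

/-- A real point as a complex point. -/
def cv (x : Fin n → ℝ) : Fin n → ℂ := fun i => (x i : ℂ)

/-- The value at a real point of the shape `fun i => (x i : ℂ)`. -/
theorem aeval_coe (p : MvPolynomial (Fin n) ℝ) (x : Fin n → ℝ) :
    aeval (fun i => (x i : ℂ)) p = (eval x p : ℂ) := by
  simpa [aeval_eq_eval, Function.comp_def] using aeval_algebraMap_apply ℂ x p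

theorem aeval_scale (hp : p.IsHomogeneous d) {R : Type*} [CommRing R] [Algebra ℝ R]
    (c : R) (x : Fin n → R) : aeval (fun i => c * x i) p = c ^ d * aeval x p := by
  rw [aeval_def, aeval_def, eval₂_eq, eval₂_eq, Finset.mul_sum]
  refine Finset.sum_congr rfl fun m hm => ?_
  have hd : ∑ i ∈ m.support, m i = d := by
    have := hp (mem_support_iff.mp hm)
    simpa [Finsupp.weight_apply, Finsupp.sum] using this
  simp only [mul_pow, Finset.prod_mul_distrib, Finset.prod_pow_eq_pow_sum, hd]
  ring

theorem eval_smul (hp : p.IsHomogeneous d) (c : ℝ) (x : Fin n → ℝ) :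
    eval (c • x) p = c ^ d * eval x p := by
  have := aeval_scale hp c x
  simpa [aeval_eq_eval, Pi.smul_def] using this

theorem eval_neg' (hp : p.IsHomogeneous d) (x : Fin n → ℝ) :
    eval (-x) p = (-1) ^ d * eval x p := by
  rw [← eval_smul hp, neg_one_smul]

/-- `p` on the complex line `x + z a`. -/
noncomputable def lineVal (p : MvPolynomial (Fin n) ℝ) (x a : Fin n → ℂ) (z : ℂ) : ℂ :=
  aeval (fun i => x i + z * a i) p

/-- `p` on the complex line, as a polynomial. -/
noncomputable def linePoly (p : MvPolynomial (Fin n) ℝ) (x a : Fin n → ℂ) : Polynomial ℂ :=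
  aeval (fun i => Polynomial.C (x i) + Polynomial.X * Polynomial.C (a i)) p

theorem linePoly_eval (p : MvPolynomial (Fin n) ℝ) (x a : Fin n → ℂ) (z : ℂ) :
    (linePoly p x a).eval z = lineVal p x a z := by
  unfold linePoly lineVal
  induction p using MvPolynomial.induction_on with
  | C c => simp only [aeval_C, Polynomial.algebraMap_apply, Polynomial.eval_C]
  | add q r hq hr => simp only [map_add, Polynomial.eval_add, hq, hr]
  | mul_X q i hq =>
    simp only [map_mul, aeval_X, Polynomial.eval_mul, Polynomial.eval_add, Polynomial.eval_C,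
      Polynomial.eval_X, hq]

theorem lineVal_coe (p : MvPolynomial (Fin n) ℝ) (x a : Fin n → ℝ) (s : ℝ) :
    lineVal p (cv x) (cv a) (s : ℂ) = (eval (x + s • a) p : ℂ) := by
  rw [lineVal, ← aeval_coe]
  exact congrArg (fun v => aeval v p) (funext fun i => by simp [cv])

theorem lineVal_zero (p : MvPolynomial (Fin n) ℝ) (x a : Fin n → ℂ) :
    lineVal p x a 0 = aeval x p := by
  simp [lineVal]

theorem lineVal_inv (hp : p.IsHomogeneous d) (x a : Fin n → ℂ) {z : ℂ} (hz : z ≠ 0) :
    lineVal p x a z = z ^ d * lineVal p a x z⁻¹ := by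
  rw [lineVal, lineVal, ← aeval_scale hp]
  exact congrArg (fun v => aeval v p) (funext fun i => by field_simp; ring)

theorem lineVal_neg (hp : p.IsHomogeneous d) (x a : Fin n → ℂ) (z : ℂ) :
    lineVal p (-x) a (-z) = (-1) ^ d * lineVal p x a z := by
  rw [lineVal, lineVal, ← aeval_scale hp]
  exact congrArg (fun v => aeval v p) (funext fun i => by simp; ring)

theorem continuous_lineVal {T : Type*} [TopologicalSpace T] (p : MvPolynomial (Fin n) ℝ)
    {x a : T → Fin n → ℂ} {z : T → ℂ} (hx : Continuous x) (ha : Continuous a)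
    (hz : Continuous z) : Continuous fun t => lineVal p (x t) (a t) (z t) := by
  unfold lineVal
  induction p using MvPolynomial.induction_on with
  | C c => simpa using continuous_const
  | add q r hq hr => simp only [map_add]; exact hq.add hr
  | mul_X q i hq =>
    simp only [map_mul, aeval_X]
    exact hq.mul (((continuous_apply i).comp hx).add (hz.mul ((continuous_apply i).comp ha)))

theorem linePoly_spec (hp : p.IsHomogeneous d) (x a : Fin n → ℂ) (ha : aeval a p ≠ 0) :
    (linePoly p x a).natDegree = d ∧ (linePoly p x a).leadingCoeff = aeval a p := by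
  set P := linePoly p x a
  set G := linePoly p a x
  set D := G.natDegree
  have hG0 : G.coeff 0 = aeval a p := by
    rw [Polynomial.coeff_zero_eq_eval_zero, linePoly_eval, lineVal_zero]
  have hne : aeval a p ≠ 0 := ha
  set R := Polynomial.reflect D G
  have hR : R.coeff D = aeval a p := by
    rw [Polynomial.coeff_reflect, Polynomial.revAt_le le_rfl, Nat.sub_self, hG0]
  have hRdeg : R.natDegree = D := by
    refine le_antisymm ?_ (Polynomial.le_natDegree_of_ne_zero (hR.trans_ne hne))
    refine Polynomial.natDegree_le_iff_coeff_eq_zero.mpr fun N hN => ?_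
    rw [Polynomial.coeff_reflect, Polynomial.revAt_eq_self_of_lt hN]
    exact Polynomial.coeff_eq_zero_of_natDegree_lt hN
  have hid : P * Polynomial.X ^ D = Polynomial.X ^ d * R := by
    refine Polynomial.eq_of_infinite_eval_eq _ _ ((Set.finite_singleton (0:ℂ)).infinite_compl.mono
      fun z hz => ?_)
    have hz' : z ≠ 0 := hz
    have e : R.eval z = z ^ D * G.eval z⁻¹ := by
      let _ := invertibleOfNonzero (inv_ne_zero hz')
      have h := Polynomial.eval₂_reflect_mul_pow (RingHom.id ℂ) z⁻¹ D G le_rfl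
      rw [invOf_eq_inv, inv_inv] at h
      simp only [Polynomial.eval₂_id] at h
      rw [← h, ← mul_assoc, mul_comm (z ^ D) _, mul_assoc, ← mul_pow, mul_inv_cancel₀ hz',
        one_pow, mul_one]
    simp only [Polynomial.eval_mul, Polynomial.eval_pow, Polynomial.eval_X, Set.mem_ofPred_eq, e,
      P, G, linePoly_eval, lineVal_inv hp x a hz']
    ring
  have hRne : R ≠ 0 := fun h => hne (by rw [← hR, h, Polynomial.coeff_zero])
  have hPne : P ≠ 0 := fun h => by
    rw [h, zero_mul] at hid
    exact hRne (by simpa using hid.symm)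
  have hdeg := congrArg Polynomial.natDegree hid
  rw [Polynomial.natDegree_mul hPne (pow_ne_zero _ Polynomial.X_ne_zero),
    Polynomial.natDegree_mul (pow_ne_zero _ Polynomial.X_ne_zero) hRne, Polynomial.natDegree_X_pow,
    Polynomial.natDegree_X_pow, hRdeg] at hdeg
  refine ⟨by omega, ?_⟩
  have hl := congrArg Polynomial.leadingCoeff hid
  rw [Polynomial.leadingCoeff_mul, Polynomial.leadingCoeff_mul, Polynomial.leadingCoeff_X_pow,
    Polynomial.leadingCoeff_X_pow, mul_one, one_mul] at hl
  rw [hl, Polynomial.leadingCoeff, hRdeg, hR]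

theorem line_factor (hp : p.IsHomogeneous d) (x a : Fin n → ℂ) (ha : aeval a p ≠ 0) :
    ∃ M : Multiset ℂ, M.card = d ∧ (∀ ρ ∈ M, lineVal p x a ρ = 0) ∧
      ∀ z, ‖lineVal p x a z‖ = ‖aeval a p‖ * (M.map fun ρ => ‖z - ρ‖).prod := by
  obtain ⟨hdeg, hlead⟩ := linePoly_spec hp x a ha
  have hs := IsAlgClosed.splits (linePoly p x a)
  refine ⟨(linePoly p x a).roots, by rw [← hs.natDegree_eq_card_roots, hdeg], fun ρ hρ => ?_,
    fun z => ?_⟩
  · rw [← linePoly_eval]; exact (Polynomial.mem_roots'.mp hρ).2
  · rw [← linePoly_eval]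
    conv_lhs => rw [hs.eq_prod_roots]
    rw [Polynomial.eval_mul, Polynomial.eval_C, norm_mul, hlead,
      Polynomial.eval_multiset_prod, Multiset.map_map]
    congr 1
    simp only [Function.comp_def, Polynomial.eval_sub, Polynomial.eval_X, Polynomial.eval_C]
    generalize (linePoly p x a).roots = M
    induction M using Multiset.induction_on with
    | empty => simp
    | cons r M ih =>
      simp only [Multiset.map_cons, Multiset.prod_cons, norm_mul, ih]

theorem lineVal_lower (hp : p.IsHomogeneous d) (x a : Fin n → ℂ) (ha : aeval a p ≠ 0) {z : ℂ}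
    {c : ℝ} (hc : 0 ≤ c) (h : ∀ ρ, lineVal p x a ρ = 0 → c ≤ ‖z - ρ‖) :
    ‖aeval a p‖ * c ^ d ≤ ‖lineVal p x a z‖ := by
  obtain ⟨M, hcard, hM, hval⟩ := line_factor hp x a ha
  rw [hval]
  refine mul_le_mul_of_nonneg_left ?_ (norm_nonneg _)
  subst hcard
  clear hval hp
  induction M using Multiset.induction_on with
  | empty => simp
  | cons r M ih =>
    simp only [Multiset.card_cons, pow_succ', Multiset.map_cons, Multiset.prod_cons]
    exact mul_le_mul (h r (hM r (Multiset.mem_cons_self _ _)))
      (ih fun ρ hρ => hM ρ (Multiset.mem_cons_of_mem hρ)) (pow_nonneg hc _) (norm_nonneg _)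

theorem lineVal_mono (hp : p.IsHomogeneous d) (x a : Fin n → ℂ) (ha : aeval a p ≠ 0) {z w : ℂ}
    (h : ∀ ρ, lineVal p x a ρ = 0 → ‖z - ρ‖ ≤ ‖w - ρ‖) :
    ‖lineVal p x a z‖ ≤ ‖lineVal p x a w‖ := by
  obtain ⟨M, -, hM, hval⟩ := line_factor hp x a ha
  rw [hval, hval]
  refine mul_le_mul_of_nonneg_left ?_ (norm_nonneg _)
  clear hval
  induction M using Multiset.induction_on with
  | empty => simp
  | cons r M ih =>
    simp only [Multiset.map_cons, Multiset.prod_cons]
    exact mul_le_mul (h r (hM r (Multiset.mem_cons_self _ _)))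
      (ih fun ρ hρ => hM ρ (Multiset.mem_cons_of_mem hρ))
      (Multiset.prod_nonneg (by simp)) (norm_nonneg _)

end Vale.Agent.P256
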