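import Vale.Agent.P256.Fac
import Vale.Agent.P256.Geo

/-!
Local factorisations of the slack function.
-/

namespace Vale.Agent.P256

open MvPolynomial Filter Topology Matrix

section General

variable {α β : Type*} {Fx : Filter α} {Fy : Filter β}

theorem SepC.eval_poly {σ : Type*} (P : MvPolynomial σ ℝ) {v : σ → α → β → ℝ} {l : σ → ℝ}
    (hv : ∀ o, SepC Fx Fy (v o) (l o)) :
    SepC Fx Fy (fun x y => eval (fun o => v o x y) P) (eval l P) := by
  induction P using MvPolynomial.induction_on with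
  | C c => simpa using SepC.const (Fx := Fx) (Fy := Fy) c
  | add a b ha hb => simp only [map_add]; exact ha.add hb
  | mul_X a o ha => simp only [map_mul, eval_X]; exact ha.mul (hv o)

theorem pd_exists {N : ℕ} (Q L : (Fin N → ℝ) → ℝ) (hQc : Continuous Q) (hLc : Continuous L)
    (hQh : ∀ (c : ℝ) v, Q (c • v) = c ^ 2 * Q v) (hLh : ∀ (c : ℝ) v, L (c • v) = c ^ 2 * L v)
    (hL : ∀ v, 0 ≤ L v) (hpos : ∀ v, v ≠ 0 → L v = 0 → 0 < Q v) :
    ∃ K δ : ℝ, 0 ≤ K ∧ 0 < δ ∧ ∀ v, δ * ∑ i, v i ^ 2 ≤ Q v + K * L v := by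
  let T : Set (Fin N → ℝ) := {v | ∑ i, v i ^ 2 = 1}
  have hT : IsCompact T := by
    refine (isCompact_closedBall (0 : Fin N → ℝ) 1).of_isClosed_subset
      (isClosed_eq (by fun_prop) continuous_const) fun v (hv : ∑ i, v i ^ 2 = 1) => ?_
    rw [Metric.mem_closedBall, dist_zero_right]
    refine (pi_norm_le_iff_of_nonneg zero_le_one).mpr fun i => ?_
    have : v i ^ 2 ≤ 1 := hv ▸ Finset.single_le_sum (fun j _ => sq_nonneg (v j)) (Finset.mem_univ i)
    rw [Real.norm_eq_abs]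
    exact (sq_le_one_iff_abs_le_one _).mp this
  have hne : ∀ v ∈ T, v ≠ 0 := fun v (hv : ∑ i, v i ^ 2 = 1) h => by simp [h] at hv
  obtain ⟨k, hk⟩ := hT.elim_directed_cover (fun k : ℕ => {v | 0 < Q v + k * L v})
    (fun k => isOpen_lt continuous_const (hQc.add (continuous_const.mul hLc))) (fun v hv => by
      rcases eq_or_lt_of_le (hL v) with h | h
      · exact Set.mem_iUnion.mpr ⟨0, by simpa using hpos v (hne v hv) h.symm⟩
      · obtain ⟨k, hk⟩ := exists_nat_gt (-Q v / L v)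
        refine Set.mem_iUnion.mpr ⟨k, ?_⟩
        rw [div_lt_iff₀ h] at hk
        show 0 < Q v + k * L v
        linarith)
    (fun i j => ⟨max i j,
      fun v (hv : 0 < Q v + i * L v) =>
        show 0 < Q v + (max i j : ℕ) * L v by
          have : (i:ℝ) ≤ (max i j : ℕ) := by exact_mod_cast le_max_left i j
          nlinarith [hL v],
      fun v (hv : 0 < Q v + j * L v) =>
        show 0 < Q v + (max i j : ℕ) * L v by
          have : (j:ℝ) ≤ (max i j : ℕ) := by exact_mod_cast le_max_right i j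
          nlinarith [hL v]⟩)
  obtain ⟨δ, hδ, hmin⟩ : ∃ δ : ℝ, 0 < δ ∧ ∀ v ∈ T, δ ≤ Q v + k * L v := by
    rcases T.eq_empty_or_nonempty with h | h
    · exact ⟨1, one_pos, by simp [h]⟩
    · obtain ⟨v₀, hv₀, hm⟩ := hT.exists_isMinOn h
        (hQc.add (continuous_const.mul hLc)).continuousOn
      exact ⟨_, hk hv₀, fun v hv => hm hv⟩
  refine ⟨k, δ, Nat.cast_nonneg _, hδ, fun v => ?_⟩
  rcases eq_or_ne v 0 with rfl | hv
  · have h1 := hQh 0 0; have h2 := hLh 0 0
    simp at h1 h2 ⊢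
    simp [h1, h2]
  · set R := ∑ i, v i ^ 2 with hRdef
    have hR : 0 < R := by
      obtain ⟨i, hi⟩ := Function.ne_iff.mp hv
      exact Finset.sum_pos' (fun j _ => sq_nonneg _) ⟨i, Finset.mem_univ i, sq_pos_of_ne_zero hi⟩
    have hs : (√R)⁻¹ • v ∈ T := by
      show ∑ i, ((√R)⁻¹ • v) i ^ 2 = 1
      simp only [Pi.smul_apply, smul_eq_mul, mul_pow, ← Finset.mul_sum, ← hRdef]
      rw [inv_pow, Real.sq_sqrt hR.le, inv_mul_cancel₀ hR.ne']
    have := hmin _ hs
    rw [hQh, hLh, inv_pow, Real.sq_sqrt hR.le, mul_left_comm, ← mul_add] at this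
    field_simp at this
    linarith

theorem facOn_form {N : ℕ} (G : Fin N → Fin N → α → β → ℝ) (G0 : Fin N → Fin N → ℝ)
    (hG : ∀ i j, SepC Fx Fy (G i j) (G0 i j)) {δ : ℝ} (hδ : 0 < δ)
    (hpos : ∀ v : Fin N → ℝ, δ * ∑ i, v i ^ 2 ≤ ∑ i, ∑ j, G0 i j * v i * v j) :
    ∃ U ∈ Fx, ∃ W ∈ Fy, ∀ z : Fin N → α → β → ℝ, (∀ i, Sep (z i)) →
      FacOn U W fun x y => ∑ i, ∑ j, G i j x y * z i x y * z j x y := by
  have hswap : ∀ (M : Fin N → Fin N → ℝ) (v : Fin N → ℝ),
      ∑ i, ∑ j, 1 / 2 * (M i j + M j i) * v i * v j = ∑ i, ∑ j, M i j * v i * v j := fun M v => by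
    have e : ∀ i j, 1 / 2 * (M i j + M j i) * v i * v j
        = 1 / 2 * (M i j * v i * v j) + 1 / 2 * (M j i * v j * v i) := fun i j => by ring
    simp only [e, Finset.sum_add_distrib]
    rw [Finset.sum_comm (f := fun i j => 1 / 2 * (M j i * v j * v i))]
    simp only [← Finset.mul_sum]
    ring
  obtain ⟨U, hU, W, hW, h⟩ := facOn_near (fun i j x y => 1 / 2 * (G i j x y + G j i x y))
    (Matrix.of fun i j => 1 / 2 * (G0 i j + G0 j i))
    (fun i j => ((SepC.const (1 / 2)).mul ((hG i j).add (hG j i))))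
    (Matrix.ext fun i j => by simp [Matrix.conjTranspose_apply, add_comm])
    hδ fun v => (hpos v).trans_eq (hswap G0 v).symm
  exact ⟨U, hU, W, hW, fun z hz => (h z hz).congr fun x _ y _ =>
    hswap (fun i j => G i j x y) fun i => z i x y⟩

theorem glue_right {S : α → β → ℝ} {γ : Type*} [TopologicalSpace γ] {T : Set γ} (hT : IsCompact T)
    (φ : β → γ) (hφ : ∀ᶠ y in Fy, φ y ∈ T)
    (h : ∀ Z ∈ T, ∃ U ∈ Fx, ∃ V ∈ Fy ⊓ comap φ (𝓝 Z), FacOn U V S) :
    ∃ U ∈ Fx, ∃ V ∈ Fy, FacOn U V S := by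
  obtain ⟨U, hU, V, hV, hfac⟩ := hT.induction_on
    (p := fun A => ∃ U ∈ Fx, ∃ V ∈ Fy, FacOn U (V ∩ φ ⁻¹' A) S)
    ⟨Set.univ, univ_mem, Set.univ, univ_mem, by simpa using FacOn.empty_right⟩
    (fun A B hAB ⟨U, hU, V, hV, hf⟩ =>
      ⟨U, hU, V, hV, hf.mono le_rfl (Set.inter_subset_inter_right _ (Set.preimage_mono hAB))⟩)
    (fun A B ⟨U, hU, V, hV, hf⟩ ⟨U', hU', V', hV', hf'⟩ =>
      ⟨U ∩ U', inter_mem hU hU', V ∩ V', inter_mem hV hV',
        ((hf.mono Set.inter_subset_left (Set.inter_subset_inter_left _ Set.inter_subset_left)).union_right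
          (hf'.mono Set.inter_subset_right (Set.inter_subset_inter_left _ Set.inter_subset_right))).mono
          le_rfl (by rintro y ⟨h1, h2 | h2⟩; exacts [Or.inl ⟨h1, h2⟩, Or.inr ⟨h1, h2⟩])⟩)
    (fun Z hZ => by
      obtain ⟨U, hU, V, hV, hf⟩ := h Z hZ
      obtain ⟨V₁, hV₁, V₂, hV₂, rfl⟩ := mem_inf_iff.mp hV
      obtain ⟨A, hA, hAV⟩ := mem_comap.mp hV₂
      exact ⟨A, mem_nhdsWithin_of_mem_nhds hA, U, hU, V₁, hV₁,
        hf.mono le_rfl (Set.inter_subset_inter_right _ hAV)⟩)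
  exact ⟨U, hU, V ∩ φ ⁻¹' T, inter_mem hV hφ, hfac⟩

theorem FacOn.swap {U : Set α} {W : Set β} {S : α → β → ℝ} (h : FacOn U W S) :
    FacOn W U fun y x => S x y := by
  obtain ⟨T, hT, he⟩ := h
  suffices ∀ T : α → β → ℝ, Fac T → Fac fun y x => T x y from
    ⟨_, this T hT, fun y hy x hx => he x hx y hy⟩
  intro T hT
  induction hT with
  | zero => exact Fac.zero
  | sq hh =>
    obtain ⟨m, a, b, hS⟩ := hh
    exact Fac.sq ⟨m, b, a, fun y x => (hS x y).trans
      (Finset.sum_congr rfl fun i _ => mul_comm _ _)⟩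
  | add _ _ ih ih' => exact Fac.add ih ih'
  | @mul S f g hf hg _ ih =>
    have := Fac.mul g f hg hf ih
    simpa [mul_comm (f _)] using this

theorem glue_left {S : α → β → ℝ} {γ : Type*} [TopologicalSpace γ] {T : Set γ} (hT : IsCompact T)
    (φ : α → γ) (hφ : ∀ᶠ x in Fx, φ x ∈ T)
    (h : ∀ Z ∈ T, ∃ U ∈ Fx ⊓ comap φ (𝓝 Z), ∃ V ∈ Fy, FacOn U V S) :
    ∃ U ∈ Fx, ∃ V ∈ Fy, FacOn U V S := by
  obtain ⟨V, hV, U, hU, hf⟩ := glue_right (S := fun y x => S x y) hT φ hφ fun Z hZ => by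
    obtain ⟨U, hU, V, hV, hf⟩ := h Z hZ
    exact ⟨V, hV, U, hU, hf.swap⟩
  exact ⟨U, hU, V, hV, hf.swap⟩

end General

variable {n d : ℕ} {p : MvPolynomial (Fin n) ℝ} {e : Fin n → ℝ}

/-- The normalised outer normal. -/
noncomputable def nu (p : MvPolynomial (Fin n) ℝ) (e y : Fin n → ℝ) : Fin n → ℝ :=
  (grad p y ⬝ᵥ e)⁻¹ • grad p y

/-- The slack function. -/
noncomputable def slack (p : MvPolynomial (Fin n) ℝ) (e x y : Fin n → ℝ) : ℝ := nu p e y ⬝ᵥ x

/-- Unit boundary points. -/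
def Fset (p : MvPolynomial (Fin n) ℝ) (e : Fin n → ℝ) : Set (Fin n → ℝ) :=
  {x | x ∈ frontier (hypCone p e) ∧ ‖x‖ = 1}

/-- Unit smooth boundary points. -/
def Wset (p : MvPolynomial (Fin n) ℝ) (e : Fin n → ℝ) : Set (Fin n → ℝ) :=
  {x | x ∈ Fset p e ∧ grad p x ≠ 0}

theorem nu_smul (hp : p.IsHomogeneous d) (y : Fin n → ℝ) {c : ℝ} (hc : c ≠ 0) :
    nu p e (c • y) = nu p e y := by
  have hk : ∀ v, grad p (c • y) ⬝ᵥ v = c ^ d / c * (grad p y ⬝ᵥ v) := fun v => by
    have := grad_smul hp y v c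
    field_simp
    linarith
  funext j
  have hj : grad p (c • y) j = c ^ d / c * grad p y j := by
    have := hk (Pi.single j 1)
    simpa using this
  have hcd : c ^ d / c ≠ 0 := div_ne_zero (pow_ne_zero _ hc) hc
  simp only [nu, Pi.smul_apply, smul_eq_mul, hk, hj]
  rw [mul_inv, mul_assoc, mul_left_comm (grad p y ⬝ᵥ e)⁻¹, ← mul_assoc, inv_mul_cancel₀ hcd,
    one_mul]

/-- The chart coefficient at `b`. -/
noncomputable def lam (b x : Fin n → ℝ) : ℝ := (b ⬝ᵥ x) / (b ⬝ᵥ b)

/-- The representative in the affine chart at `b`. -/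
noncomputable def chart (b x : Fin n → ℝ) : Fin n → ℝ := (lam b x)⁻¹ • x

/-- Distance to `b` in the chart. -/
noncomputable def rad (b x : Fin n → ℝ) : ℝ := ‖chart b x - b‖

/-- Direction from `b` in the chart. -/
noncomputable def dir (b x : Fin n → ℝ) : Fin n → ℝ := (rad b x)⁻¹ • (chart b x - b)

variable {b : Fin n → ℝ}

theorem dot_self_pos (hb : b ≠ 0) : 0 < b ⬝ᵥ b := by
  obtain ⟨i, hi⟩ := Function.ne_iff.mp hb
  exact Finset.sum_pos' (fun j _ => mul_self_nonneg _) ⟨i, Finset.mem_univ i, mul_self_pos.mpr hi⟩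

theorem continuous_dot (b : Fin n → ℝ) : Continuous fun x : Fin n → ℝ => b ⬝ᵥ x :=
  continuous_finsetSum _ fun i _ => continuous_const.mul (continuous_apply i)

theorem lam_pos_eventually (hb : b ≠ 0) : ∀ᶠ x in 𝓝 b, 0 < lam b x :=
  ((continuous_dot b).div_const _).continuousAt.eventually
    (lt_mem_nhds (show (0:ℝ) < b ⬝ᵥ b / b ⬝ᵥ b by
      rw [div_self (dot_self_pos hb).ne']; exact one_pos))

theorem chart_dot (hb : b ≠ 0) {x : Fin n → ℝ} (hx : lam b x ≠ 0) :
    b ⬝ᵥ chart b x = b ⬝ᵥ b := by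
  have hbb := (dot_self_pos hb).ne'
  have : b ⬝ᵥ x ≠ 0 := fun h => hx (by simp [lam, h])
  rw [chart, dotProduct_smul, smul_eq_mul, lam]
  field_simp

theorem chart_tendsto (hb : b ≠ 0) : Tendsto (chart b) (𝓝 b) (𝓝 b) := by
  have h1 : Tendsto (fun x => lam b x) (𝓝 b) (𝓝 1) := by
    have := ((continuous_dot b).div_const (b ⬝ᵥ b)).tendsto b
    rwa [div_self (dot_self_pos hb).ne'] at this
  have := (h1.inv₀ one_ne_zero).smul (tendsto_id (x := 𝓝 b))
  unfold chart
  simpa using this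

theorem rad_dir (b x : Fin n → ℝ) : b + rad b x • dir b x = chart b x := by
  rcases eq_or_ne (rad b x) 0 with h | h
  · have : chart b x - b = 0 := by simpa [rad] using h
    rw [h, zero_smul, add_zero]
    exact (sub_eq_zero.mp this).symm
  · rw [dir, smul_smul, mul_inv_cancel₀ h, one_smul, add_sub_cancel]

theorem frontier_chart (hp : p.IsHomogeneous d) (he : Hyperbolic p e) {x : Fin n → ℝ}
    (hx : x ∈ frontier (hypCone p e)) (hl : 0 < lam b x) : chart b x ∈ frontier (hypCone p e) :=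
  frontier_smul hp he hx (inv_pos.mpr hl)

theorem chart_ne (hp : p.IsHomogeneous d) (he : Hyperbolic p e) (hd : 1 ≤ d) (hn : 3 ≤ n)
    (hC : StrictCone (hypCone p e)) (hb : b ∈ Fset p e) {x : Fin n → ℝ} (hx : x ∈ Fset p e)
    (hl : 0 < lam b x) (hne : x ≠ b) : chart b x ≠ b := fun h => hne <| by
  refine unit_eq hp he hd hn hC hx.1 hb.1 ?_ hx.2 hb.2
  have hxb : x = lam b x • b := by
    have := congrArg (fun v => lam b x • v) h
    simpa [chart, smul_smul, hl.ne'] using this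
  rw [hxb, show lam b x • b + b = (lam b x + 1) • b by rw [add_smul, one_smul]]
  exact frontier_smul hp he hb.1 (by linarith)

theorem slack_chart (hp : p.IsHomogeneous d) {x y : Fin n → ℝ} (hx : lam b x ≠ 0)
    (hy : lam b y ≠ 0) : slack p e x y = lam b x * slack p e (chart b x) (chart b y) := by
  simp only [slack, chart, nu_smul hp y (inv_ne_zero hy), dotProduct_smul, smul_eq_mul]
  rw [← mul_assoc, mul_inv_cancel₀ hx, one_mul]

theorem coeff_two {σ : Type*} [Fintype σ] (P : MvPolynomial σ ℝ) (Y V : σ → ℝ) :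
    (lineR P Y V).coeff 2 = ∑ i, ∑ j, eval (Sum.elim Y Y) (tay P i j) * V i * V j := by
  have hC : ∀ Q : MvPolynomial σ ℝ,
      aeval (fun i => Polynomial.C (Y i)) Q = Polynomial.C (eval Y Q) := fun Q => by
    have := aeval_algebraMap_apply (Polynomial ℝ) Y Q
    simpa [aeval_eq_eval, Function.comp_def] using this
  have h := tay_spec P (R := Polynomial ℝ)
    (fun i => Polynomial.C (Y i) + Polynomial.X * Polynomial.C (V i))
    (fun i => Polynomial.C (Y i))
  simp only [hC, add_sub_cancel_left] at h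
  rw [lineR, h]
  simp only [Polynomial.coeff_add, Polynomial.finsetSum_coeff, Polynomial.coeff_C_succ, zero_add]
  have e1 : ∀ (a v : ℝ),
      (Polynomial.C a * (Polynomial.X * Polynomial.C v)).coeff 2 = 0 := fun a v => by
    rw [show Polynomial.C a * (Polynomial.X * Polynomial.C v)
      = Polynomial.C (a * v) * Polynomial.X by rw [Polynomial.C_mul]; ring,
      Polynomial.coeff_C_mul, Polynomial.coeff_X]
    simp
  have e2 : ∀ (a : Polynomial ℝ) (u v : ℝ), (a * (Polynomial.X * Polynomial.C u) *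
      (Polynomial.X * Polynomial.C v)).coeff 2 = a.eval 0 * u * v := fun a u v => by
    rw [show a * (Polynomial.X * Polynomial.C u) * (Polynomial.X * Polynomial.C v)
      = (a * Polynomial.C u * Polynomial.C v) * Polynomial.X ^ 2 by ring,
      Polynomial.coeff_mul_X_pow']
    simp [Polynomial.coeff_zero_eq_eval_zero]
  simp only [e1, e2, Finset.sum_const_zero, zero_add]
  refine Finset.sum_congr rfl fun i _ => Finset.sum_congr rfl fun j _ => ?_
  congr 2
  induction tay P i j using MvPolynomial.induction_on with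
  | C c => simp
  | add a b ha hb => simp only [map_add, Polynomial.eval_add, ha, hb]
  | mul_X a o ha =>
    rw [map_mul, Polynomial.eval_mul, ha, map_mul, aeval_X, eval_X]
    cases o <;> simp

theorem smooth_pair (hp : p.IsHomogeneous d) (he : Hyperbolic p e)
    (hC : StrictCone (hypCone p e)) (hb : b ∈ Wset p e) :
    ∃ U ∈ 𝓝[Fset p e] b, ∃ V ∈ 𝓝[Wset p e] b, FacOn U V (slack p e) := by
  obtain ⟨⟨hbF, hb1⟩, hg⟩ := hb
  have hb0 : b ≠ 0 := fun h => by simp [h] at hb1
  obtain ⟨hbK, hbp⟩ := (mem_frontier_hypCone hp he).mp hbF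
  set H := tay p
  let Q : (Fin n → ℝ) → ℝ := fun v => -∑ i, ∑ j, eval (Sum.elim b b) (H i j) * v i * v j
  let L : (Fin n → ℝ) → ℝ := fun v => (grad p b ⬝ᵥ v) ^ 2 + (b ⬝ᵥ v) ^ 2
  have hpos : ∀ v, v ≠ 0 → L v = 0 → 0 < Q v := by
    intro v hv hL
    obtain ⟨h1, h2⟩ := (add_eq_zero_iff_of_nonneg (sq_nonneg _) (sq_nonneg _)).mp hL
    rw [sq_eq_zero_iff] at h1 h2
    obtain ⟨hm, hlin⟩ := linear_part hbp hg
    have hge := (smooth_facts hp he hbK hbp hg).1
    have hvq : v ∈ hypCone (tangentForm p b) e :=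
      (mem_hypCone (tangentForm_homogeneous _ _)).mpr fun t ht => by
        rw [hlin, dotProduct_add, h1, dotProduct_smul, zero_add, smul_eq_mul]
        exact (mul_pos ht hge).ne'
    have hgq : grad (tangentForm p b) v = grad p b := by
      funext j
      have := dirderiv_congr (P := tangentForm p b) (Q := ∑ i, C (grad p b i) * X i) (Y := v)
        (V := Pi.single j 1) (y := v) (v := Pi.single j 1) fun t => by rw [hlin]; simp [dotProduct]
      simpa [Pi.single_apply, grad, pderiv_X, apply_ite] using this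
    have hneg := curv_neg hp he hC hbF hb0 hvq (by rw [hlin, h1]) (by rw [hgq]; exact hge)
      fun c hc => hv (by
        rw [hc, dotProduct_smul, smul_eq_mul, mul_eq_zero] at h2
        rw [hc, h2.resolve_right (dot_self_pos hb0).ne', zero_smul])
    have key : lineR p b v = Polynomial.X ^ mult p b * lineR (blow p b) (pt 0 v) (pt 1 0) :=
      Polynomial.funext fun s => by
        rw [lineR_eval, Polynomial.eval_mul, Polynomial.eval_pow, Polynomial.eval_X, lineR_eval,
          pt_add_smul, mul_one, zero_add, smul_zero, add_zero, blow_spec']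
    have h := congrArg (fun P : Polynomial ℝ => P.coeff 2) key
    rw [hm, pow_one] at h
    simp only [coeff_two, Polynomial.coeff_X_mul, lineR_coeff_one, Fintype.sum_option, pt_none,
      pt_some, Pi.zero_apply, mul_zero, Finset.sum_const_zero, add_zero, mul_one] at h
    show 0 < -_
    rw [h]
    linarith
  obtain ⟨K, δ, hK, hδ, hKpos⟩ := pd_exists Q L (by fun_prop)
    (((continuous_dot _).pow 2).add ((continuous_dot _).pow 2))
    (fun c v => by
      simp only [Q, mul_neg, Finset.mul_sum, Pi.smul_apply, smul_eq_mul, neg_inj]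
      exact Finset.sum_congr rfl fun i _ => Finset.sum_congr rfl fun j _ => by ring)
    (fun c v => by simp only [L, dotProduct_smul, smul_eq_mul]; ring)
    (fun v => by positivity) hpos
  set Fx := 𝓝[Fset p e] b
  set Fy := 𝓝[Wset p e] b
  have hcx : ∀ i, Tendsto (fun x => chart b x i) Fx (𝓝 (b i)) := fun i =>
    ((continuous_apply i).tendsto b).comp ((chart_tendsto hb0).mono_left nhdsWithin_le_nhds)
  have hcy : ∀ i, Tendsto (fun x => chart b x i) Fy (𝓝 (b i)) := fun i =>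
    ((continuous_apply i).tendsto b).comp ((chart_tendsto hb0).mono_left nhdsWithin_le_nhds)
  have hH : ∀ i j, SepC Fx Fy (fun x y => eval (Sum.elim (chart b x) (chart b y)) (H i j))
      (eval (Sum.elim b b) (H i j)) := fun i j => by
    refine (SepC.eval_poly (H i j) (v := fun o x y => Sum.elim (chart b x) (chart b y) o)
      fun o => ?_)
    rcases o with k | k
    · exact SepC.left (hcx k)
    · exact SepC.right (hcy k)
  have hgr : ∀ i, SepC Fx Fy (fun _ y => grad p (chart b y) i) (grad p b i) := fun i =>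
    SepC.right ((((MvPolynomial.continuous_eval (pderiv i p)).tendsto b)).comp
      ((chart_tendsto hb0).mono_left nhdsWithin_le_nhds))
  have ha : SepC Fx Fy (fun x y => ∑ i, grad p (chart b y) i * (chart b x i - chart b y i)) 0 :=
    (SepC.sum Finset.univ _ (fun i => grad p b i * (b i - b i)) fun i _ =>
      (hgr i).mul ((SepC.left (hcx i)).sub (SepC.right (hcy i)))).congr (fun x y => rfl) (by simp)
  let G : Fin n → Fin n → (Fin n → ℝ) → (Fin n → ℝ) → ℝ := fun i j x y =>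
    -eval (Sum.elim (chart b x) (chart b y)) (H i j) +
      K * (grad p (chart b y) i * grad p (chart b y) j) +
      K * ((∑ i, grad p (chart b y) i * (chart b x i - chart b y i)) *
        eval (Sum.elim (chart b x) (chart b y)) (H i j)) + K * (b i * b j)
  let G0 : Fin n → Fin n → ℝ := fun i j =>
    -eval (Sum.elim b b) (H i j) + K * (grad p b i * grad p b j) + K * (b i * b j)
  have hG : ∀ i j, SepC Fx Fy (G i j) (G0 i j) := fun i j =>
    ((((hH i j).neg).add ((SepC.const K).mul ((hgr i).mul (hgr j)))).add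
      ((SepC.const K).mul (ha.mul (hH i j)))).add (SepC.const (K * (b i * b j)))
      |>.congr (fun x y => rfl) (by simp [G0])
  have hexp : ∀ (g : Fin n → ℝ) (v : Fin n → ℝ),
      ∑ i, ∑ j, g i * g j * v i * v j = (g ⬝ᵥ v) ^ 2 := fun g v => by
    simp only [dotProduct, sq, Finset.sum_mul_sum]
    exact Finset.sum_congr rfl fun i _ => Finset.sum_congr rfl fun j _ => by ring
  obtain ⟨U, hU, V, hV, hfac⟩ := facOn_form G G0 hG hδ fun v => (hKpos v).trans_eq (by
    simp only [Q, L, G0, add_mul, Finset.sum_add_distrib, neg_mul, Finset.sum_neg_distrib, ← hexp,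
      mul_add, Finset.mul_sum]
    rw [add_assoc]
    congr 1
    simp only [mul_assoc])
  have hl := lam_pos_eventually hb0
  refine ⟨U ∩ (Fset p e ∩ {x | 0 < lam b x}),
    inter_mem hU (inter_mem self_mem_nhdsWithin (mem_nhdsWithin_of_mem_nhds hl)),
    V ∩ (Wset p e ∩ {x | 0 < lam b x}),
    inter_mem hV (inter_mem self_mem_nhdsWithin (mem_nhdsWithin_of_mem_nhds hl)), ?_⟩
  refine ((((hfac (fun i x y => chart b x i - chart b y i) fun i =>
    ((Sep.left fun x : Fin n → ℝ => chart b x i).add (Sep.right fun y => -chart b y i)).congr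
      fun x y => by ring).mono Set.inter_subset_left Set.inter_subset_left).mul
    (fun x => lam b x) (fun y => (grad p (chart b y) ⬝ᵥ e)⁻¹) (fun x hx => le_of_lt hx.2.2)
    fun y hy => ?_)).congr fun x hx y hy => ?_
  · obtain ⟨-, ⟨⟨hyF, -⟩, hyg⟩, hyl⟩ := hy
    obtain ⟨h1, h2⟩ := (mem_frontier_hypCone hp he).mp (frontier_chart hp he hyF hyl)
    refine inv_nonneg.mpr (support_nonneg hp he h1 h2 ?_ (Lam_sub hp (self_mem_Lam hp he)))
    intro h0
    refine hyg (funext fun j => ?_)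
    have hs := grad_smul hp y (Pi.single j 1) (lam b y)⁻¹
    rw [show (lam b y)⁻¹ • y = chart b y from rfl, h0] at hs
    have hyl' : 0 < lam b y := hyl
    simp [hyl'.ne'] at hs
    exact hs
  · obtain ⟨-, ⟨hxF, -⟩, hxl⟩ := hx
    obtain ⟨-, ⟨⟨hyF, -⟩, hyg⟩, hyl⟩ := hy
    obtain ⟨-, hx0⟩ := (mem_frontier_hypCone hp he).mp (frontier_chart (b := b) hp he hxF hxl)
    obtain ⟨-, hy0⟩ := (mem_frontier_hypCone hp he).mp (frontier_chart (b := b) hp he hyF hyl)
    rw [slack_chart hp (ne_of_gt hxl) (ne_of_gt hyl)]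
    simp only [slack, nu, smul_dotProduct, smul_eq_mul, ← mul_assoc]
    congr 1
    set g := grad p (chart b y)
    set D : Fin n → ℝ := fun i => chart b x i - chart b y i
    have hbD : b ⬝ᵥ D = 0 := by
      show b ⬝ᵥ (chart b x - chart b y) = 0
      rw [dotProduct_sub, chart_dot hb0 (ne_of_gt hxl), chart_dot hb0 (ne_of_gt hyl), sub_self]
    have htay := tay_spec' p (chart b x) (chart b y)
    rw [hx0, hy0, zero_add] at htay
    have hgy : g ⬝ᵥ chart b y = 0 := grad_self hp hy0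
    have hgD : g ⬝ᵥ D = g ⬝ᵥ chart b x := by
      show g ⬝ᵥ (chart b x - chart b y) = _
      rw [dotProduct_sub, hgy, sub_zero]
    rw [← hgD]
    have hval : ∑ i, ∑ j, G i j x y * D i * D j
        = -(∑ i, ∑ j, eval (Sum.elim (chart b x) (chart b y)) (H i j) * D i * D j) +
          K * (g ⬝ᵥ D) ^ 2 + K * ((g ⬝ᵥ D) *
          ∑ i, ∑ j, eval (Sum.elim (chart b x) (chart b y)) (H i j) * D i * D j) +
          K * (b ⬝ᵥ D) ^ 2 := by
      set A := fun i j => eval (Sum.elim (chart b x) (chart b y)) (H i j)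
      have e : ∀ i j, G i j x y * D i * D j = -(A i j * D i * D j) + K * (g i * g j * D i * D j) +
          K * ((g ⬝ᵥ D) * (A i j * D i * D j)) + K * (b i * b j * D i * D j) := fun i j => by
        show (-A i j + K * (g i * g j) + K * ((g ⬝ᵥ D) * A i j) + K * (b i * b j)) * D i * D j = _
        ring
      simp only [e, Finset.sum_add_distrib, Finset.sum_neg_distrib, ← Finset.mul_sum, hexp, A]
    rw [hval, hbD]
    have hq : (g ⬝ᵥ D) +
        ∑ i, ∑ j, eval (Sum.elim (chart b x) (chart b y)) (H i j) * D i * D j = 0 := htay.symm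
    linear_combination (K * (g ⬝ᵥ D) - 1) * hq

theorem positive_pair (hp : p.IsHomogeneous d) (he : Hyperbolic p e) (hd : 1 ≤ d) (hn : 3 ≤ n)
    (hC : StrictCone (hypCone p e)) {a : Fin n → ℝ} (ha : a ∈ Fset p e) (hb : b ∈ Wset p e)
    (hne : a ≠ b) :
    ∃ U ∈ 𝓝[Fset p e] a, ∃ V ∈ 𝓝[Wset p e] b, FacOn U V (slack p e) := by
  obtain ⟨haK, -⟩ := (mem_frontier_hypCone hp he).mp ha.1
  obtain ⟨hbK, hbp⟩ := (mem_frontier_hypCone hp he).mp hb.1.1
  have hge := (smooth_facts hp he hbK hbp hb.2).1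
  have hpos : 0 < grad p b ⬝ᵥ a := by
    refine lt_of_le_of_ne (support_nonneg hp he hbK hbp hb.2 haK) fun h => hne ?_
    refine unit_eq hp he hd hn hC ha.1 hb.1.1 ?_ ha.2 hb.1.2
    refine (mem_frontier_hypCone hp he).mpr ⟨add_mem_cone hp he haK hbK, ?_⟩
    by_contra hne'
    have := support_pos hp he hbK hbp hb.2 ((mem_Lam hp).mpr ⟨add_mem_cone hp he haK hbK, hne'⟩)
    rw [dotProduct_add, ← h, grad_self hp hbp, add_zero] at this
    exact lt_irrefl _ this
  have hc : ∀ i, Tendsto (fun y => grad p y i) (𝓝[Wset p e] b) (𝓝 (grad p b i)) := fun i =>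
    ((MvPolynomial.continuous_eval (pderiv i p)).tendsto b).mono_left nhdsWithin_le_nhds
  have he' : Tendsto (fun y => grad p y ⬝ᵥ e) (𝓝[Wset p e] b) (𝓝 (grad p b ⬝ᵥ e)) :=
    tendsto_finsetSum _ fun i _ => (hc i).mul tendsto_const_nhds
  refine facOn_pos (c := ∑ i, (grad p b ⬝ᵥ e)⁻¹ * grad p b i * a i) ?_ ?_
  · have hx : ∀ i, SepC (𝓝[Fset p e] a) (𝓝[Wset p e] b)
        (fun (x : Fin n → ℝ) (_ : Fin n → ℝ) => x i) (a i) := fun i =>
      SepC.left (((continuous_apply i).tendsto a).mono_left nhdsWithin_le_nhds)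
    have hs : ∀ i, SepC (𝓝[Fset p e] a) (𝓝[Wset p e] b)
        (fun (x y : Fin n → ℝ) => (grad p y ⬝ᵥ e)⁻¹ * grad p y i * x i)
        ((grad p b ⬝ᵥ e)⁻¹ * grad p b i * a i) := fun i =>
      SepC.mul (SepC.right ((he'.inv₀ hge.ne').mul (hc i))) (hx i)
    refine (SepC.sum Finset.univ _ _ fun i _ => hs i).congr (fun x y => ?_) rfl
    simp [slack, nu, dotProduct, mul_assoc]
  · simp only [mul_assoc, ← Finset.mul_sum]
    exact mul_pos (inv_pos.mpr hge) hpos

end Vale.Agent.P256
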