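import Vale.Agent.P256.Local

/-!
Factorisations near singular boundary rays.
-/

namespace Vale.Agent.P256

open MvPolynomial Filter Topology Matrix

variable {n d : ℕ} {p : MvPolynomial (Fin n) ℝ} {e b : Fin n → ℝ}

/-- Spatial gradient of the blow-up. -/
noncomputable def bgrad (p : MvPolynomial (Fin n) ℝ) (b : Fin n → ℝ) (s : ℝ) (Y : Fin n → ℝ) :
    Fin n → ℝ :=
  fun j => eval (pt s Y) (pderiv (some j) (blow p b))

/-- Radial derivative of the blow-up. -/
noncomputable def brad (p : MvPolynomial (Fin n) ℝ) (b : Fin n → ℝ) (s : ℝ) (Y : Fin n → ℝ) : ℝ :=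
  eval (pt s Y) (pderiv none (blow p b))

theorem blow_point {s : ℝ} (hs : s ≠ 0) {Y : Fin n → ℝ} (h0 : eval (b + s • Y) p = 0) :
    eval (pt s Y) (blow p b) = 0 ∧
    (∀ v, s ^ mult p b * (bgrad p b s Y ⬝ᵥ v) = s * (grad p (b + s • Y) ⬝ᵥ v)) ∧
    bgrad p b s Y ⬝ᵥ Y = s * brad p b s Y := by
  have hb : eval (pt s Y) (blow p b) = 0 := by
    rw [blow_spec'] at h0
    exact (mul_eq_zero.mp h0).resolve_left (pow_ne_zero _ hs)
  have hgv : ∀ v, s ^ mult p b * (bgrad p b s Y ⬝ᵥ v) = s * (grad p (b + s • Y) ⬝ᵥ v) := fun v => by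
    have h := dirderiv_congr (P := C (s ^ mult p b) * blow p b) (Q := p) (Y := pt s Y)
      (V := pt 0 v) (y := b + s • Y) (v := s • v) fun t => by
        rw [pt_add_smul, mul_zero, add_zero, map_mul, eval_C, ← blow_spec', smul_add, smul_comm t s,
          add_assoc]
    simp only [Fintype.sum_option, pt_none, pt_some, mul_zero, zero_add, pderiv_C_mul, map_mul,
      eval_C, Pi.smul_apply, smul_eq_mul] at h
    simp only [dotProduct, Finset.mul_sum, bgrad, grad]
    calc ∑ i, s ^ mult p b * (eval (pt s Y) (pderiv (some i) (blow p b)) * v i)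
        = ∑ i, s ^ mult p b * eval (pt s Y) (pderiv (some i) (blow p b)) * v i :=
          Finset.sum_congr rfl fun i _ => by ring
      _ = ∑ i, eval (b + s • Y) (pderiv i p) * (s * v i) := h
      _ = ∑ i, s * (eval (b + s • Y) (pderiv i p) * v i) := Finset.sum_congr rfl fun i _ => by ring
  refine ⟨hb, hgv, ?_⟩
  have h := dirderiv_congr (P := C (s ^ mult p b) * blow p b)
    (Q := MvPolynomial.X none ^ mult p b * blow p b) (Y := pt s Y) (V := pt 0 (s⁻¹ • Y))
    (y := pt s Y) (v := pt 1 (0 : Fin n → ℝ)) fun t => by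
      rw [pt_add_smul, pt_add_smul, mul_zero, add_zero, mul_one, smul_zero, add_zero, map_mul,
        eval_C, ← blow_spec', map_mul, map_pow, eval_X, pt_none, ← blow_spec', smul_add, add_smul,
        smul_smul, smul_smul]
      congr 2
      rw [mul_comm s t, mul_assoc, mul_inv_cancel₀ hs, mul_one]
  simp only [Fintype.sum_option, pt_none, pt_some, mul_zero, zero_add, map_mul,
    eval_C, Pi.smul_apply, smul_eq_mul, Pi.zero_apply, Finset.sum_const_zero, add_zero, mul_one,
    pderiv_mul, map_add, hb, mul_zero, map_pow, eval_X] at h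
  have hpow : s ^ mult p b ≠ 0 := pow_ne_zero _ hs
  simp only [dotProduct, bgrad, brad]
  refine mul_left_cancel₀ hpow ?_
  rw [mul_left_comm, ← h, Finset.mul_sum, Finset.mul_sum]
  refine Finset.sum_congr rfl fun i _ => ?_
  field_simp

/-- Chart coordinates `(r, X)` of a boundary point near `b`. -/
theorem slack_node (hp : p.IsHomogeneous d) {x y : Fin n → ℝ} (hlx : lam b x ≠ 0)
    (hly : lam b y ≠ 0) {r s : ℝ} (hs : s ≠ 0) {X Y : Fin n → ℝ} (hX : chart b x = b + r • X)
    (hY : chart b y = b + s • Y) (hy0 : eval (chart b y) p = 0) :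
    slack p e x y = lam b x * (bgrad p b s Y ⬝ᵥ e)⁻¹ *
      (r * (bgrad p b s Y ⬝ᵥ X) - s ^ 2 * brad p b s Y) := by
  rw [hY] at hy0
  obtain ⟨-, hgv, hgY⟩ := blow_point hs hy0
  rw [slack_chart hp hlx hly, mul_assoc]
  congr 1
  set G := grad p (b + s • Y)
  set k := s ^ mult p b / s
  have hk : k ≠ 0 := div_ne_zero (pow_ne_zero _ hs) hs
  have hG : ∀ v, G ⬝ᵥ v = k * (bgrad p b s Y ⬝ᵥ v) := fun v => by
    rw [show k = s ^ mult p b / s from rfl, div_mul_eq_mul_div, hgv, mul_div_cancel_left₀ _ hs]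
  have hself : G ⬝ᵥ (b + s • Y) = 0 := grad_self hp hy0
  have e1 : G ⬝ᵥ (b + r • X) = k * (r * (bgrad p b s Y ⬝ᵥ X) - s ^ 2 * brad p b s Y) := by
    rw [show b + r • X = (b + s • Y) + (r • X - s • Y) by abel, dotProduct_add, hself, zero_add,
      hG, dotProduct_sub, dotProduct_smul, dotProduct_smul, hgY, smul_eq_mul, smul_eq_mul]
    ring
  simp only [slack, nu, hY, hX, smul_dotProduct, smul_eq_mul]
  rw [e1, hG e, mul_inv, mul_assoc, mul_left_comm (bgrad p b s Y ⬝ᵥ e)⁻¹, ← mul_assoc,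
    inv_mul_cancel₀ hk, one_mul]

theorem slack_dir (hp : p.IsHomogeneous d) {x y : Fin n → ℝ} (hly : lam b y ≠ 0)
    {s : ℝ} (hs : s ≠ 0) {Y : Fin n → ℝ} (hY : chart b y = b + s • Y)
    (hy0 : eval (chart b y) p = 0) :
    slack p e x y = (bgrad p b s Y ⬝ᵥ e)⁻¹ * (bgrad p b s Y ⬝ᵥ x) := by
  rw [hY] at hy0
  obtain ⟨-, hgv, -⟩ := blow_point hs hy0
  set k := s ^ mult p b / s
  have hk : k ≠ 0 := div_ne_zero (pow_ne_zero _ hs) hs
  have hG : ∀ v, grad p (b + s • Y) ⬝ᵥ v = k * (bgrad p b s Y ⬝ᵥ v) := fun v => by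
    rw [show k = s ^ mult p b / s from rfl, div_mul_eq_mul_div, hgv, mul_div_cancel_left₀ _ hs]
  have hny : nu p e y = nu p e (chart b y) := (nu_smul hp y (inv_ne_zero hly)).symm
  rw [slack, hny]
  simp only [hY, nu, smul_dotProduct, smul_eq_mul, hG]
  rw [mul_inv, mul_assoc, mul_left_comm (bgrad p b s Y ⬝ᵥ e)⁻¹, ← mul_assoc, inv_mul_cancel₀ hk,
    one_mul]

/-- Boundary points near `b` in a given direction. -/
noncomputable def Lx (p : MvPolynomial (Fin n) ℝ) (e b Z : Fin n → ℝ) : Filter (Fin n → ℝ) :=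
  𝓝[Fset p e \ {b}] b ⊓ comap (dir b) (𝓝 Z)

/-- Smooth boundary points near `b` in a given direction. -/
noncomputable def Ly (p : MvPolynomial (Fin n) ℝ) (e b Z : Fin n → ℝ) : Filter (Fin n → ℝ) :=
  𝓝[Wset p e] b ⊓ comap (dir b) (𝓝 Z)

theorem Ly_le (hg : grad p b = 0) (Z : Fin n → ℝ) : Ly p e b Z ≤ Lx p e b Z :=
  inf_le_inf_right _ (nhdsWithin_mono _ fun y hy => ⟨hy.1, fun (h : y = b) => hy.2 (h ▸ hg)⟩)

theorem Lx_tendsto (hb : b ≠ 0) (Z : Fin n → ℝ) :
    Tendsto (rad b) (Lx p e b Z) (𝓝 0) ∧ Tendsto (dir b) (Lx p e b Z) (𝓝 Z) := by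
  refine ⟨?_, tendsto_comap.mono_left inf_le_right⟩
  have h1 := ((chart_tendsto hb).sub_const b).norm
  rw [sub_self, norm_zero] at h1
  exact h1.mono_left (inf_le_left.trans nhdsWithin_le_nhds)

variable (hp : p.IsHomogeneous d) (he : Hyperbolic p e) (hd : 1 ≤ d) (hn : 3 ≤ n)
  (hC : StrictCone (hypCone p e)) (hO : Ordinary p e b) (hb : b ∈ Fset p e)

include hp he hd hn hC hb in
theorem near_props : ∀ᶠ x in 𝓝[Fset p e \ {b}] b, x ∈ Fset p e ∧ 0 < lam b x ∧ 0 < rad b x ∧
    ‖dir b x‖ = 1 ∧ b ⬝ᵥ dir b x = 0 ∧ dir b x ∈ hypCone (tangentForm p b) e ∧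
    eval (chart b x) p = 0 ∧ eval (pt (rad b x) (dir b x)) (blow p b) = 0 := by
  have hb0 : b ≠ 0 := fun h => by simp [h] at hb; exact absurd hb.2 (by simp)
  obtain ⟨hbK, -⟩ := (mem_frontier_hypCone hp he).mp hb.1
  filter_upwards [self_mem_nhdsWithin, mem_nhdsWithin_of_mem_nhds (lam_pos_eventually hb0)]
    with x ⟨hxF, hxb⟩ hl
  replace hl : 0 < lam b x := hl
  have hne := chart_ne hp he hd hn hC hb hxF hl hxb
  have hr : 0 < rad b x := norm_pos_iff.mpr (sub_ne_zero.mpr hne)
  obtain ⟨hcK, hc0⟩ := (mem_frontier_hypCone hp he).mp (frontier_chart (b := b) hp he hxF.1 hl)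
  refine ⟨hxF, hl, hr, ?_, ?_, ?_, hc0, ?_⟩
  · rw [dir, norm_smul, norm_inv, Real.norm_eq_abs, abs_of_pos hr]
    exact inv_mul_cancel₀ hr.ne'
  · rw [dir, dotProduct_smul, dotProduct_sub, chart_dot hb0 hl.ne', sub_self, smul_zero]
  · refine mem_tangentCone hp he hbK ?_
    filter_upwards [Ioo_mem_nhdsGT hr] with h hh
    have e1 : b + h • dir b x = (1 - h / rad b x) • b + (h / rad b x) • chart b x := by
      rw [dir, smul_smul, sub_smul, one_smul, smul_sub, div_eq_mul_inv]
      abel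
    have hlt : h / rad b x < 1 := (div_lt_one hr).mpr hh.2
    rw [e1]
    exact add_mem_cone hp he (smul_mem_cone hp hbK (by linarith))
      (smul_mem_cone hp hcK (div_pos hh.1 hr))
  · have := hc0
    rw [← rad_dir b x, blow_spec'] at this
    exact (mul_eq_zero.mp this).resolve_left (pow_ne_zero _ hr.ne')

include hp he hd hn hC hb hO in
theorem dir_limit {Z : Fin n → ℝ} [h : (Lx p e b Z).NeBot] :
    ‖Z‖ = 1 ∧ b ⬝ᵥ Z = 0 ∧ Z ∈ frontier (hypCone (tangentForm p b) e) ∧
      Z ∉ Submodule.span ℝ ({b} : Set (Fin n → ℝ)) ∧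
      0 < grad (tangentForm p b) Z ⬝ᵥ e ∧ brad p b 0 Z < 0 := by
  have hb0 : b ≠ 0 := fun h => by simp [h] at hb; exact absurd hb.2 (by simp)
  obtain ⟨hbK, -⟩ := (mem_frontier_hypCone hp he).mp hb.1
  have hq := tangent_hyperbolic hp he hbK
  have hqh := tangentForm_homogeneous p b
  obtain ⟨hr, hX⟩ := Lx_tendsto (p := p) (e := e) hb0 Z
  have hev : ∀ᶠ x in Lx p e b Z, _ := (near_props hp he hd hn hC hb).filter_mono inf_le_left
  have h1 : ‖Z‖ = 1 := tendsto_nhds_unique hX.norm
    (tendsto_const_nhds.congr' (hev.mono fun x hx => hx.2.2.2.1.symm))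
  have h2 : b ⬝ᵥ Z = 0 := tendsto_nhds_unique (((continuous_dot b).tendsto Z).comp hX)
    (tendsto_const_nhds.congr' (hev.mono fun x hx => hx.2.2.2.2.1.symm))
  have h3 : Z ∈ hypCone (tangentForm p b) e :=
    (isClosed_hypCone hqh hq).mem_of_tendsto hX (hev.mono fun x hx => hx.2.2.2.2.2.1)
  have hc : Continuous fun q : ℝ × (Fin n → ℝ) => eval (pt q.1 q.2) (blow p b) := by
    have := continuous_aeval_pt (T := ℝ × (Fin n → ℝ)) (blow p b) continuous_fst continuous_snd
    simpa [aeval_eq_eval] using this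
  have h4 : eval Z (tangentForm p b) = 0 := by
    rw [← blow_zero']
    exact tendsto_nhds_unique ((hc.tendsto (0, Z)).comp (hr.prodMk_nhds hX))
      (tendsto_const_nhds.congr' (hev.mono fun x hx => hx.2.2.2.2.2.2.2.symm))
  have hZF := (mem_frontier_hypCone hqh hq).mpr ⟨h3, h4⟩
  have hspan : Z ∉ Submodule.span ℝ ({b} : Set (Fin n → ℝ)) := fun hm => by
    obtain ⟨c, rfl⟩ := Submodule.mem_span_singleton.mp hm
    rw [dotProduct_smul, smul_eq_mul, mul_eq_zero, or_iff_left (dot_self_pos hb0).ne'] at h2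
    simp [h2] at h1
  have hge := (smooth_facts hqh hq h3 h4 (hO Z hZF hspan)).1
  exact ⟨h1, h2, hZF, hspan, hge, curv_neg hp he hC hb.1 hb0 h3 h4 hge
    fun c hc => hspan (Submodule.mem_span_singleton.mpr ⟨c, hc.symm⟩)⟩

theorem sepc_pt {α β : Type*} {Fx : Filter α} {Fy : Filter β} {s : β → ℝ} {Y : β → Fin n → ℝ}
    {Z : Fin n → ℝ} (hs : Tendsto s Fy (𝓝 0)) (hY : Tendsto Y Fy (𝓝 Z))
    (P : MvPolynomial (Option (Fin n)) ℝ) :
    SepC Fx Fy (fun _ y => eval (pt (s y) (Y y)) P) (eval (pt 0 Z) P) :=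
  SepC.eval_poly P (v := fun o _ y => pt (s y) (Y y) o) fun o => by
    cases o with
    | none => exact SepC.right hs
    | some i => exact SepC.right (((continuous_apply i).tendsto Z).comp hY)

theorem sepc_grad {α β : Type*} {Fx : Filter α} {Fy : Filter β} {s : β → ℝ} {Y : β → Fin n → ℝ}
    {Z : Fin n → ℝ} (hs : Tendsto s Fy (𝓝 0)) (hY : Tendsto Y Fy (𝓝 Z)) (j : Fin n) :
    SepC Fx Fy (fun _ y => bgrad p b (s y) (Y y) j) (grad (tangentForm p b) Z j) :=
  blow_grad_one p b Z j ▸ sepc_pt hs hY _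

theorem grad_inv_tendsto {β : Type*} {Fy : Filter β} {s : β → ℝ} {Y : β → Fin n → ℝ}
    {Z : Fin n → ℝ} (hs : Tendsto s Fy (𝓝 0)) (hY : Tendsto Y Fy (𝓝 Z)) (v : Fin n → ℝ) :
    Tendsto (fun y => bgrad p b (s y) (Y y) ⬝ᵥ v) Fy
      (𝓝 (grad (tangentForm p b) Z ⬝ᵥ v)) := by
  have key : ∀ i, Tendsto (fun y => bgrad p b (s y) (Y y) i) Fy
      (𝓝 (eval (pt 0 Z) (pderiv (some i) (blow p b)))) := fun i => by
    have hc : Continuous fun q : ℝ × (Fin n → ℝ) =>
        eval (pt q.1 q.2) (pderiv (some i) (blow p b)) := by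
      have := continuous_aeval_pt (T := ℝ × (Fin n → ℝ)) (pderiv (some i) (blow p b)) continuous_fst
        continuous_snd
      simpa [aeval_eq_eval] using this
    exact Tendsto.comp (g := fun q : ℝ × (Fin n → ℝ) =>
      eval (pt q.1 q.2) (pderiv (some i) (blow p b))) (f := fun y => (s y, Y y))
      (hc.tendsto ((0:ℝ), Z)) (hs.prodMk_nhds hY)
  exact tendsto_finsetSum _ fun i _ =>
    (blow_grad_one p b Z i ▸ key i).mul tendsto_const_nhds

include hp he hd hn hC hb hO in
theorem node_far {a : Fin n → ℝ} (ha : a ∈ Fset p e) (hne : a ≠ b) (hg : grad p b = 0)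
    (Z : Fin n → ℝ) :
    ∃ U ∈ 𝓝[Fset p e] a, ∃ V ∈ Ly p e b Z, FacOn U V (slack p e) := by
  rcases (Ly p e b Z).eq_or_neBot with hbot | hNe
  · exact ⟨Set.univ, univ_mem, ∅, by rw [hbot]; exact mem_bot, FacOn.empty_right⟩
  have : (Lx p e b Z).NeBot := hNe.mono (Ly_le hg Z)
  obtain ⟨-, -, hZF, hspan, hge, -⟩ := dir_limit hp he hd hn hC hO hb (Z := Z)
  have hb0 : b ≠ 0 := fun h => by simp [h] at hb; exact absurd hb.2 (by simp)
  obtain ⟨hbK, -⟩ := (mem_frontier_hypCone hp he).mp hb.1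
  obtain ⟨haK, -⟩ := (mem_frontier_hypCone hp he).mp ha.1
  have hq := tangent_hyperbolic hp he hbK
  have hqh := tangentForm_homogeneous p b
  obtain ⟨hZK, hZ0⟩ := (mem_frontier_hypCone hqh hq).mp hZF
  have hgq := hO Z hZF hspan
  have hpos : 0 < grad (tangentForm p b) Z ⬝ᵥ a := by
    refine lt_of_le_of_ne
      (support_nonneg hqh hq hZK hZ0 hgq (cone_subset_tangent hp he hbK haK)) fun h => hne ?_
    refine unit_eq hp he hd hn hC ha.1 hb.1 ?_ ha.2 hb.2
    refine (mem_frontier_hypCone hp he).mpr ⟨add_mem_cone hp he haK hbK, ?_⟩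
    by_contra hne'
    have := support_pos hqh hq hZK hZ0 hgq
      (lam_subset_tangent hp he hbK ((mem_Lam hp).mpr ⟨add_mem_cone hp he haK hbK, hne'⟩))
    rw [dotProduct_add, ← h, grad_tangent_self hp, add_zero] at this
    exact lt_irrefl _ this
  obtain ⟨hr0, hX0⟩ := Lx_tendsto (p := p) (e := e) hb0 Z
  have hr := hr0.mono_left (Ly_le (e := e) hg Z)
  have hX := hX0.mono_left (Ly_le (e := e) hg Z)
  have hx : ∀ i, SepC (𝓝[Fset p e] a) (Ly p e b Z)
      (fun (x : Fin n → ℝ) (_ : Fin n → ℝ) => x i) (a i) := fun i =>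
    SepC.left (((continuous_apply i).tendsto a).mono_left nhdsWithin_le_nhds)
  have hs : ∀ i, SepC (𝓝[Fset p e] a) (Ly p e b Z)
      (fun (x y : Fin n → ℝ) => bgrad p b (rad b y) (dir b y) i * x i)
      (grad (tangentForm p b) Z i * a i) := fun i => SepC.mul (sepc_grad hr hX i) (hx i)
  have hsum := SepC.sum Finset.univ _ _ fun i _ => hs i
  obtain ⟨U, hU, V, hV, hfac⟩ := facOn_pos hsum hpos
  have hev : ∀ᶠ y in Ly p e b Z, _ := ((near_props hp he hd hn hC hb).filter_mono inf_le_left).filter_mono (Ly_le hg Z)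
  have hge' : ∀ᶠ y in Ly p e b Z, 0 < bgrad p b (rad b y) (dir b y) ⬝ᵥ e :=
    (grad_inv_tendsto hr hX e).eventually (lt_mem_nhds hge)
  refine ⟨U, hU, _, inter_mem hV (hev.and hge'),
    ((hfac.mono le_rfl Set.inter_subset_left).mul (fun _ => 1)
      (fun y => (bgrad p b (rad b y) (dir b y) ⬝ᵥ e)⁻¹) (fun _ _ => zero_le_one)
      fun y hy => (inv_pos.mpr hy.2.2).le).congr fun x _ y hy => ?_⟩
  obtain ⟨-, ⟨-, hl, hr', -, -, -, hc0, -⟩, -⟩ := hy
  rw [slack_dir hp hl.ne' hr'.ne' (rad_dir b y).symm hc0, one_mul]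
  rfl

include hp he hd hn hC hb hO in
theorem node_point (hg : grad p b = 0) (Z : Fin n → ℝ) :
    ∃ V ∈ Ly p e b Z, FacOn {b} V (slack p e) := by
  rcases (Ly p e b Z).eq_or_neBot with hbot | hNe
  · exact ⟨∅, by rw [hbot]; exact mem_bot, FacOn.empty_right⟩
  have : (Lx p e b Z).NeBot := hNe.mono (Ly_le hg Z)
  obtain ⟨-, -, -, -, hge, hrad⟩ := dir_limit hp he hd hn hC hO hb (Z := Z)
  have hb0 : b ≠ 0 := fun h => by simp [h] at hb; exact absurd hb.2 (by simp)
  obtain ⟨hr0, hX0⟩ := Lx_tendsto (p := p) (e := e) hb0 Z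
  have hr := hr0.mono_left (Ly_le (e := e) hg Z)
  have hX := hX0.mono_left (Ly_le (e := e) hg Z)
  obtain ⟨U, hU, V, hV, hfac⟩ := facOn_pos (Fx := pure b)
    (sepc_pt (Fx := pure b) (Fy := Ly p e b Z) hr hX (pderiv none (blow p b))).neg (neg_pos.mpr hrad)
  have hev : ∀ᶠ y in Ly p e b Z, _ := ((near_props hp he hd hn hC hb).filter_mono inf_le_left).filter_mono (Ly_le hg Z)
  have hge' : ∀ᶠ y in Ly p e b Z, 0 < bgrad p b (rad b y) (dir b y) ⬝ᵥ e :=
    (grad_inv_tendsto hr hX e).eventually (lt_mem_nhds hge)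
  refine ⟨_, inter_mem hV (hev.and hge'),
    ((hfac.mono (Set.singleton_subset_iff.mpr hU) Set.inter_subset_left).mul (fun _ => 1)
      (fun y => (bgrad p b (rad b y) (dir b y) ⬝ᵥ e)⁻¹ * rad b y ^ 2) (fun _ _ => zero_le_one)
      fun y hy => mul_nonneg (inv_pos.mpr hy.2.2).le (sq_nonneg _)).congr fun x hx y hy => ?_⟩
  obtain ⟨-, ⟨-, hl, hr', -, -, -, hc0, -⟩, -⟩ := hy
  rw [Set.mem_singleton_iff] at hx
  subst hx
  have hlam : lam x x = 1 := div_self (dot_self_pos hb0).ne'
  rw [slack_node hp (x := x) (by rw [hlam]; exact one_ne_zero) hl.ne' hr'.ne' (r := 0) (X := 0)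
    (by simp [chart, hlam]) (rad_dir x y).symm hc0, hlam]
  simp only [brad]
  ring

include hp he hd hn hC hb hO in
theorem node_distinct (hg : grad p b = 0) {Z Z' : Fin n → ℝ} (hne : Z ≠ Z') :
    ∃ U ∈ Lx p e b Z, ∃ V ∈ Ly p e b Z', FacOn U V (slack p e) := by
  rcases (Lx p e b Z).eq_or_neBot with hbot | hNx
  · exact ⟨∅, by rw [hbot]; exact mem_bot, Set.univ, univ_mem, FacOn.empty_left⟩
  rcases (Ly p e b Z').eq_or_neBot with hbot | hNe
  · exact ⟨Set.univ, univ_mem, ∅, by rw [hbot]; exact mem_bot, FacOn.empty_right⟩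
  have : (Lx p e b Z').NeBot := hNe.mono (Ly_le hg Z')
  obtain ⟨hZ1, hZb, hZF, -, -, -⟩ := dir_limit hp he hd hn hC hO hb (Z := Z)
  obtain ⟨hZ1', hZb', hZF', hspan, hge, hrad⟩ := dir_limit hp he hd hn hC hO hb (Z := Z')
  have hb0 : b ≠ 0 := fun h => by simp [h] at hb; exact absurd hb.2 (by simp)
  obtain ⟨hbK, -⟩ := (mem_frontier_hypCone hp he).mp hb.1
  have hm := two_le_mult hp he hb.1 hg
  have hq := tangent_hyperbolic hp he hbK
  have hqh := tangentForm_homogeneous p b
  obtain ⟨hZK, hZ0⟩ := (mem_frontier_hypCone hqh hq).mp hZF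
  obtain ⟨hZK', hZ0'⟩ := (mem_frontier_hypCone hqh hq).mp hZF'
  have hgq := hO Z' hZF' hspan
  have hpos : 0 < grad (tangentForm p b) Z' ⬝ᵥ Z := by
    refine lt_of_le_of_ne (support_nonneg hqh hq hZK' hZ0' hgq hZK) fun h => ?_
    refine tangent_line hp he hbK hm hO hZF' (u := Z - Z') (fun α β hab => ?_) hspan ?_
    · have hZeq : Z = (1 + α) • Z' + β • b := by
        rw [add_smul, one_smul, add_assoc, ← hab, add_sub_cancel]
      have hβ : β = 0 := by
        have := congrArg (fun v => b ⬝ᵥ v) hZeq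
        simp only [dotProduct_add, dotProduct_smul, smul_eq_mul, hZb, hZb', mul_zero,
          zero_add] at this
        exact (mul_eq_zero.mp this.symm).resolve_right (dot_self_pos hb0).ne'
      rw [hβ, zero_smul, add_zero] at hZeq
      have habs : |1 + α| = 1 := by
        have := congrArg norm hZeq
        rwa [hZ1, norm_smul, hZ1', mul_one, Real.norm_eq_abs, eq_comm] at this
      rcases (abs_eq (zero_le_one' ℝ)).mp habs with h1 | h1
      · exact hne (by rw [hZeq, h1, one_smul])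
      · exact hspan (tangent_lineality hp he hbK hm hO hZK' (by
          rw [show -Z' = Z by rw [hZeq, h1, neg_one_smul]]; exact hZK))
    · intro s
      have key : ∀ t ∈ Set.Ioo (0:ℝ) 1, eval (Z' + t • (Z - Z')) (tangentForm p b) = 0 := by
        intro t ht
        have hw : Z' + t • (Z - Z') = (1 - t) • Z' + t • Z := by
          rw [smul_sub, sub_smul, one_smul]; abel
        have hK : Z' + t • (Z - Z') ∈ hypCone (tangentForm p b) e := hw ▸
          add_mem_cone hqh hq (smul_mem_cone hqh hZK' (by linarith [ht.2]))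
            (smul_mem_cone hqh hZK ht.1)
        by_contra hne'
        have := support_pos hqh hq hZK' hZ0' hgq ((mem_Lam hqh).mpr ⟨hK, hne'⟩)
        rw [hw, dotProduct_add, dotProduct_smul, dotProduct_smul, grad_self hqh hZ0', ← h,
          smul_zero, smul_zero, add_zero] at this
        exact lt_irrefl _ this
      have hP : lineR (tangentForm p b) Z' (Z - Z') = 0 :=
        Polynomial.eq_zero_of_infinite_isRoot _ ((Set.Ioo_infinite zero_lt_one).mono fun t ht => by
          show (lineR _ _ _).IsRoot t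
          rw [Polynomial.IsRoot, lineR_eval]
          exact key t ht)
      rw [← lineR_eval, hP, Polynomial.eval_zero]
  obtain ⟨hrx, hXx⟩ := Lx_tendsto (p := p) (e := e) hb0 Z
  obtain ⟨hr0, hX0⟩ := Lx_tendsto (p := p) (e := e) hb0 Z'
  have hr := hr0.mono_left (Ly_le (e := e) hg Z')
  have hX := hX0.mono_left (Ly_le (e := e) hg Z')
  have hs : ∀ i, SepC (Lx p e b Z) (Ly p e b Z')
      (fun (x y : Fin n → ℝ) => bgrad p b (rad b y) (dir b y) i * dir b x i)
      (grad (tangentForm p b) Z' i * Z i) := fun i =>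
    SepC.mul (sepc_grad hr hX i) (SepC.left (((continuous_apply i).tendsto Z).comp hXx))
  obtain ⟨U, hU, V, hV, hfac⟩ := facOn_pos (SepC.sum Finset.univ _ _ fun i _ => hs i) hpos
  obtain ⟨U', hU', V', hV', hfac'⟩ := facOn_pos
    (sepc_pt (Fx := Lx p e b Z) (Fy := Ly p e b Z') hr hX (pderiv none (blow p b))).neg
      (neg_pos.mpr hrad)
  have hevx : ∀ᶠ x in Lx p e b Z, _ := (near_props hp he hd hn hC hb).filter_mono inf_le_left
  have hev : ∀ᶠ y in Ly p e b Z', _ := ((near_props hp he hd hn hC hb).filter_mono inf_le_left).filter_mono (Ly_le hg Z')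
  have hge' : ∀ᶠ y in Ly p e b Z', 0 < bgrad p b (rad b y) (dir b y) ⬝ᵥ e :=
    (grad_inv_tendsto hr hX e).eventually (lt_mem_nhds hge)
  refine ⟨_, inter_mem (inter_mem hU hU') hevx, _, inter_mem (inter_mem hV hV') (hev.and hge'),
    ((((hfac.mono (fun x hx => hx.1.1) (fun y hy => hy.1.1)).mul (fun x => rad b x) (fun _ => 1)
      (fun x hx => hx.2.2.2.1.le) fun _ _ => zero_le_one).add
      ((hfac'.mono (fun x hx => hx.1.2) (fun y hy => hy.1.2)).mul (fun _ => 1)
        (fun y => rad b y ^ 2) (fun _ _ => zero_le_one) fun _ _ => sq_nonneg _)).mul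
      (fun x => lam b x) (fun y => (bgrad p b (rad b y) (dir b y) ⬝ᵥ e)⁻¹)
      (fun x hx => hx.2.2.1.le) fun y hy => (inv_pos.mpr hy.2.2).le).congr fun x hx y hy => ?_⟩
  obtain ⟨-, -, hlx, -, -, -, -, -⟩ := hx
  obtain ⟨-, ⟨-, hl, hr', -, -, -, hc0, -⟩, -⟩ := hy
  rw [slack_node hp hlx.ne' hl.ne' hr'.ne' (rad_dir b x).symm (rad_dir b y).symm hc0]
  simp only [brad, dotProduct]
  ring

include hp he hb hO in
theorem node_form_pos (hg : grad p b = 0) {Z : Fin n → ℝ}
    (hZF : Z ∈ frontier (hypCone (tangentForm p b) e))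
    (hspan : Z ∉ Submodule.span ℝ ({b} : Set (Fin n → ℝ))) {v : Fin n → ℝ} (hv : v ≠ 0)
    (h1 : grad (tangentForm p b) Z ⬝ᵥ v = 0) (h2 : b ⬝ᵥ v = 0) (h3 : Z ⬝ᵥ v = 0) :
    ∑ i, ∑ j, eval (Sum.elim (pt 0 Z) (pt 0 Z)) (tay (blow p b) (some i) (some j)) * v i * v j
      < 0 := by
  obtain ⟨hbK, -⟩ := (mem_frontier_hypCone hp he).mp hb.1
  have hm := two_le_mult hp he hb.1 hg
  have hq := tangent_hyperbolic hp he hbK
  have hqh := tangentForm_homogeneous p b
  obtain ⟨hZK, hZ0⟩ := (mem_frontier_hypCone hqh hq).mp hZF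
  have hgq := hO Z hZF hspan
  have hge := (smooth_facts hqh hq hZK hZ0 hgq).1
  obtain ⟨hm1, hlin⟩ := linear_part hZ0 hgq
  have hgg : grad (tangentForm (tangentForm p b) Z) v = grad (tangentForm p b) Z := by
    funext j
    have := dirderiv_congr (P := tangentForm (tangentForm p b) Z)
      (Q := ∑ i, C (grad (tangentForm p b) Z i) * MvPolynomial.X i) (Y := v) (V := Pi.single j 1)
      (y := v) (v := Pi.single j 1) fun t => by rw [hlin]; simp [dotProduct]
    simpa [Pi.single_apply, grad, pderiv_X, apply_ite] using this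
  have hneg := (curv hqh hq hZK (u := v) (by omega) (by rw [hlin, h1])
    (by rw [hgg]; exact hge)).resolve_right
    (tangent_line hp he hbK hm hO hZF (fun α β hab => hv (by
      have e0 : v ⬝ᵥ v = 0 := by
        nth_rewrite 2 [hab]
        rw [dotProduct_add, dotProduct_smul, dotProduct_smul, dotProduct_comm v Z, h3,
          dotProduct_comm v b, h2, smul_zero, smul_zero, add_zero]
      exact dotProduct_self_eq_zero.mp e0)) hspan)
  have key : lineR (tangentForm p b) Z v = Polynomial.X ^ mult (tangentForm p b) Z *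
      lineR (blow (tangentForm p b) Z) (pt 0 v) (pt 1 0) :=
    Polynomial.funext fun s => by
      rw [lineR_eval, Polynomial.eval_mul, Polynomial.eval_pow, Polynomial.eval_X, lineR_eval,
        pt_add_smul, mul_one, zero_add, smul_zero, add_zero, blow_spec']
  have key2 : lineR (blow p b) (pt 0 Z) (pt 0 v) = lineR (tangentForm p b) Z v :=
    Polynomial.funext fun s => by
      rw [lineR_eval, lineR_eval, pt_add_smul, mul_zero, add_zero, blow_zero']
  have h := congrArg (fun P : Polynomial ℝ => P.coeff 2) (key2.trans key)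
  rw [hm1, pow_one] at h
  simp only [coeff_two, Polynomial.coeff_X_mul, lineR_coeff_one, Fintype.sum_option, pt_none,
    pt_some, Pi.zero_apply, mul_zero, zero_mul, Finset.sum_const_zero, add_zero, zero_add,
    mul_one] at h
  rw [h]
  exact hneg

theorem facOn_form_option {α β : Type*} {Fx : Filter α} {Fy : Filter β}
    (G : Option (Fin n) → Option (Fin n) → α → β → ℝ) (G0 : Option (Fin n) → Option (Fin n) → ℝ)
    (hG : ∀ i j, SepC Fx Fy (G i j) (G0 i j)) {δ : ℝ} (hδ : 0 < δ)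
    (hpos : ∀ v : Option (Fin n) → ℝ, δ * ∑ i, v i ^ 2 ≤ ∑ i, ∑ j, G0 i j * v i * v j) :
    ∃ U ∈ Fx, ∃ W ∈ Fy, ∀ z : Option (Fin n) → α → β → ℝ, (∀ i, Sep (z i)) →
      FacOn U W fun x y => ∑ i, ∑ j, G i j x y * z i x y * z j x y := by
  set f := finSuccEquiv n
  obtain ⟨U, hU, W, hW, h⟩ := facOn_form (fun i j => G (f i) (f j)) (fun i j => G0 (f i) (f j))
    (fun i j => hG _ _) hδ fun v => by
      have := hpos fun o => v (f.symm o)
      rw [← Equiv.sum_comp f, ← Equiv.sum_comp f] at this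
      simp only [← Equiv.sum_comp f (fun j => G0 _ j * _ * v (f.symm j)),
        Equiv.symm_apply_apply] at this
      exact this
  refine ⟨U, hU, W, hW, fun z hz => (h (fun i => z (f i)) fun i => hz _).congr fun x _ y _ => ?_⟩
  rw [← Equiv.sum_comp f]
  exact Finset.sum_congr rfl fun i _ => Equiv.sum_comp f fun j => G (f i) j x y * z (f i) x y * z j x y

include hp he hd hn hC hb hO in
theorem node_same (hg : grad p b = 0) (Z : Fin n → ℝ) :
    ∃ U ∈ Lx p e b Z, ∃ V ∈ Ly p e b Z, FacOn U V (slack p e) := by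
  rcases (Ly p e b Z).eq_or_neBot with hbot | hNe
  · exact ⟨Set.univ, univ_mem, ∅, by rw [hbot]; exact mem_bot, FacOn.empty_right⟩
  have : (Lx p e b Z).NeBot := hNe.mono (Ly_le hg Z)
  obtain ⟨hZ1, hZb, hZF, hspan, hge, hrad⟩ := dir_limit hp he hd hn hC hO hb (Z := Z)
  have hb0 : b ≠ 0 := fun h => by simp [h] at hb; exact absurd hb.2 (by simp)
  have hZ0 : Z ≠ 0 := fun h => by simp [h] at hZ1
  have hZZ := dot_self_pos hZ0
  set H := tay (blow p b)
  let Q : (Fin n → ℝ) → ℝ := fun v =>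
    -∑ i, ∑ j, eval (Sum.elim (pt 0 Z) (pt 0 Z)) (H (some i) (some j)) * v i * v j
  let L : (Fin n → ℝ) → ℝ := fun v =>
    (grad (tangentForm p b) Z ⬝ᵥ v) ^ 2 + (b ⬝ᵥ v) ^ 2 + (Z ⬝ᵥ v) ^ 2
  obtain ⟨K, δ, hK, hδ, hKpos⟩ := pd_exists Q L (by fun_prop)
    ((((continuous_dot _).pow 2).add ((continuous_dot _).pow 2)).add ((continuous_dot _).pow 2))
    (fun c v => by
      simp only [Q, mul_neg, Finset.mul_sum, Pi.smul_apply, smul_eq_mul, neg_inj]
      exact Finset.sum_congr rfl fun i _ => Finset.sum_congr rfl fun j _ => by ring)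
    (fun c v => by simp only [L, dotProduct_smul, smul_eq_mul]; ring)
    (fun v => by positivity) (fun v hv hL => by
      obtain ⟨h12, h3⟩ := (add_eq_zero_iff_of_nonneg (add_nonneg (sq_nonneg _) (sq_nonneg _))
        (sq_nonneg _)).mp hL
      obtain ⟨h1, h2⟩ := (add_eq_zero_iff_of_nonneg (sq_nonneg _) (sq_nonneg _)).mp h12
      rw [sq_eq_zero_iff] at h1 h2 h3
      exact neg_pos.mpr (node_form_pos hp he hO hb hg hZF hspan hv h1 h2 h3))
  set Fx := Lx p e b Z
  set Fy := Ly p e b Z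
  -- rescaled coordinates with `Z ⬝ᵥ X = Z ⬝ᵥ Z`
  let k : (Fin n → ℝ) → ℝ := fun x => (Z ⬝ᵥ dir b x) / (Z ⬝ᵥ Z)
  let rr : (Fin n → ℝ) → ℝ := fun x => rad b x * k x
  let XX : (Fin n → ℝ) → (Fin n → ℝ) := fun x => (k x)⁻¹ • dir b x
  obtain ⟨hrx0, hXx0⟩ := Lx_tendsto (p := p) (e := e) hb0 Z
  have hk : Tendsto k Fx (𝓝 1) := by
    have := (((continuous_dot Z).tendsto Z).comp hXx0).div_const (Z ⬝ᵥ Z)
    rwa [div_self hZZ.ne'] at this
  have hrx : Tendsto rr Fx (𝓝 0) := by simpa using hrx0.mul hk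
  have hXx : Tendsto XX Fx (𝓝 Z) := by simpa using (hk.inv₀ one_ne_zero).smul hXx0
  have hry := hrx.mono_left (Ly_le (e := e) hg Z)
  have hXy := hXx.mono_left (Ly_le (e := e) hg Z)
  have hev : ∀ᶠ x in Fx, _ := ((near_props hp he hd hn hC hb).filter_mono inf_le_left).and
    (hk.eventually (lt_mem_nhds one_pos))
  have hH : ∀ o o', SepC Fx Fy
      (fun x y => eval (Sum.elim (pt (rr x) (XX x)) (pt (rr y) (XX y))) (H o o'))
      (eval (Sum.elim (pt 0 Z) (pt 0 Z)) (H o o')) := fun o o' => by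
    refine SepC.eval_poly (H o o')
      (v := fun q x y => Sum.elim (pt (rr x) (XX x)) (pt (rr y) (XX y)) q) fun q => ?_
    rcases q with (_ | i) | (_ | i)
    · exact SepC.left hrx
    · exact SepC.left (((continuous_apply i).tendsto Z).comp hXx)
    · exact SepC.right hry
    · exact SepC.right (((continuous_apply i).tendsto Z).comp hXy)
  have hgr : ∀ i, SepC Fx Fy (fun _ y => bgrad p b (rr y) (XX y) i)
      (grad (tangentForm p b) Z i) := fun i => sepc_grad hry hXy i
  have hd0 : SepC Fx Fy (fun _ y => brad p b (rr y) (XX y)) (brad p b 0 Z) := sepc_pt hry hXy _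
  have hw : SepC Fx Fy (fun x _ => √(rr x)) 0 := by
    refine SepC.left ?_
    have := (Real.continuous_sqrt.tendsto 0).comp hrx
    rwa [Real.sqrt_zero] at this
  have hr' : SepC Fx Fy (fun x _ => rr x) 0 := SepC.left hrx
  have hXs : ∀ i, SepC Fx Fy (fun x y => XX x i - XX y i) 0 := fun i =>
    ((SepC.left (((continuous_apply i).tendsto Z).comp hXx)).sub
      (SepC.right (((continuous_apply i).tendsto Z).comp hXy))).congr (fun _ _ => rfl) (by simp)
  have hone : SepC Fx Fy
      (fun x y => 1 - K * ∑ i, bgrad p b (rr y) (XX y) i * (XX x i - XX y i)) 1 :=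
    ((SepC.const 1).sub ((SepC.const K).mul
      (SepC.sum Finset.univ _ _ fun i _ => (hgr i).mul (hXs i)))).congr (fun _ _ => rfl) (by simp)
  let G : Option (Fin n) → Option (Fin n) → (Fin n → ℝ) → (Fin n → ℝ) → ℝ := fun o o' x y =>
    let h : ℝ := eval (Sum.elim (pt (rr x) (XX x)) (pt (rr y) (XX y))) (H o o') *
      (1 - K * ∑ i, bgrad p b (rr y) (XX y) i * (XX x i - XX y i))
    match o, o' with
    | none, none => -brad p b (rr y) (XX y) - rr x * h
    | none, some j => -(√(rr x) * h) +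
        K * (√(rr x) * (brad p b (rr y) (XX y) * bgrad p b (rr y) (XX y) j))
    | some _, none => -(√(rr x) * h)
    | some i, some j => -h + K * (bgrad p b (rr y) (XX y) i * bgrad p b (rr y) (XX y) j) +
        K * (b i * b j) + K * (Z i * Z j)
  let G0 : Option (Fin n) → Option (Fin n) → ℝ := fun o o' =>
    match o, o' with
    | none, none => -brad p b 0 Z
    | none, some _ => 0
    | some _, none => 0
    | some i, some j => -eval (Sum.elim (pt 0 Z) (pt 0 Z)) (H (some i) (some j)) +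
        K * (grad (tangentForm p b) Z i * grad (tangentForm p b) Z j) +
        K * (b i * b j) + K * (Z i * Z j)
  have hG : ∀ o o', SepC Fx Fy (G o o') (G0 o o') := fun o o' => by
    rcases o with _ | i <;> rcases o' with _ | j
    · exact (hd0.neg.sub (hr'.mul ((hH none none).mul hone))).congr (fun _ _ => rfl) (by simp [G0])
    · exact ((hw.mul ((hH none (some j)).mul hone)).neg.add
        ((SepC.const K).mul (hw.mul (hd0.mul (hgr j))))).congr (fun _ _ => rfl) (by simp [G0])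
    · exact (hw.mul ((hH (some i) none).mul hone)).neg.congr (fun _ _ => rfl) (by simp [G0])
    · exact (((((hH (some i) (some j)).mul hone).neg.add
        ((SepC.const K).mul ((hgr i).mul (hgr j)))).add (SepC.const (K * (b i * b j)))).add
          (SepC.const (K * (Z i * Z j)))).congr (fun _ _ => rfl) (by simp [G0])
  have hexp : ∀ (g v : Fin n → ℝ), ∑ i, ∑ j, g i * g j * v i * v j = (g ⬝ᵥ v) ^ 2 := fun g v => by
    simp only [dotProduct, sq, Finset.sum_mul_sum]
    exact Finset.sum_congr rfl fun i _ => Finset.sum_congr rfl fun j _ => by ring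
  have hd' : 0 < min δ (-brad p b 0 Z) := lt_min hδ (neg_pos.mpr hrad)
  obtain ⟨U, hU, V, hV, hfac⟩ := facOn_form_option G G0 hG hd' fun v => by
    have e1 : ∀ i j : Fin n, G0 (some i) (some j) * v (some i) * v (some j)
        = -(eval (Sum.elim (pt 0 Z) (pt 0 Z)) (H (some i) (some j)) * v (some i) * v (some j)) +
          K * (grad (tangentForm p b) Z i * grad (tangentForm p b) Z j * v (some i) * v (some j)) +
          K * (b i * b j * v (some i) * v (some j)) + K * (Z i * Z j * v (some i) * v (some j)) :=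
      fun i j => by simp only [G0]; ring
    have e2 := hKpos fun i => v (some i)
    simp only [Fintype.sum_option, show ∀ j, G0 none (some j) = 0 from fun _ => rfl,
      show ∀ i, G0 (some i) none = 0 from fun _ => rfl, zero_mul, Finset.sum_const_zero, add_zero,
      zero_add, e1, Finset.sum_add_distrib, Finset.sum_neg_distrib, ← Finset.mul_sum, hexp]
    show min δ (-brad p b 0 Z) * _ ≤ -brad p b 0 Z * v none * v none + _
    simp only [Q, L] at e2
    nlinarith [min_le_left δ (-brad p b 0 Z), min_le_right δ (-brad p b 0 Z), sq_nonneg (v none),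
      Finset.sum_nonneg (fun i (_ : i ∈ Finset.univ) => sq_nonneg (v (some i)))]
  have hge' : ∀ᶠ y in Fy, 0 < bgrad p b (rr y) (XX y) ⬝ᵥ e :=
    (grad_inv_tendsto hry hXy e).eventually (lt_mem_nhds hge)
  let z : Option (Fin n) → (Fin n → ℝ) → (Fin n → ℝ) → ℝ := fun o x y =>
    match o with
    | none => rr x - rr y
    | some i => √(rr x) * (XX x i - XX y i)
  have hz : ∀ o, Sep (z o) := fun o => by
    rcases o with _ | i
    · exact ((Sep.left rr).add (Sep.right fun y => -rr y)).congr fun x y => by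
        show rr x + -rr y = rr x - rr y
        ring
    · exact ((((Sep.left fun x => XX x i).add (Sep.right fun y => -XX y i))).mul_fun
        (fun x => √(rr x)) fun _ => 1).congr fun x y => by
          show √(rr x) * 1 * (XX x i + -XX y i) = √(rr x) * (XX x i - XX y i)
          ring
  refine ⟨_, inter_mem hU hev, _, inter_mem hV ((hev.filter_mono (Ly_le hg Z)).and hge'),
    (((hfac z hz).mono Set.inter_subset_left Set.inter_subset_left).mul (fun x => lam b x)
      (fun y => (bgrad p b (rr y) (XX y) ⬝ᵥ e)⁻¹) (fun x hx => hx.2.1.2.1.le)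
      fun y hy => (inv_pos.mpr hy.2.2).le).congr fun x hx y hy => ?_⟩
  obtain ⟨-, ⟨-, hlx, hrx', -, hbx, -, hcx, -⟩, hkx⟩ := hx
  obtain ⟨-, ⟨⟨-, hly, hry', -, hby, -, hcy, -⟩, hky⟩, -⟩ := hy
  have hdec : ∀ x, k x ≠ 0 → chart b x = b + rr x • XX x := fun x hx => by
    rw [show rr x • XX x = rad b x • dir b x by
      rw [smul_smul]; congr 1; show rad b x * k x * (k x)⁻¹ = rad b x
      rw [mul_assoc, mul_inv_cancel₀ hx, mul_one], rad_dir]
  have hrrx : 0 < rr x := mul_pos hrx' hkx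
  have hrry : 0 < rr y := mul_pos hry' hky
  have hBx : eval (pt (rr x) (XX x)) (blow p b) = 0 :=
    (blow_point hrrx.ne' (by rw [← hdec x hkx.ne']; exact hcx)).1
  obtain ⟨hBy, -, hgY⟩ := blow_point hrry.ne' (Y := XX y)
    (show eval (b + rr y • XX y) p = 0 by rw [← hdec y hky.ne']; exact hcy)
  rw [slack_node hp hlx.ne' hly.ne' hrry.ne' (hdec x hkx.ne') (hdec y hky.ne') hcy]
  congr 1
  set g := bgrad p b (rr y) (XX y)
  set dd := brad p b (rr y) (XX y)
  set D : Fin n → ℝ := fun i => XX x i - XX y i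
  set A : Option (Fin n) → Option (Fin n) → ℝ := fun o o' =>
    eval (Sum.elim (pt (rr x) (XX x)) (pt (rr y) (XX y))) (H o o')
  set w := √(rr x)
  have hww : w * w = rr x := Real.mul_self_sqrt hrrx.le
  have hbD : b ⬝ᵥ D = 0 := by
    show b ⬝ᵥ ((k x)⁻¹ • dir b x - (k y)⁻¹ • dir b y) = 0
    rw [dotProduct_sub, dotProduct_smul, dotProduct_smul, hbx, hby, smul_zero, smul_zero, sub_self]
  have hZk : ∀ u, k u ≠ 0 → Z ⬝ᵥ XX u = Z ⬝ᵥ Z := fun u hu => by
    have h1 : Z ⬝ᵥ dir b u = k u * (Z ⬝ᵥ Z) := (div_mul_cancel₀ _ hZZ.ne').symm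
    show Z ⬝ᵥ ((k u)⁻¹ • dir b u) = _
    rw [dotProduct_smul, h1, smul_eq_mul, ← mul_assoc, inv_mul_cancel₀ hu, one_mul]
  have hZD : Z ⬝ᵥ D = 0 := by
    show Z ⬝ᵥ (XX x - XX y) = 0
    rw [dotProduct_sub, hZk x hkx.ne', hZk y hky.ne', sub_self]
  have htay := tay_spec' (blow p b) (pt (rr x) (XX x)) (pt (rr y) (XX y))
  rw [hBx, hBy, zero_add] at htay
  have hsplit : ∀ M : Option (Fin n) → Option (Fin n) → ℝ, ∀ u : Option (Fin n) → ℝ,
      ∑ o, ∑ o', M o o' * u o * u o' = M none none * u none * u none +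
        (∑ j, M none (some j) * u none * u (some j)) +
        ((∑ i, M (some i) none * u (some i) * u none) +
        ∑ i, ∑ j, M (some i) (some j) * u (some i) * u (some j)) := fun M u => by
    simp [Fintype.sum_option, Finset.sum_add_distrib]
    ring
  rw [hsplit] at htay
  have htay' : dd * (rr x - rr y) + (g ⬝ᵥ D) +
      (A none none * (rr x - rr y) * (rr x - rr y) +
        (∑ j, A none (some j) * (rr x - rr y) * D j) +
        ((∑ i, A (some i) none * D i * (rr x - rr y)) +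
        ∑ i, ∑ j, A (some i) (some j) * D i * D j)) = 0 := by
    rw [Fintype.sum_option] at htay
    exact htay.symm
  have hgX : g ⬝ᵥ XX x = (g ⬝ᵥ D) + rr y * dd := by
    show _ = g ⬝ᵥ (XX x - XX y) + _
    rw [dotProduct_sub, hgY]
    ring
  set z0 := rr x - rr y
  set a := g ⬝ᵥ D
  show ∑ o, ∑ o', G o o' x y * z o x y * z o' x y = _
  rw [hsplit (fun o o' => G o o' x y) (fun o => z o x y)]
  have c0 : G none none x y * z none x y * z none x y
      = -(dd * z0 * z0) - rr x * (1 - K * a) * (A none none * z0 * z0) := by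
    show (-dd - rr x * (A none none * (1 - K * a))) * z0 * z0 = _
    ring
  have c1 : ∀ j, G none (some j) x y * z none x y * z (some j) x y
      = -(rr x * (1 - K * a) * (A none (some j) * z0 * D j)) +
        K * rr x * dd * z0 * (g j * D j) := fun j => by
    show (-(w * (A none (some j) * (1 - K * a))) + K * (w * (dd * g j))) * z0 * (w * D j) = _
    linear_combination (-(A none (some j) * (1 - K * a)) + K * (dd * g j)) * z0 * D j * hww
  have c2 : ∀ i, G (some i) none x y * z (some i) x y * z none x y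
      = -(rr x * (1 - K * a) * (A (some i) none * D i * z0)) := fun i => by
    show (-(w * (A (some i) none * (1 - K * a)))) * (w * D i) * z0 = _
    linear_combination (-(A (some i) none * (1 - K * a))) * z0 * D i * hww
  have c3 : ∀ i j, G (some i) (some j) x y * z (some i) x y * z (some j) x y
      = -(rr x * (1 - K * a) * (A (some i) (some j) * D i * D j)) +
        K * rr x * (g i * g j * D i * D j) + K * rr x * (b i * b j * D i * D j) +
        K * rr x * (Z i * Z j * D i * D j) := fun i j => by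
    show (-(A (some i) (some j) * (1 - K * a)) + K * (g i * g j) + K * (b i * b j) +
      K * (Z i * Z j)) * (w * D i) * (w * D j) = _
    linear_combination (-(A (some i) (some j) * (1 - K * a)) + K * (g i * g j) + K * (b i * b j) +
      K * (Z i * Z j)) * D i * D j * hww
  simp only [c0, c1, c2, c3, Finset.sum_add_distrib, Finset.sum_neg_distrib, ← Finset.mul_sum,
    hexp, hbD, hZD, hgX, show ∑ j, g j * D j = a from rfl]
  linear_combination (K * rr x * a - rr x) * htay'

end Vale.Agent.P256
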