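import Vale.Agent.P256.Garding

/-!
The tangent form at a point of the cone: blow-up, hyperbolicity and its cone.
-/

namespace Vale.Agent.P256

open MvPolynomial Filter Topology

variable {n d : ℕ} {p : MvPolynomial (Fin n) ℝ} {e y : Fin n → ℝ}

/-- The multiplicity of `y`. -/
noncomputable def mult (p : MvPolynomial (Fin n) ℝ) (y : Fin n → ℝ) : ℕ :=
  sInf {j : ℕ | homogeneousComponent j (shift p y) ≠ 0}

theorem tangentForm_eq (p : MvPolynomial (Fin n) ℝ) (y : Fin n → ℝ) :
    tangentForm p y = homogeneousComponent (mult p y) (shift p y) := rfl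

theorem aeval_shift (p : MvPolynomial (Fin n) ℝ) (y : Fin n → ℝ) {R : Type*} [CommRing R]
    [Algebra ℝ R] (z : Fin n → R) :
    aeval z (shift p y) = aeval (fun i => algebraMap ℝ R (y i) + z i) p := by
  unfold shift
  induction p using MvPolynomial.induction_on with
  | C c => simp
  | add q r hq hr => simp only [map_add, hq, hr]
  | mul_X q i hq => simp only [map_mul, aeval_X, map_add, aeval_C, hq]

theorem homComp_lt {j : ℕ} (h : j < mult p y) : homogeneousComponent j (shift p y) = 0 := by
  by_contra hne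
  exact Nat.notMem_of_lt_sInf h hne

theorem shift_ne (hp0 : p ≠ 0) (y : Fin n → ℝ) : shift p y ≠ 0 := fun h => hp0 <| by
  refine MvPolynomial.funext fun x => ?_
  have := aeval_shift p y (R := ℝ) (x - y)
  rw [h] at this
  simpa [aeval_eq_eval] using this.symm

theorem tangentForm_ne (hp0 : p ≠ 0) (y : Fin n → ℝ) : tangentForm p y ≠ 0 := by
  have hex : {j : ℕ | homogeneousComponent j (shift p y) ≠ 0}.Nonempty := by
    by_contra hn
    refine shift_ne hp0 y ?_
    rw [← sum_homogeneousComponent (shift p y)]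
    exact Finset.sum_eq_zero fun j _ => not_not.mp fun hj => hn ⟨j, hj⟩
  exact Nat.sInf_mem hex

theorem tangentForm_homogeneous (p : MvPolynomial (Fin n) ℝ) (y : Fin n → ℝ) :
    (tangentForm p y).IsHomogeneous (mult p y) :=
  homogeneousComponent_isHomogeneous _ _

theorem one_le_mult (hp0 : p ≠ 0) (hy : eval y p = 0) : 1 ≤ mult p y := by
  by_contra h
  refine tangentForm_ne hp0 y ?_
  rw [tangentForm_eq, Nat.lt_one_iff.mp (not_le.mp h), homogeneousComponent_zero]
  have : coeff 0 (shift p y) = 0 := by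
    rw [← constantCoeff_eq]
    have := aeval_shift p y (R := ℝ) 0
    simp only [aeval_eq_eval, Algebra.algebraMap_self, RingHom.id_apply, Pi.zero_apply,
      add_zero] at this
    rw [hy] at this
    simpa using this
  rw [this, map_zero]

/-- The blown-up polynomial: `p (y + r z) = r ^ mult * blow (r, z)`. -/
noncomputable def blow (p : MvPolynomial (Fin n) ℝ) (y : Fin n → ℝ) :
    MvPolynomial (Option (Fin n)) ℝ :=
  ∑ j ∈ Finset.range ((shift p y).totalDegree + 1),
    X none ^ (j - mult p y) * rename some (homogeneousComponent j (shift p y))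

/-- The point `(r, z)`. -/
def pt {R : Type*} (r : R) (z : Fin n → R) : Option (Fin n) → R := fun o => o.elim r z

@[simp] theorem pt_none {R : Type*} (r : R) (z : Fin n → R) : pt r z none = r := rfl

@[simp] theorem pt_some {R : Type*} (r : R) (z : Fin n → R) (i : Fin n) : pt r z (some i) = z i :=
  rfl

theorem blow_spec (p : MvPolynomial (Fin n) ℝ) (y : Fin n → ℝ) {R : Type*} [CommRing R]
    [Algebra ℝ R] (r : R) (z : Fin n → R) :
    aeval (fun i => algebraMap ℝ R (y i) + r * z i) p
      = r ^ mult p y * aeval (pt r z) (blow p y) := by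
  rw [← aeval_shift p y fun i => r * z i]
  conv_lhs => rw [← sum_homogeneousComponent (shift p y)]
  simp only [blow, map_sum, map_mul, map_pow, aeval_X, pt_none, aeval_rename, Finset.mul_sum]
  refine Finset.sum_congr rfl fun j _ => ?_
  rw [aeval_scale (homogeneousComponent_isHomogeneous j _),
    show pt r z ∘ some = z from rfl]
  rcases lt_or_ge j (mult p y) with h | h
  · simp [homComp_lt h]
  · rw [← mul_assoc, ← pow_add, Nat.add_sub_cancel' h]

theorem blow_zero (p : MvPolynomial (Fin n) ℝ) (y : Fin n → ℝ) {R : Type*} [CommRing R]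
    [Algebra ℝ R] (z : Fin n → R) :
    aeval (pt (0:R) z) (blow p y) = aeval z (tangentForm p y) := by
  simp only [blow, map_sum, map_mul, map_pow, aeval_X, pt_none, aeval_rename,
    show pt (0:R) z ∘ some = z from rfl, tangentForm_eq]
  rw [Finset.sum_eq_single (mult p y)]
  · simp
  · intro j _ hj
    rcases lt_or_gt_of_ne hj with h | h
    · simp [homComp_lt h]
    · simp [zero_pow (Nat.sub_ne_zero_of_lt h)]
  · intro h
    rw [Finset.mem_range, not_lt] at h
    simp [homogeneousComponent_eq_zero _ _ (show (shift p y).totalDegree < mult p y by omega)]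

theorem blow_spec' (p : MvPolynomial (Fin n) ℝ) (y z : Fin n → ℝ) (r : ℝ) :
    eval (y + r • z) p = r ^ mult p y * eval (pt r z) (blow p y) := by
  have := blow_spec p y r z
  simp only [aeval_eq_eval, Algebra.algebraMap_self, RingHom.id_apply] at this
  exact this

theorem blow_zero' (p : MvPolynomial (Fin n) ℝ) (y z : Fin n → ℝ) :
    eval (pt 0 z) (blow p y) = eval z (tangentForm p y) := by
  simpa [aeval_eq_eval] using blow_zero p y (R := ℝ) z

theorem continuous_aeval_pt {R : Type*} [CommRing R] [Algebra ℝ R] [TopologicalSpace R]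
    [IsTopologicalRing R] {T : Type*} [TopologicalSpace T] (P : MvPolynomial (Option (Fin n)) ℝ)
    {r : T → R} {z : T → Fin n → R} (hr : Continuous r) (hz : Continuous z) :
    Continuous fun t => aeval (pt (r t) (z t)) P := by
  induction P using MvPolynomial.induction_on with
  | C c => simpa using continuous_const
  | add a b ha hb => simp only [map_add]; exact ha.add hb
  | mul_X a o ha =>
    simp only [map_mul, aeval_X]
    cases o with
    | none => simpa [Pi.mul_def] using ha.mul hr
    | some i => simpa [Pi.mul_def, Function.comp_def] using ha.mul ((continuous_apply i).comp hz)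

theorem blow_tendsto (p : MvPolynomial (Fin n) ℝ) (y : Fin n → ℝ) {z : ℝ → Fin n → ℂ}
    (hz : Continuous z) :
    Tendsto (fun h : ℝ => ((h ^ mult p y)⁻¹ : ℝ) *
      aeval (fun i => (y i : ℂ) + (h:ℂ) * z h i) p) (𝓝[>] 0)
      (𝓝 (aeval (z 0) (tangentForm p y))) := by
  have hc : Continuous fun h : ℝ => aeval (pt (h:ℂ) (z h)) (blow p y) :=
    continuous_aeval_pt _ Complex.continuous_ofReal hz
  have h0 := hc.tendsto 0
  simp only [Complex.ofReal_zero, blow_zero] at h0
  refine (h0.mono_left nhdsWithin_le_nhds).congr' ?_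
  filter_upwards [self_mem_nhdsWithin] with h hh
  have := blow_spec p y (h:ℂ) (z h)
  simp only [Complex.coe_algebraMap] at this
  rw [this, ← mul_assoc, Complex.ofReal_inv, Complex.ofReal_pow,
    inv_mul_cancel₀ (pow_ne_zero _ (by exact_mod_cast (ne_of_gt hh))), one_mul]

/-- Limits of lines: a zero spreads to points closer to all roots. -/
theorem line_limit_zero (hp : p.IsHomogeneous d) {T : Type*} {l : Filter T} [l.NeBot]
    {x a : T → Fin n → ℂ} {c : T → ℂ} (ha : ∀ᶠ t in l, aeval (a t) p ≠ 0) {z w Qz : ℂ}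
    (hle : ∀ᶠ t in l, ∀ ρ, lineVal p (x t) (a t) ρ = 0 → ‖z - ρ‖ ≤ ‖w - ρ‖)
    (hz : Tendsto (fun t => c t * lineVal p (x t) (a t) z) l (𝓝 Qz))
    (hw : Tendsto (fun t => c t * lineVal p (x t) (a t) w) l (𝓝 0)) : Qz = 0 := by
  refine norm_le_zero_iff.mp (le_of_tendsto_of_tendsto hz.norm (by simpa using hw.norm) ?_)
  filter_upwards [ha, hle] with t hat ht
  simp only [norm_mul]
  exact mul_le_mul_of_nonneg_left (lineVal_mono hp _ _ hat ht) (norm_nonneg _)

theorem lineVal_all_zero {q : MvPolynomial (Fin n) ℝ} (x a : Fin n → ℂ) {S : Set ℂ}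
    (hS : S.Infinite) (h : ∀ z ∈ S, lineVal q x a z = 0) (z : ℂ) : lineVal q x a z = 0 := by
  rw [← linePoly_eval,
    Polynomial.eq_zero_of_infinite_isRoot (linePoly q x a)
      (hS.mono fun z hz => show (linePoly q x a).IsRoot z from by
        rw [Polynomial.IsRoot, linePoly_eval]; exact h z hz),
    Polynomial.eval_zero]

theorem eval_dir_zero {q : MvPolynomial (Fin n) ℝ} {m : ℕ} (hq : q.IsHomogeneous m)
    (b a : Fin n → ℂ) (h : ∀ z, lineVal q b a z = 0) : aeval a q = 0 := by
  rw [← lineVal_zero q a b]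
  refine lineVal_all_zero a b ((Set.finite_singleton (0:ℂ)).infinite_compl) (fun w hw => ?_) 0
  rw [lineVal_inv hq a b hw, h, mul_zero]

theorem scale_mem_Lam (hp : p.IsHomogeneous d) (hy : y ∈ hypCone p e) (he : Hyperbolic p e)
    {b : Fin n → ℝ} (hb : b ∈ Lam p e) {h : ℝ} (hh : 0 < h) : y + h • b ∈ Lam p e :=
  add_mem_Lam_right hp he hy (smul_mem_Lam hp hb hh)

theorem tangent_line_tendsto (p : MvPolynomial (Fin n) ℝ) (y b a : Fin n → ℝ) (z : ℂ) :
    Tendsto (fun h : ℝ => ((h ^ mult p y)⁻¹ : ℝ) *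
      lineVal p (cv (y + h • b)) (cv (h • a)) z) (𝓝[>] 0)
      (𝓝 (lineVal (tangentForm p y) (cv b) (cv a) z)) := by
  refine (blow_tendsto p y (z := fun _ i => (b i : ℂ) + z * (a i : ℂ)) continuous_const).congr
    fun h => ?_
  congr 1
  exact congrArg (fun v => aeval v p) (funext fun i => by simp [cv]; ring)

theorem tangent_pos_roots (hp : p.IsHomogeneous d) (he : Hyperbolic p e) {a b : Fin n → ℝ}
    (ha : a ∈ Lam p e) (hb : ∀ᶠ h in 𝓝[>] (0:ℝ), y + h • b ∈ hypCone p a)
    (hqa : eval a (tangentForm p y) ≠ 0) {σ : ℝ} (hσ : 0 < σ) :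
    eval (b + σ • a) (tangentForm p y) ≠ 0 := fun h0 => by
  have hga := garding hp he ha
  refine hqa ?_
  have := eval_dir_zero (tangentForm_homogeneous p y) (cv b) (cv a) (lineVal_all_zero _ _
    ((Set.Ioc_infinite hσ).image Complex.ofReal_injective.injOn) ?_)
  · rw [aeval_cv] at this; exact_mod_cast this
  rintro _ ⟨t, ht, rfl⟩
  have hlim := tangent_line_tendsto p y b a (σ:ℂ)
  rw [lineVal_coe, h0, Complex.ofReal_zero] at hlim
  refine line_limit_zero hp ?_ ?_ (tangent_line_tendsto p y b a (t:ℂ)) hlim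
  · filter_upwards [self_mem_nhdsWithin] with h hh
    rw [aeval_cv, eval_smul hp]
    exact_mod_cast mul_ne_zero (pow_ne_zero _ (ne_of_gt hh)) hga.1.ne'
  · filter_upwards [hb, self_mem_nhdsWithin] with h hh hpos ρ hρ
    replace hpos : 0 < h := hpos
    have hρ' : lineVal p (cv (y + h • b)) (cv a) ((h:ℂ) * ρ) = 0 := by
      rw [← hρ, lineVal, lineVal]
      exact congrArg (fun v => aeval v p) (funext fun i => by simp [cv]; ring)
    obtain ⟨hre, hr0⟩ := line_root_real hga _ hρ'
    have him : ρ.im = 0 := by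
      have := line_im hga _ hρ'
      simpa [hpos.ne'] using this
    have hre0 : ρ.re ≤ 0 := by
      by_contra hc
      refine (mem_hypCone hp).mp hh _ ?_ hr0
      simpa using mul_pos hpos (not_le.mp hc)
    rw [← Complex.ext (z := (ρ.re : ℂ)) (w := ρ) (by simp) (by simp [him]), ← Complex.ofReal_sub,
      ← Complex.ofReal_sub, Complex.norm_real, Complex.norm_real, Real.norm_eq_abs,
      Real.norm_eq_abs, abs_of_nonneg (by linarith [ht.1]), abs_of_nonneg (by linarith)]
    linarith [ht.2]

theorem eval_eq_zero_of_open {q : MvPolynomial (Fin n) ℝ} {U : Set (Fin n → ℝ)} (hU : IsOpen U)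
    {x₀ : Fin n → ℝ} (hx : x₀ ∈ U) (h : ∀ a ∈ U, eval a q = 0) : q = 0 := by
  refine MvPolynomial.funext fun x => ?_
  have hmem : (fun s : ℝ => x₀ + s • (x - x₀)) ⁻¹' U ∈ 𝓝 (0:ℝ) :=
    (hU.preimage (by fun_prop)).mem_nhds (by simpa using hx)
  have hinf : Set.Infinite ((fun s : ℝ => x₀ + s • (x - x₀)) ⁻¹' U) :=
    infinite_of_mem_nhds _ hmem
  have := lineVal_all_zero (q := q) (cv x₀) (cv (x - x₀))
    (hinf.image Complex.ofReal_injective.injOn) (fun z hz => ?_) ((1:ℝ):ℂ)
  · rw [lineVal_coe] at this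
    simpa using this
  · obtain ⟨s, hs, rfl⟩ := hz
    rw [lineVal_coe]
    simp [h _ hs]

theorem tangent_hyperbolic (hp : p.IsHomogeneous d) (he : Hyperbolic p e)
    (hy : y ∈ hypCone p e) : Hyperbolic (tangentForm p y) e := by
  have hp0 : p ≠ 0 := fun h => by simp [h] at he; exact absurd he.1 (by simp)
  have hopen := isOpen_Lam hp he
  have hself := self_mem_Lam hp he
  obtain ⟨a, ha, hqa⟩ : ∃ a ∈ Lam p e, eval a (tangentForm p y) ≠ 0 := by
    by_contra hn
    push Not at hn
    exact tangentForm_ne hp0 y (eval_eq_zero_of_open hopen hself hn)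
  have hqe : eval e (tangentForm p y) ≠ 0 := by
    obtain ⟨δ, hδ, hb⟩ : ∃ δ > (0:ℝ), e - δ • a ∈ Lam p e := by
      have hc : Tendsto (fun δ : ℝ => e - δ • a) (𝓝[>] 0) (𝓝 e) := by
        have : Continuous fun δ : ℝ => e - δ • a := by fun_prop
        simpa using (this.tendsto 0).mono_left nhdsWithin_le_nhds
      obtain ⟨δ, h1, h2⟩ := ((hc.eventually (hopen.mem_nhds hself)).and
        self_mem_nhdsWithin).exists
      exact ⟨δ, h2, h1⟩
    have := tangent_pos_roots hp he ha (b := e - δ • a) ?_ hqa hδ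
    · simpa using this
    · filter_upwards [self_mem_nhdsWithin] with h hh
      exact Lam_sub hp (seg_ne hp he ha (scale_mem_Lam hp hy he hb hh))
  refine ⟨lt_of_le_of_ne ?_ (Ne.symm hqe), fun x z hz => ?_⟩
  · have hlim := tangent_line_tendsto p y e e (0:ℂ)
    simp only [lineVal_zero, aeval_cv] at hlim
    have hre := (Complex.continuous_re.tendsto _).comp hlim
    simp only [Function.comp_def, ← Complex.ofReal_mul, Complex.ofReal_re] at hre
    refine ge_of_tendsto hre ?_
    filter_upwards [self_mem_nhdsWithin] with h hh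
    exact mul_nonneg (inv_nonneg.mpr (pow_nonneg (le_of_lt hh) _))
      (lam_pos hp he (scale_mem_Lam hp hy he hself hh)).le
  · by_contra him
    have h0 : lineVal (tangentForm p y) (cv (-x)) (cv e) z = 0 := by
      rw [← hz, lineVal]
      exact congrArg (fun v => aeval v _) (funext fun i => by simp [cv]; ring)
    refine hqe ?_
    let S : Set ℂ := (fun t : ℝ => (z.re:ℂ) + (t:ℂ) * (z.im:ℂ) * Complex.I) '' Set.Icc 0 1
    have hinj : Set.InjOn (fun t : ℝ => (z.re:ℂ) + (t:ℂ) * (z.im:ℂ) * Complex.I) (Set.Icc 0 1) :=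
      fun s _ t _ h => by
        have := congrArg Complex.im h
        simpa [him] using this
    have := eval_dir_zero (tangentForm_homogeneous p y) (cv (-x)) (cv e)
      (lineVal_all_zero _ _ (S := S) ((Set.Icc_infinite zero_lt_one).image hinj) ?_)
    · rw [aeval_cv] at this; exact_mod_cast this
    rintro _ ⟨t, ht, rfl⟩
    have hw := tangent_line_tendsto p y (-x) e z
    rw [h0] at hw
    refine line_limit_zero hp ?_ ?_ (tangent_line_tendsto p y (-x) e _) hw
    · filter_upwards [self_mem_nhdsWithin] with h hh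
      rw [aeval_cv, eval_smul hp]
      exact_mod_cast mul_ne_zero (pow_ne_zero _ (ne_of_gt hh)) he.1.ne'
    · filter_upwards [self_mem_nhdsWithin] with h hh ρ hρ
      have hρ' : lineVal p (cv (y + h • -x)) (cv e) ((h:ℂ) * ρ) = 0 := by
        rw [← hρ, lineVal, lineVal]
        exact congrArg (fun v => aeval v p) (funext fun i => by simp [cv]; ring)
      have hρim : ρ.im = 0 := by
        have := line_im he _ hρ'
        simpa [ne_of_gt (show (0:ℝ) < h from hh)] using this
      rw [Complex.norm_eq_sqrt_sq_add_sq, Complex.norm_eq_sqrt_sq_add_sq]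
      apply Real.sqrt_le_sqrt
      simp [hρim]
      rw [mul_pow]
      exact mul_le_of_le_one_left (sq_nonneg _) (pow_le_one₀ ht.1 ht.2)

theorem mem_tangentCone (hp : p.IsHomogeneous d) (he : Hyperbolic p e) (hy : y ∈ hypCone p e)
    {b : Fin n → ℝ} (hb : ∀ᶠ h in 𝓝[>] (0:ℝ), y + h • b ∈ hypCone p e) :
    b ∈ hypCone (tangentForm p y) e :=
  (mem_hypCone (tangentForm_homogeneous p y)).mpr fun _ hs =>
    tangent_pos_roots hp he (self_mem_Lam hp he) hb (tangent_hyperbolic hp he hy).1.ne' hs

theorem tangent_shift (hp : p.IsHomogeneous d) (z : Fin n → ℝ) (c : ℝ) :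
    eval (z + c • y) (tangentForm p y) = eval z (tangentForm p y) := by
  have h1 : Tendsto (fun h : ℝ => eval (pt h (z + c • y)) (blow p y)) (𝓝[>] 0)
      (𝓝 (eval (z + c • y) (tangentForm p y))) := by
    have := continuous_aeval_pt (T := ℝ) (blow p y) continuous_id
      (continuous_const (y := z + c • y))
    simp only [aeval_eq_eval] at this
    have := (this.tendsto 0).mono_left (nhdsWithin_le_nhds (s := Set.Ioi (0:ℝ)))
    simpa [blow_zero'] using this
  have h2 : Tendsto (fun h : ℝ => ((1 + h * c) ^ d / (1 + h * c) ^ mult p y) *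
      eval (pt (h / (1 + h * c)) z) (blow p y)) (𝓝[>] 0)
      (𝓝 (eval z (tangentForm p y))) := by
    have hd : ContinuousAt (fun h : ℝ => h / (1 + h * c)) 0 :=
      continuousAt_id.div (by fun_prop) (by norm_num)
    have hP := continuous_aeval_pt (T := ℝ) (blow p y) continuous_id (continuous_const (y := z))
    simp only [aeval_eq_eval] at hP
    have hA : ContinuousAt (fun h : ℝ => (1 + h * c) ^ d / (1 + h * c) ^ mult p y) 0 :=
      (by fun_prop : ContinuousAt (fun h : ℝ => (1 + h * c) ^ d) 0).div (by fun_prop) (by norm_num)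
    have hB : ContinuousAt (fun h : ℝ => eval (pt (h / (1 + h * c)) z) (blow p y)) 0 :=
      hP.continuousAt.comp (f := fun h : ℝ => h / (1 + h * c)) hd
    have := ((hA.mul hB).tendsto).mono_left (nhdsWithin_le_nhds (s := Set.Ioi (0:ℝ)))
    simpa [blow_zero', Pi.mul_def] using this
  refine tendsto_nhds_unique (h1.congr' ?_) h2
  have hpos : ∀ᶠ h in 𝓝[>] (0:ℝ), 0 < 1 + h * c := nhdsWithin_le_nhds
    ((continuous_const.add (continuous_id.mul continuous_const)).tendsto' 0 1 (by simp)
      |>.eventually (lt_mem_nhds zero_lt_one))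
  filter_upwards [hpos, self_mem_nhdsWithin] with h hc hh
  replace hh : 0 < h := hh
  have e1 := blow_spec' p y (z + c • y) h
  have e2 : y + h • (z + c • y) = (1 + h * c) • (y + (h / (1 + h * c)) • z) := by
    rw [smul_add, smul_add, smul_smul, smul_smul, mul_div_cancel₀ _ hc.ne', add_smul, one_smul]
    abel
  rw [e2, eval_smul hp, blow_spec', div_pow] at e1
  field_simp at e1
  field_simp
  linarith

end Vale.Agent.P256
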