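import Vale.Agent.P256.Tangent

/-!
Exact second-order Taylor formulas for polynomials.
-/

namespace Vale.Agent.P256

open MvPolynomial

variable {σ : Type*} [Fintype σ]

theorem exists_taylor (P : MvPolynomial σ ℝ) :
    ∃ H : σ → σ → MvPolynomial (σ ⊕ σ) ℝ, ∀ (R : Type) [CommRing R] [Algebra ℝ R] (X Y : σ → R),
      aeval X P = aeval Y P + ∑ i, aeval Y (pderiv i P) * (X i - Y i) +
        ∑ i, ∑ j, aeval (Sum.elim X Y) (H i j) * (X i - Y i) * (X j - Y j) := by
  classical
  induction P using MvPolynomial.induction_on with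
  | C c => exact ⟨0, fun R _ _ X Y => by simp⟩
  | add a b ha hb =>
    obtain ⟨H, hH⟩ := ha
    obtain ⟨H', hH'⟩ := hb
    refine ⟨H + H', fun R _ _ X Y => ?_⟩
    simp only [map_add, Pi.add_apply, add_mul, Finset.sum_add_distrib, hH R X Y, hH' R X Y]
    ring
  | mul_X a k ha =>
    obtain ⟨H, hH⟩ := ha
    refine ⟨fun i j => H i j * MvPolynomial.X (Sum.inl k) +
      if j = k then rename Sum.inr (pderiv i a) else 0, fun R _ _ X Y => ?_⟩
    have e1 : ∀ i, aeval Y (pderiv i (a * MvPolynomial.X k))
        = aeval Y (pderiv i a) * Y k + if i = k then aeval Y a else 0 := fun i => by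
      rw [pderiv_mul, map_add, map_mul, map_mul, aeval_X]
      by_cases h : i = k
      · subst h; simp
      · simp [h, pderiv_X_of_ne (Ne.symm h)]
    have e2 : ∀ i j, aeval (Sum.elim X Y) (H i j * MvPolynomial.X (Sum.inl k) +
        if j = k then rename Sum.inr (pderiv i a) else 0)
        = aeval (Sum.elim X Y) (H i j) * X k +
          if j = k then aeval Y (pderiv i a) else 0 := fun i j => by
      by_cases h : j = k <;> simp [h, aeval_rename, Function.comp_def]
    simp only [e1, e2, add_mul, Finset.sum_add_distrib, ite_mul, zero_mul, Finset.sum_ite_eq',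
      Finset.mem_univ, if_true, map_mul, aeval_X]
    rw [hH R X Y]
    simp only [add_mul, Finset.sum_mul]
    have e3 : ∀ i, aeval Y (pderiv i a) * (X i - Y i) * X k
        = aeval Y (pderiv i a) * Y k * (X i - Y i) +
          aeval Y (pderiv i a) * (X i - Y i) * (X k - Y k) := fun i => by ring
    simp only [e3, Finset.sum_add_distrib]
    simp only [mul_comm, mul_left_comm]
    ring

/-- Coefficients of the second-order remainder. -/
noncomputable def tay (P : MvPolynomial σ ℝ) : σ → σ → MvPolynomial (σ ⊕ σ) ℝ :=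
  Classical.choose (exists_taylor P)

theorem tay_spec (P : MvPolynomial σ ℝ) {R : Type} [CommRing R] [Algebra ℝ R] (X Y : σ → R) :
    aeval X P = aeval Y P + ∑ i, aeval Y (pderiv i P) * (X i - Y i) +
      ∑ i, ∑ j, aeval (Sum.elim X Y) (tay P i j) * (X i - Y i) * (X j - Y j) :=
  Classical.choose_spec (exists_taylor P) R X Y

theorem tay_spec' (P : MvPolynomial σ ℝ) (X Y : σ → ℝ) :
    eval X P = eval Y P + ∑ i, eval Y (pderiv i P) * (X i - Y i) +
      ∑ i, ∑ j, eval (Sum.elim X Y) (tay P i j) * (X i - Y i) * (X j - Y j) := by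
  simpa [aeval_eq_eval] using tay_spec P X Y

/-- The restriction to the line `Y + s V`. -/
noncomputable def lineR (P : MvPolynomial σ ℝ) (Y V : σ → ℝ) : Polynomial ℝ :=
  aeval (fun i => Polynomial.C (Y i) + Polynomial.X * Polynomial.C (V i)) P

omit [Fintype σ] in
theorem lineR_eval (P : MvPolynomial σ ℝ) (Y V : σ → ℝ) (s : ℝ) :
    (lineR P Y V).eval s = eval (Y + s • V) P := by
  unfold lineR
  induction P using MvPolynomial.induction_on with
  | C c => simp
  | add q r hq hr => simp only [map_add, Polynomial.eval_add, hq, hr]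
  | mul_X q i hq =>
    simp only [map_mul, aeval_X, Polynomial.eval_mul, Polynomial.eval_add, Polynomial.eval_C,
      Polynomial.eval_X, hq, eval_X, Pi.add_apply, Pi.smul_apply, smul_eq_mul]

theorem lineR_coeff_one (P : MvPolynomial σ ℝ) (Y V : σ → ℝ) :
    (lineR P Y V).coeff 1 = ∑ i, eval Y (pderiv i P) * V i := by
  have hC : ∀ Q : MvPolynomial σ ℝ,
      aeval (fun i => Polynomial.C (Y i)) Q = Polynomial.C (eval Y Q) := fun Q => by
    have := aeval_algebraMap_apply (Polynomial ℝ) Y Q
    simpa [aeval_eq_eval, Function.comp_def] using this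
  have h := tay_spec P (R := Polynomial ℝ)
    (fun i => Polynomial.C (Y i) + Polynomial.X * Polynomial.C (V i))
    (fun i => Polynomial.C (Y i))
  simp only [hC, add_sub_cancel_left] at h
  rw [lineR, h]
  simp only [Polynomial.coeff_add, Polynomial.finsetSum_coeff]
  have e1 : ∀ (a : Polynomial ℝ) (u v : ℝ), (a * (Polynomial.X * Polynomial.C u) *
      (Polynomial.X * Polynomial.C v)).coeff 1 = 0 := fun a u v => by
    rw [show a * (Polynomial.X * Polynomial.C u) * (Polynomial.X * Polynomial.C v)
      = (a * Polynomial.C u * Polynomial.C v) * Polynomial.X ^ 2 by ring,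
      Polynomial.coeff_mul_X_pow']
    simp
  simp only [e1, Finset.sum_const_zero, add_zero, Polynomial.coeff_C_succ, zero_add]
  refine Finset.sum_congr rfl fun i _ => ?_
  rw [show Polynomial.C (eval Y (pderiv i P)) * (Polynomial.X * Polynomial.C (V i))
    = Polynomial.C (eval Y (pderiv i P) * V i) * Polynomial.X by rw [Polynomial.C_mul]; ring]
  simp

theorem dirderiv_congr {τ : Type*} [Fintype τ] {P : MvPolynomial σ ℝ} {Q : MvPolynomial τ ℝ}
    {Y V : σ → ℝ} {y v : τ → ℝ} (h : ∀ s : ℝ, eval (Y + s • V) P = eval (y + s • v) Q) :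
    ∑ i, eval Y (pderiv i P) * V i = ∑ i, eval y (pderiv i Q) * v i := by
  rw [← lineR_coeff_one, ← lineR_coeff_one,
    Polynomial.funext (p := lineR P Y V) (q := lineR Q y v) fun s => by
      rw [lineR_eval, lineR_eval, h]]

end Vale.Agent.P256
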